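import Mathlib
import Vale.Agent.P100.H20.Sys

/-!
Weights comparable with a power.
-/

namespace Vale.Agent.P100

/-- A weight of radial degree at least `A`: continuous off the origin, comparable with `|x|^A`, and
`t^A K(x) ≤ K(t x) ≤ t^M K(x)` for all `t ≥ 1` (some `M`).
Every positive continuous function on `ℝ^n` minus the origin which is homogeneous of degree `A`
is such a weight. -/
structure IsWeight (n : ℕ) (A : ℝ) (K : EuclideanSpace ℝ (Fin n) → ℝ) : Prop where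
  continuousOn : ContinuousOn K {0}ᶜ
  comparable : ∃ c C : ℝ, 0 < c ∧ ∀ x, x ≠ 0 → c * ‖x‖ ^ A ≤ K x ∧ K x ≤ C * ‖x‖ ^ A
  growth : ∃ M : ℝ, ∀ x, x ≠ 0 → ∀ t : ℝ, 1 ≤ t →
    t ^ A * K x ≤ K (t • x) ∧ K (t • x) ≤ t ^ M * K x

end Vale.Agent.P100
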