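import Mathlib
import Vale.Agent.P100.Bdl.B3
import Vale.Agent.P100.H20.Defs

set_option linter.all false

/-!
The Pohozaev growth inequality with weights that grow radially at least like a power.
-/

open MeasureTheory Set Real Filter Topology Function

namespace Vale.Agent.P100.H20

open Vale.Agent.P100.RM

/-- Integration by parts inequality for `V` with `e^{-wt} V(t)` nondecreasing. -/
lemma stieltjes {V f f1 : ℝ → ℝ} {w a b : ℝ} (hab : a ≤ b) (cV : Continuous V)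
    (hV : ∀ s t, s ≤ t → exp (w * (t - s)) * V s ≤ V t)
    (cf : Continuous f) (f0 : ∀ t, 0 ≤ f t) (cf1 : Continuous f1)
    (hf : ∀ t, HasDerivAt f (f1 t) t) :
    ∫ s in a..b, (V s * f1 s + w * (V s * f s)) ≤ V b * f b - V a * f a := by
  have cg : Continuous fun s => V s * f1 s + w * (V s * f s) := by fun_prop
  have key := image_le_of_liminf_slope_right_le_deriv_boundary
    (f := fun t => -(V t * f t)) (a := a) (b := b)
    (B := fun t => -(V a * f a) - ∫ s in a..t, (V s * f1 s + w * (V s * f s)))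
    (B' := fun t => -(V t * f1 t + w * (V t * f t)))
    (by fun_prop) (by simp) ?_ ?_ ?_ (right_mem_Icc.2 hab)
  · linarith only [key]
  · have h1 : Continuous fun t => ∫ s in a..t, (V s * f1 s + w * (V s * f s)) :=
      intervalIntegral.continuous_primitive (fun c d => cg.intervalIntegrable c d) a
    exact (continuous_const.sub h1).continuousOn
  · intro x _
    have h1 : HasDerivAt (fun t => ∫ s in a..t, (V s * f1 s + w * (V s * f s)))
        (V x * f1 x + w * (V x * f x)) x :=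
      intervalIntegral.integral_hasDerivAt_right (cg.intervalIntegrable _ _)
        (cg.stronglyMeasurableAtFilter _ _) cg.continuousAt
    exact (h1.const_sub _).hasDerivWithinAt
  · intro x _ r hr
    have hφ : HasDerivAt (fun z => -(exp (w * (z - x)) * V x * f z))
        (-(V x * f1 x + w * (V x * f x))) x := by
      have e1 : HasDerivAt (fun z : ℝ => exp (w * (z - x))) (exp (w * (x - x)) * (w * 1)) x :=
        (((hasDerivAt_id x).sub_const x).const_mul w).exp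
      have e2 := ((e1.mul_const (V x)).fun_mul (hf x)).fun_neg
      refine e2.congr_deriv ?_
      simp only [sub_self, mul_zero, exp_zero, one_mul, mul_one]
      ring
    have h1 := (hasDerivAt_iff_tendsto_slope.1 hφ).mono_left
      (nhdsWithin_mono x (fun z (hz : x < z) => ne_of_gt hz : Ioi x ⊆ {x}ᶜ))
    have h2 := h1.eventually_lt_const hr
    apply Eventually.frequently
    filter_upwards [h2, self_mem_nhdsWithin] with z hz hxz
    have hxz' : x < z := hxz
    refine lt_of_le_of_lt ?_ hz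
    rw [slope_def_field, slope_def_field]
    apply div_le_div_of_nonneg_right _ (by linarith only [hxz'])
    have h3 := mul_le_mul_of_nonneg_right (hV x z hxz'.le) (f0 z)
    simp only [sub_self, mul_zero, exp_zero, one_mul]
    linarith only [h3]

variable {S : Type*} [MetricSpace S] [CompactSpace S] [MeasurableSpace S] [BorelSpace S]
  {sg : Measure S} [IsFiniteMeasure sg]

/-- Data of a solution on the cylinder, with weights `W1`, `W2`. -/
structure DatW (S : Type*) [MetricSpace S] (p q d lam w1 w2 : ℝ) where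
  X : ℝ → S → ℝ
  X1 : ℝ → S → ℝ
  X2 : ℝ → S → ℝ
  SX : ℝ → S → ℝ
  Y : ℝ → S → ℝ
  Y1 : ℝ → S → ℝ
  Y2 : ℝ → S → ℝ
  SY : ℝ → S → ℝ
  W1 : ℝ → S → ℝ
  W2 : ℝ → S → ℝ
  hX : ∀ t θ, HasDerivAt (fun s => X s θ) (X1 t θ) t
  hX1 : ∀ t θ, HasDerivAt (fun s => X1 s θ) (X2 t θ) t
  hY : ∀ t θ, HasDerivAt (fun s => Y s θ) (Y1 t θ) t
  hY1 : ∀ t θ, HasDerivAt (fun s => Y1 s θ) (Y2 t θ) t
  cX : Continuous (uncurry X)
  cX1 : Continuous (uncurry X1)
  cX2 : Continuous (uncurry X2)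
  cSX : Continuous (uncurry SX)
  cY : Continuous (uncurry Y)
  cY1 : Continuous (uncurry Y1)
  cY2 : Continuous (uncurry Y2)
  cSY : Continuous (uncurry SY)
  cW1 : Continuous (uncurry W1)
  cW2 : Continuous (uncurry W2)
  mW1 : ∀ θ s t, s ≤ t → exp (w1 * (t - s)) * W1 s θ ≤ W1 t θ
  mW2 : ∀ θ s t, s ≤ t → exp (w2 * (t - s)) * W2 s θ ≤ W2 t θ
  pX : ∀ t θ, 0 < X t θ
  pY : ∀ t θ, 0 < Y t θ
  eX : ∀ t θ, X2 t θ - 2 * d * X1 t θ + SX t θ - lam * X t θ + W1 t θ * Y t θ ^ p = 0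
  eY : ∀ t θ, Y2 t θ + 2 * d * Y1 t θ + SY t θ - lam * Y t θ + W2 t θ * X t θ ^ q = 0

namespace DatW

variable {p q d lam w1 w2 : ℝ}

/-- The first potential term. -/
noncomputable def P (D : DatW S p q d lam w1 w2) (t : ℝ) (θ : S) : ℝ :=
  D.W1 t θ * D.Y t θ ^ (p + 1) / (p + 1)

/-- The second potential term. -/
noncomputable def Q (D : DatW S p q d lam w1 w2) (t : ℝ) (θ : S) : ℝ :=
  D.W2 t θ * D.X t θ ^ (q + 1) / (q + 1)

/-- The kinetic density. -/
noncomputable def kd (D : DatW S p q d lam w1 w2) (t : ℝ) (θ : S) : ℝ :=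
  D.X1 t θ * D.Y1 t θ + D.SX t θ * D.Y t θ - lam * (D.X t θ * D.Y t θ)

/-- The Hamiltonian density. -/
noncomputable def dens (D : DatW S p q d lam w1 w2) (t : ℝ) (θ : S) : ℝ :=
  D.X1 t θ * D.Y1 t θ + D.SX t θ * D.Y t θ - lam * (D.X t θ * D.Y t θ) + D.P t θ + D.Q t θ

/-- The Hamiltonian. -/
noncomputable def H (sg : Measure S) (D : DatW S p q d lam w1 w2) (t : ℝ) : ℝ :=
  ∫ θ, D.dens t θ ∂sg

/-- The kinetic part. -/
noncomputable def Kin (sg : Measure S) (D : DatW S p q d lam w1 w2) (t : ℝ) : ℝ :=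
  ∫ θ, D.kd t θ ∂sg

/-- The growth density of the kinetic part. -/
noncomputable def G0 (D : DatW S p q d lam w1 w2) (t : ℝ) (θ : S) : ℝ :=
  -(D.W1 t θ * D.Y t θ ^ p * D.Y1 t θ + D.W2 t θ * D.X t θ ^ q * D.X1 t θ)

/-- The growth density. -/
noncomputable def G (D : DatW S p q d lam w1 w2) (t : ℝ) (θ : S) : ℝ :=
  w1 * D.P t θ + w2 * D.Q t θ

lemma cont_P (D : DatW S p q d lam w1 w2) (hp : 0 < p) : Continuous (uncurry D.P) := by
  have h1 : Continuous fun x : ℝ × S => D.Y x.1 x.2 ^ (p + 1) :=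
    D.cY.rpow_const fun x => Or.inr (by linarith only [hp])
  exact (D.cW1.mul h1).div_const _

lemma cont_Q (D : DatW S p q d lam w1 w2) (hq : 0 < q) : Continuous (uncurry D.Q) := by
  have h1 : Continuous fun x : ℝ × S => D.X x.1 x.2 ^ (q + 1) :=
    D.cX.rpow_const fun x => Or.inr (by linarith only [hq])
  exact (D.cW2.mul h1).div_const _

lemma cont_G0 (D : DatW S p q d lam w1 w2) (hp : 0 < p) (hq : 0 < q) :
    Continuous (uncurry D.G0) := by
  have h1 : Continuous fun x : ℝ × S => D.Y x.1 x.2 ^ p :=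
    D.cY.rpow_const fun x => Or.inr hp.le
  have h2 : Continuous fun x : ℝ × S => D.X x.1 x.2 ^ q :=
    D.cX.rpow_const fun x => Or.inr hq.le
  exact (((D.cW1.mul h1).mul D.cY1).add ((D.cW2.mul h2).mul D.cX1)).neg

lemma cont_G (D : DatW S p q d lam w1 w2) (hp : 0 < p) (hq : 0 < q) :
    Continuous (uncurry D.G) :=
  (continuous_const.mul (D.cont_P hp)).add (continuous_const.mul (D.cont_Q hq))

lemma cont_kd (D : DatW S p q d lam w1 w2) : Continuous (uncurry D.kd) :=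
  ((D.cX1.mul D.cY1).add (D.cSX.mul D.cY)).sub (continuous_const.mul (D.cX.mul D.cY))

/-- Approximate kinetic density. -/
noncomputable def hk (D : DatW S p q d lam w1 w2) {ι : Type*} [Fintype ι] (κ : ℝ) (R : ι → S → S)
    (t : ℝ) (θ : S) : ℝ :=
  D.X1 t θ * D.Y1 t θ + Lop κ R (D.X t) θ * D.Y t θ - lam * (D.X t θ * D.Y t θ)

/-- Its axial derivative. -/
noncomputable def hk1 (D : DatW S p q d lam w1 w2) {ι : Type*} [Fintype ι] (κ : ℝ) (R : ι → S → S)
    (t : ℝ) (θ : S) : ℝ :=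
  (D.X2 t θ * D.Y1 t θ + D.X1 t θ * D.Y2 t θ) +
    (Lop κ R (D.X1 t) θ * D.Y t θ + Lop κ R (D.X t) θ * D.Y1 t θ) -
    lam * (D.X1 t θ * D.Y t θ + D.X t θ * D.Y1 t θ)

section

variable {ι : Type*} [Fintype ι]

lemma hasDerivAt_hk (D : DatW S p q d lam w1 w2) (κ : ℝ) (R : ι → S → S)
    (t : ℝ) (θ : S) : HasDerivAt (fun s => D.hk κ R s θ) (D.hk1 κ R t θ) t := by
  unfold hk hk1
  exact ((((D.hX1 t θ).fun_mul (D.hY1 t θ))).fun_add
    ((Lop_hasDerivAt D.hX t θ).fun_mul (D.hY t θ))).fun_sub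
    (((D.hX t θ).fun_mul (D.hY t θ)).const_mul lam)

lemma cont_hk (D : DatW S p q d lam w1 w2) {κ : ℝ} {R : ι → S → S}
    (hR : ∀ i, Continuous (R i)) : Continuous (uncurry (D.hk κ R)) := by
  have h1 := Lop_cont (κ := κ) hR D.cX
  exact ((D.cX1.mul D.cY1).add (h1.mul D.cY)).sub (continuous_const.mul (D.cX.mul D.cY))

lemma cont_hk1 (D : DatW S p q d lam w1 w2) {κ : ℝ} {R : ι → S → S}
    (hR : ∀ i, Continuous (R i)) : Continuous (uncurry (D.hk1 κ R)) := by
  have h1 := Lop_cont (κ := κ) hR D.cX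
  have h2 := Lop_cont (κ := κ) hR D.cX1
  exact (((D.cX2.mul D.cY1).add (D.cX1.mul D.cY2)).add ((h2.mul D.cY).add (h1.mul D.cY1))).sub
    (continuous_const.mul ((D.cX1.mul D.cY).add (D.cX.mul D.cY1)))

/-- The slice integral of the derivative of the approximate density. -/
lemma int_hk1 (D : DatW S p q d lam w1 w2) {κ : ℝ} {R : ι → S → S}
    (hR : ∀ i, Continuous (R i))
    (hsymm : ∀ F G : S → ℝ, Continuous F → Continuous G →
      ∫ θ, Lop κ R F θ * G θ ∂sg = ∫ θ, F θ * Lop κ R G θ ∂sg) (t : ℝ) :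
    ∫ θ, D.hk1 κ R t θ ∂sg = ∫ θ, (D.G0 t θ + (D.Y1 t θ * (Lop κ R (D.X t) θ - D.SX t θ) +
      D.X1 t θ * (Lop κ R (D.Y t) θ - D.SY t θ))) ∂sg := by
  have e := hsymm (D.X1 t) (D.Y t) (cont_slice D.cX1 t) (cont_slice D.cY t)
  have cLX := cont_slice (Lop_cont (κ := κ) hR D.cX) t
  have cLX1 := cont_slice (Lop_cont (κ := κ) hR D.cX1) t
  have cLY := cont_slice (Lop_cont (κ := κ) hR D.cY) t
  have cY := cont_slice D.cY t
  have cX1 := cont_slice D.cX1 t
  have i1 : Integrable (fun θ => Lop κ R (D.X1 t) θ * D.Y t θ) sg := integrable_cont (cLX1.mul cY)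
  have i2 : Integrable (fun θ => D.X1 t θ * Lop κ R (D.Y t) θ) sg := integrable_cont (cX1.mul cLY)
  have i0 : Integrable (fun θ => D.hk1 κ R t θ) sg := integrable_cont (cont_slice (D.cont_hk1 hR) t)
  have h1 : ∫ θ, D.hk1 κ R t θ ∂sg = ∫ θ, (D.hk1 κ R t θ - Lop κ R (D.X1 t) θ * D.Y t θ +
      D.X1 t θ * Lop κ R (D.Y t) θ) ∂sg := by
    have i3 : Integrable (fun θ => D.hk1 κ R t θ - Lop κ R (D.X1 t) θ * D.Y t θ) sg := i0.sub i1
    rw [integral_add i3 i2, integral_sub i0 i1, e]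
    ring
  rw [h1]
  congr 1
  ext θ
  have e1 := D.eX t θ
  have e2 := D.eY t θ
  unfold hk1 G0
  linear_combination (D.Y1 t θ) * e1 + (D.X1 t θ) * e2

end

/-- Growth identity of the kinetic part. -/
theorem growth0 (D : DatW S p q d lam w1 w2) (hp : 0 < p) (hq : 0 < q) {ι : Type*} [Fintype ι]
    (κ : ℕ → ℝ) (R : ℕ → ι → S → S) (hR : ∀ k i, Continuous (R k i))
    (hsymm : ∀ k, ∀ F G : S → ℝ, Continuous F → Continuous G →
      ∫ θ, Lop (κ k) (R k) F θ * G θ ∂sg = ∫ θ, F θ * Lop (κ k) (R k) G θ ∂sg)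
    (hunifX : ∀ L : ℝ, ∀ e > 0, ∀ᶠ k in atTop, ∀ s, |s| ≤ L → ∀ θ,
      |Lop (κ k) (R k) (D.X s) θ - D.SX s θ| ≤ e)
    (hunifY : ∀ L : ℝ, ∀ e > 0, ∀ᶠ k in atTop, ∀ s, |s| ≤ L → ∀ θ,
      |Lop (κ k) (R k) (D.Y s) θ - D.SY s θ| ≤ e) {a b : ℝ} (hab : a ≤ b) :
    D.Kin sg b - D.Kin sg a = ∫ s in a..b, (∫ θ, D.G0 s θ ∂sg) := by
  set L : ℝ := max |a| |b| with hL
  have hs : ∀ s ∈ Icc a b, |s| ≤ L := fun s hs => abs_le_max_abs_abs hs.1 hs.2
  -- bounds for the derivatives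
  obtain ⟨M1, hM1⟩ := ((isCompact_Icc (a := a) (b := b)).prod
    (isCompact_univ (X := S))).exists_bound_of_continuousOn D.cX1.continuousOn
  obtain ⟨M2, hM2⟩ := ((isCompact_Icc (a := a) (b := b)).prod
    (isCompact_univ (X := S))).exists_bound_of_continuousOn D.cY1.continuousOn
  obtain ⟨M3, hM3⟩ := ((isCompact_Icc (a := a) (b := b)).prod
    (isCompact_univ (X := S))).exists_bound_of_continuousOn D.cY.continuousOn
  set M : ℝ := |M1| + |M2| + |M3| with hM
  set W : ℝ := sg.real univ with hW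
  have hW0 : 0 ≤ W := measureReal_nonneg
  have key : ∀ e > 0, |(D.Kin sg b - D.Kin sg a) - ∫ s in a..b, (∫ θ, D.G0 s θ ∂sg)| ≤
      e * (M * W * 2 + 2 * M * W * (b - a)) := by
    intro e he
    obtain ⟨k, hkX, hkY⟩ := ((hunifX L e he).and (hunifY L e he)).exists
    have hf := slice_ftc (sg := sg) (D.hasDerivAt_hk (κ k) (R k)) (D.cont_hk (hR k))
      (D.cont_hk1 (hR k)) a b
    have hdiff : ∀ t ∈ Icc a b, |(∫ θ, D.hk (κ k) (R k) t θ ∂sg) - D.Kin sg t| ≤ e * (M * W) := by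
      intro t ht
      unfold Kin
      rw [← integral_sub (integrable_cont (cont_slice (D.cont_hk (hR k)) t))
        (integrable_cont (cont_slice D.cont_kd t))]
      have : ∀ θ, |D.hk (κ k) (R k) t θ - D.kd t θ| ≤ e * M := by
        intro θ
        have h1 : D.hk (κ k) (R k) t θ - D.kd t θ =
            (Lop (κ k) (R k) (D.X t) θ - D.SX t θ) * D.Y t θ := by
          unfold hk kd; ring
        rw [h1, abs_mul]
        have h2 := hkX t (hs t ht) θ
        have h3 : |D.Y t θ| ≤ M3 := hM3 (t, θ) ⟨ht, mem_univ _⟩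
        have h4 : |D.Y t θ| ≤ M := h3.trans ((le_abs_self _).trans (by
          rw [hM]; have := abs_nonneg M1; have := abs_nonneg M2; linarith))
        exact mul_le_mul h2 h4 (abs_nonneg _) he.le
      have h5 := norm_integral_le_of_norm_le_const (μ := sg) (f := fun θ =>
        D.hk (κ k) (R k) t θ - D.kd t θ) (Eventually.of_forall this)
      rw [Real.norm_eq_abs] at h5
      calc _ ≤ e * M * sg.real univ := h5
        _ = _ := by rw [← hW]; ring
    have hcr : ∀ s ∈ Icc a b, |(∫ θ, D.hk1 (κ k) (R k) s θ ∂sg) - ∫ θ, D.G0 s θ ∂sg| ≤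
        2 * e * M * W := by
      intro s hs'
      rw [D.int_hk1 (hR k) (hsymm k) s]
      have cLX := cont_slice (Lop_cont (κ := κ k) (hR k) D.cX) s
      have cLY := cont_slice (Lop_cont (κ := κ k) (hR k) D.cY) s
      have c1 : Continuous fun θ => (D.Y1 s θ * (Lop (κ k) (R k) (D.X s) θ - D.SX s θ) +
          D.X1 s θ * (Lop (κ k) (R k) (D.Y s) θ - D.SY s θ)) :=
        ((cont_slice D.cY1 s).mul (cLX.sub (cont_slice D.cSX s))).add
          ((cont_slice D.cX1 s).mul (cLY.sub (cont_slice D.cSY s)))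
      rw [integral_add (integrable_cont (cont_slice (D.cont_G0 hp hq) s)) (integrable_cont c1),
        add_sub_cancel_left]
      have : ∀ θ, |D.Y1 s θ * (Lop (κ k) (R k) (D.X s) θ - D.SX s θ) +
          D.X1 s θ * (Lop (κ k) (R k) (D.Y s) θ - D.SY s θ)| ≤ 2 * e * M := by
        intro θ
        have h1 : |D.X1 s θ| ≤ M := (hM1 (s, θ) ⟨hs', mem_univ _⟩).trans ((le_abs_self _).trans (by
          rw [hM]; have := abs_nonneg M2; have := abs_nonneg M3; linarith))
        have h2 : |D.Y1 s θ| ≤ M := (hM2 (s, θ) ⟨hs', mem_univ _⟩).trans ((le_abs_self _).trans (by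
          rw [hM]; have := abs_nonneg M1; have := abs_nonneg M3; linarith))
        have h3 := hkX s (hs s hs') θ
        have h4 := hkY s (hs s hs') θ
        have h5 : |D.Y1 s θ * (Lop (κ k) (R k) (D.X s) θ - D.SX s θ)| ≤ M * e := by
          rw [abs_mul]; exact mul_le_mul h2 h3 (abs_nonneg _) ((abs_nonneg _).trans h2)
        have h6 : |D.X1 s θ * (Lop (κ k) (R k) (D.Y s) θ - D.SY s θ)| ≤ M * e := by
          rw [abs_mul]; exact mul_le_mul h1 h4 (abs_nonneg _) ((abs_nonneg _).trans h1)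
        calc _ ≤ _ := abs_add_le _ _
          _ ≤ 2 * e * M := by linarith only [h5, h6]
      have h5 := norm_integral_le_of_norm_le_const (μ := sg) (f := fun θ =>
        D.Y1 s θ * (Lop (κ k) (R k) (D.X s) θ - D.SX s θ) +
          D.X1 s θ * (Lop (κ k) (R k) (D.Y s) θ - D.SY s θ)) (Eventually.of_forall this)
      rw [Real.norm_eq_abs] at h5
      exact h5
    have hint : |(∫ s in a..b, (∫ θ, D.hk1 (κ k) (R k) s θ ∂sg)) -
        ∫ s in a..b, (∫ θ, D.G0 s θ ∂sg)| ≤ 2 * e * M * W * (b - a) := by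
      rw [← intervalIntegral.integral_sub
        ((cont_int (D.cont_hk1 (hR k))).intervalIntegrable _ _)
        ((cont_int (D.cont_G0 hp hq)).intervalIntegrable _ _)]
      have := intervalIntegral.norm_integral_le_of_norm_le_const (a := a) (b := b)
        (C := 2 * e * M * W) (f := fun s => (∫ θ, D.hk1 (κ k) (R k) s θ ∂sg) - ∫ θ, D.G0 s θ ∂sg) (by
          intro s hs'
          rw [uIoc_of_le hab] at hs'
          exact hcr s (Ioc_subset_Icc_self hs'))
      rwa [abs_of_nonneg (by linarith : 0 ≤ b - a)] at this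
    have h1 := hdiff a (left_mem_Icc.2 hab)
    have h2 := hdiff b (right_mem_Icc.2 hab)
    have e1 : (D.Kin sg b - D.Kin sg a) - ∫ s in a..b, (∫ θ, D.G0 s θ ∂sg) =
        -((∫ θ, D.hk (κ k) (R k) b θ ∂sg) - D.Kin sg b) +
        ((∫ θ, D.hk (κ k) (R k) a θ ∂sg) - D.Kin sg a) +
        ((∫ s in a..b, (∫ θ, D.hk1 (κ k) (R k) s θ ∂sg)) - ∫ s in a..b, (∫ θ, D.G0 s θ ∂sg)) := by
      rw [← hf]; ring
    rw [e1]
    have h3 := abs_add_le (-((∫ θ, D.hk (κ k) (R k) b θ ∂sg) - D.Kin sg b) +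
        ((∫ θ, D.hk (κ k) (R k) a θ ∂sg) - D.Kin sg a))
        ((∫ s in a..b, (∫ θ, D.hk1 (κ k) (R k) s θ ∂sg)) - ∫ s in a..b, (∫ θ, D.G0 s θ ∂sg))
    have h4 := abs_add_le (-((∫ θ, D.hk (κ k) (R k) b θ ∂sg) - D.Kin sg b))
        ((∫ θ, D.hk (κ k) (R k) a θ ∂sg) - D.Kin sg a)
    rw [abs_neg] at h4
    linarith only [hint, h1, h2, h3, h4]
  have hM0 : 0 ≤ M := by rw [hM]; (clear * -; positivity)
  have hC0 : 0 ≤ M * W * 2 + 2 * M * W * (b - a) := by
    have : 0 ≤ b - a := by linarith only [hab]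
    (clear * - hab; positivity)
  have hzero : |(D.Kin sg b - D.Kin sg a) - ∫ s in a..b, (∫ θ, D.G0 s θ ∂sg)| ≤ 0 := by
    apply le_of_forall_pos_le_add
    intro ε hε
    set C := M * W * 2 + 2 * M * W * (b - a) with hC
    have := key (ε / (C + 1)) (by (clear * - hε hab; positivity))
    refine this.trans ?_
    rw [zero_add, div_mul_eq_mul_div, div_le_iff₀ (by (clear * - hab; positivity))]
    nlinarith only [hε]
  have := abs_nonpos_iff.1 hzero
  linarith only [this]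

/-- One potential term. -/
lemma pot_grow {Z Z1 W : ℝ → S → ℝ} {r w : ℝ} (hr : 0 < r)
    (cZ : Continuous (uncurry Z)) (cZ1 : Continuous (uncurry Z1)) (cW : Continuous (uncurry W))
    (pZ : ∀ t θ, 0 < Z t θ) (hZ : ∀ t θ, HasDerivAt (fun s => Z s θ) (Z1 t θ) t)
    (mW : ∀ θ s t, s ≤ t → exp (w * (t - s)) * W s θ ≤ W t θ) {a b : ℝ} (hab : a ≤ b) :
    ∫ s in a..b, (∫ θ, (W s θ * Z s θ ^ r * Z1 s θ + w * (W s θ * Z s θ ^ (r + 1) / (r + 1))) ∂sg) ≤
      (∫ θ, W b θ * Z b θ ^ (r + 1) / (r + 1) ∂sg) - ∫ θ, W a θ * Z a θ ^ (r + 1) / (r + 1) ∂sg := by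
  have hr1 : r + 1 ≠ 0 := by positivity
  have c1 : Continuous fun x : ℝ × S => Z x.1 x.2 ^ (r + 1) :=
    cZ.rpow_const fun x => Or.inr (by linarith only [hr])
  have c0 : Continuous fun x : ℝ × S => Z x.1 x.2 ^ r := cZ.rpow_const fun x => Or.inr hr.le
  have cP : Continuous (uncurry fun t θ => W t θ * Z t θ ^ (r + 1) / (r + 1)) :=
    (cW.mul c1).div_const _
  have cF : Continuous (uncurry fun s θ => W s θ * Z s θ ^ r * Z1 s θ +
      w * (W s θ * Z s θ ^ (r + 1) / (r + 1))) :=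
    ((cW.mul c0).mul cZ1).add (continuous_const.mul cP)
  rw [← swap_int cF, ← integral_sub (integrable_cont (cont_slice cP b))
    (integrable_cont (cont_slice cP a))]
  have cI : Continuous fun θ => ∫ s in a..b, (W s θ * Z s θ ^ r * Z1 s θ +
      w * (W s θ * Z s θ ^ (r + 1) / (r + 1))) := by
    have h1 : Continuous (uncurry fun (θ : S) (s : ℝ) => W s θ * Z s θ ^ r * Z1 s θ +
      w * (W s θ * Z s θ ^ (r + 1) / (r + 1))) := cF.comp continuous_swap
    exact intervalIntegral.continuous_parametric_intervalIntegral_of_continuous' h1 a b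
  apply integral_mono (integrable_cont cI)
    (integrable_cont ((cont_slice cP b).sub (cont_slice cP a)))
  intro θ
  have hd : ∀ t, HasDerivAt (fun s => Z s θ ^ (r + 1) / (r + 1)) (Z t θ ^ r * Z1 t θ) t := by
    intro t
    have h2 : HasDerivAt (fun s => Z s θ ^ (r + 1))
        (Z1 t θ * (r + 1) * Z t θ ^ (r + 1 - 1)) t :=
      (hZ t θ).rpow_const (Or.inl (pZ t θ).ne')
    refine (h2.div_const (r + 1)).congr_deriv ?_
    rw [show r + 1 - 1 = r by ring]
    field_simp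
  have cl0 : Continuous fun t => Z t θ ^ r :=
    c0.comp (by fun_prop : Continuous fun t : ℝ => (t, θ))
  have cl1 : Continuous fun t => Z t θ ^ (r + 1) :=
    c1.comp (by fun_prop : Continuous fun t : ℝ => (t, θ))
  have clZ : Continuous fun t => Z t θ ^ r * Z1 t θ := cl0.mul (cont_line cZ1 θ)
  have key := stieltjes (V := fun s => W s θ) (f := fun s => Z s θ ^ (r + 1) / (r + 1))
    (f1 := fun s => Z s θ ^ r * Z1 s θ) (w := w) hab (cont_line cW θ) (mW θ)
    (cl1.div_const _) (fun t => by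
      have := pZ t θ
      have h3 : 0 < r + 1 := by linarith only [hr]
      exact div_nonneg (rpow_nonneg this.le _) h3.le)
    clZ hd
  refine le_trans (le_of_eq ?_) (key.trans (le_of_eq ?_))
  · apply intervalIntegral.integral_congr
    intro s _
    ring
  · show _ = W b θ * Z b θ ^ (r + 1) / (r + 1) - W a θ * Z a θ ^ (r + 1) / (r + 1)
    ring

/-- **Growth inequality.** -/
theorem growthW (D : DatW S p q d lam w1 w2) (hp : 0 < p) (hq : 0 < q) {ι : Type*} [Fintype ι]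
    (κ : ℕ → ℝ) (R : ℕ → ι → S → S) (hR : ∀ k i, Continuous (R k i))
    (hsymm : ∀ k, ∀ F G : S → ℝ, Continuous F → Continuous G →
      ∫ θ, Lop (κ k) (R k) F θ * G θ ∂sg = ∫ θ, F θ * Lop (κ k) (R k) G θ ∂sg)
    (hunifX : ∀ L : ℝ, ∀ e > 0, ∀ᶠ k in atTop, ∀ s, |s| ≤ L → ∀ θ,
      |Lop (κ k) (R k) (D.X s) θ - D.SX s θ| ≤ e)
    (hunifY : ∀ L : ℝ, ∀ e > 0, ∀ᶠ k in atTop, ∀ s, |s| ≤ L → ∀ θ,
      |Lop (κ k) (R k) (D.Y s) θ - D.SY s θ| ≤ e) {a b : ℝ} (hab : a ≤ b) :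
    ∫ s in a..b, (∫ θ, D.G s θ ∂sg) ≤ D.H sg b - D.H sg a := by
  have h0 := D.growth0 hp hq κ R hR hsymm hunifX hunifY hab
  have h1 := pot_grow (sg := sg) hp D.cY D.cY1 D.cW1 D.pY D.hY D.mW1 hab
  have h2 := pot_grow (sg := sg) hq D.cX D.cX1 D.cW2 D.pX D.hX D.mW2 hab
  have hH : ∀ t, D.H sg t = D.Kin sg t + (∫ θ, D.W1 t θ * D.Y t θ ^ (p + 1) / (p + 1) ∂sg) +
      ∫ θ, D.W2 t θ * D.X t θ ^ (q + 1) / (q + 1) ∂sg := by
    intro t
    have iK : Integrable (fun θ => D.kd t θ) sg := integrable_cont (cont_slice D.cont_kd t)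
    have iP : Integrable (fun θ => D.P t θ) sg := integrable_cont (cont_slice (D.cont_P hp) t)
    have iQ : Integrable (fun θ => D.Q t θ) sg := integrable_cont (cont_slice (D.cont_Q hq) t)
    have e : D.H sg t = ∫ θ, (D.kd t θ + D.P t θ + D.Q t θ) ∂sg := rfl
    have iKP : Integrable (fun θ => D.kd t θ + D.P t θ) sg := iK.add iP
    rw [e, integral_add iKP iQ, integral_add iK iP]
    rfl
  have cY1' : Continuous fun x : ℝ × S => D.Y x.1 x.2 ^ p :=
    D.cY.rpow_const fun x => Or.inr hp.le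
  have cX1' : Continuous fun x : ℝ × S => D.X x.1 x.2 ^ q :=
    D.cX.rpow_const fun x => Or.inr hq.le
  have cA : Continuous (uncurry fun s θ => D.W1 s θ * D.Y s θ ^ p * D.Y1 s θ +
      w1 * (D.W1 s θ * D.Y s θ ^ (p + 1) / (p + 1))) :=
    ((D.cW1.mul cY1').mul D.cY1).add (continuous_const.mul (D.cont_P hp))
  have cB : Continuous (uncurry fun s θ => D.W2 s θ * D.X s θ ^ q * D.X1 s θ +
      w2 * (D.W2 s θ * D.X s θ ^ (q + 1) / (q + 1))) :=
    ((D.cW2.mul cX1').mul D.cX1).add (continuous_const.mul (D.cont_Q hq))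
  have hsum : ∫ s in a..b, (∫ θ, D.G s θ ∂sg) =
      (∫ s in a..b, (∫ θ, D.G0 s θ ∂sg)) +
      (∫ s in a..b, (∫ θ, (D.W1 s θ * D.Y s θ ^ p * D.Y1 s θ +
        w1 * (D.W1 s θ * D.Y s θ ^ (p + 1) / (p + 1))) ∂sg)) +
      ∫ s in a..b, (∫ θ, (D.W2 s θ * D.X s θ ^ q * D.X1 s θ +
        w2 * (D.W2 s θ * D.X s θ ^ (q + 1) / (q + 1))) ∂sg) := by
    have cG := cont_int (sg := sg) (D.cont_G0 hp hq)
    have cA' := cont_int (sg := sg) cA
    have cB' := cont_int (sg := sg) cB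
    have cGA : Continuous fun s => (∫ θ, D.G0 s θ ∂sg) +
        ∫ θ, (D.W1 s θ * D.Y s θ ^ p * D.Y1 s θ +
        w1 * (D.W1 s θ * D.Y s θ ^ (p + 1) / (p + 1))) ∂sg := cG.add cA'
    rw [← intervalIntegral.integral_add (cG.intervalIntegrable _ _)
      (cA'.intervalIntegrable _ _), ← intervalIntegral.integral_add
      (cGA.intervalIntegrable _ _) (cB'.intervalIntegrable _ _)]
    apply intervalIntegral.integral_congr
    intro s _
    have i0 : Integrable (fun θ => D.G0 s θ) sg := integrable_cont (cont_slice (D.cont_G0 hp hq) s)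
    have iA : Integrable (fun θ => D.W1 s θ * D.Y s θ ^ p * D.Y1 s θ +
        w1 * (D.W1 s θ * D.Y s θ ^ (p + 1) / (p + 1))) sg := integrable_cont (cont_slice cA s)
    have iB : Integrable (fun θ => D.W2 s θ * D.X s θ ^ q * D.X1 s θ +
        w2 * (D.W2 s θ * D.X s θ ^ (q + 1) / (q + 1))) sg := integrable_cont (cont_slice cB s)
    have i0A : Integrable (fun θ => D.G0 s θ + (D.W1 s θ * D.Y s θ ^ p * D.Y1 s θ +
        w1 * (D.W1 s θ * D.Y s θ ^ (p + 1) / (p + 1)))) sg := i0.add iA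
    show (∫ θ, D.G s θ ∂sg) = (∫ θ, D.G0 s θ ∂sg) + (∫ θ, (D.W1 s θ * D.Y s θ ^ p * D.Y1 s θ +
        w1 * (D.W1 s θ * D.Y s θ ^ (p + 1) / (p + 1))) ∂sg) +
        ∫ θ, (D.W2 s θ * D.X s θ ^ q * D.X1 s θ +
        w2 * (D.W2 s θ * D.X s θ ^ (q + 1) / (q + 1))) ∂sg
    rw [← integral_add i0 iA, ← integral_add i0A iB]
    congr 1
    ext θ
    unfold G G0 P Q
    ring
  rw [hsum, hH, hH]
  linarith only [h0, h1, h2]

end DatW

end Vale.Agent.P100.H20
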