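import Mathlib
import Vale.Agent.P100.Bdl.B2

set_option linter.all false

/-!
The discrete main inequality of the running minimum method with weights `a, b` that are
functions on the slice (not constants).
-/

namespace Vale.Agent.P100.H20

open Finset Vale.Agent.P100.RM

variable {S : Type*} [TopologicalSpace S]

/-- Data of the discrete problem; the weights `a, b` are continuous functions. -/
structure SupW (I : C(S, ℝ) →ₗ[ℝ] ℝ) (L : C(S, ℝ) →ₗ[ℝ] C(S, ℝ)) (m mu : ℕ → C(S, ℝ))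
    (a b : C(S, ℝ)) (p q h om : ℝ) (N : ℕ) : Prop where
  hI : ∀ f : C(S, ℝ), (∀ x, 0 ≤ f x) → 0 ≤ I f
  hsym : ∀ f g : C(S, ℝ), I (f * L g) = I (g * L f)
  hp : 0 < p
  hq : 0 < q
  hh : 0 < h
  hom : 0 ≤ om
  ha : ∀ x, 0 ≤ a x
  hb : ∀ x, 0 ≤ b x
  hm : ∀ k x, 0 < m k x
  hmu : ∀ k x, 0 < mu k x
  ham : ∀ k x, m (k + 1) x ≤ m k x
  hamu : ∀ k x, mu (k + 1) x ≤ mu k x
  hP : ∀ k, k + 1 < N → ∀ x, (m (k + 2) x - 2 * m (k + 1) x + m k x) / h ^ 2
    + L (m (k + 1)) x + a x * (mu (k + 1) x) ^ p ≤ om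
  hQ : ∀ k, k + 1 < N → ∀ x, (mu (k + 2) x - 2 * mu (k + 1) x + mu k x) / h ^ 2
    + L (mu (k + 1)) x + b x * (m (k + 1) x) ^ q ≤ om

/-- Weighted energy. -/
noncomputable def enW (I : C(S, ℝ) →ₗ[ℝ] ℝ) (a : C(S, ℝ)) (p : ℝ) (hp : 0 < p)
    (mu : ℕ → C(S, ℝ)) (k : ℕ) : ℝ :=
  I (a * pw (p + 1) (by linarith) (mu k))

/-- Potential part. -/
noncomputable def potW (I : C(S, ℝ) →ₗ[ℝ] ℝ) (a : C(S, ℝ)) (p : ℝ) (hp : 0 < p)
    (mu : ℕ → C(S, ℝ)) (k : ℕ) : ℝ :=
  (enW I a p hp mu k + enW I a p hp mu (k + 1)) / (2 * (p + 1))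

/-- The discrete Hamiltonian at time `k + 1/2`. -/
noncomputable def HHW (I : C(S, ℝ) →ₗ[ℝ] ℝ) (L : C(S, ℝ) →ₗ[ℝ] C(S, ℝ)) (m mu : ℕ → C(S, ℝ))
    (a b : C(S, ℝ)) (p q : ℝ) (hp : 0 < p) (hq : 0 < q) (h : ℝ) (k : ℕ) : ℝ :=
  kin I L m mu h k + potW I a p hp mu k + potW I b q hq m k

section

variable {I : C(S, ℝ) →ₗ[ℝ] ℝ} {L : C(S, ℝ) →ₗ[ℝ] C(S, ℝ)} {m mu : ℕ → C(S, ℝ)}
  {a b : C(S, ℝ)} {p q h om : ℝ} {N : ℕ}

theorem SupW.symm (H : SupW I L m mu a b p q h om N) : SupW I L mu m b a q p h om N where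
  hI := H.hI
  hsym := H.hsym
  hp := H.hq
  hq := H.hp
  hh := H.hh
  hom := H.hom
  ha := H.hb
  hb := H.ha
  hm := H.hmu
  hmu := H.hm
  ham := H.hamu
  hamu := H.ham
  hP := H.hQ
  hQ := H.hP

/-- Forget the weights. -/
theorem SupW.old (H : SupW I L m mu a b p q h om N) :
    Sup I L m mu (fun _ => 0) (fun _ => 0) p q h om N where
  hI := H.hI
  hsym := H.hsym
  hp := H.hp
  hq := H.hq
  hh := H.hh
  hom := H.hom
  ha := fun _ => le_rfl
  hb := fun _ => le_rfl
  hm := H.hm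
  hmu := H.hmu
  ham := H.ham
  hamu := H.hamu
  hP := fun k hk x => by
    have h1 := H.hP k hk x
    have h2 : 0 ≤ a x * (mu (k + 1) x) ^ p :=
      mul_nonneg (H.ha x) (Real.rpow_nonneg (H.hmu _ x).le _)
    linarith only [h1, h2]
  hQ := fun k hk x => by
    have h1 := H.hQ k hk x
    have h2 : 0 ≤ b x * (m (k + 1) x) ^ q :=
      mul_nonneg (H.hb x) (Real.rpow_nonneg (H.hm _ x).le _)
    linarith only [h1, h2]

/-- One half of the step estimate. -/
theorem half_stepW (H : SupW I L m mu a b p q h om N) {rho abar : ℝ} (hrho0 : 0 ≤ rho)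
    (hrho : ∀ k x, (mu k x) ^ p - (mu (k + 1) x) ^ p ≤ rho) (hab : ∀ x, a x ≤ abar)
    (k : ℕ) (hk : k + 1 < N) :
    - ((om + rho * abar) / 2) * I (mu k - mu (k + 2)) ≤
    I ((mu (k + 2) - mu k) * ((1 / h ^ 2) • (m (k + 2) - 2 * m (k + 1) + m k)
          + L (m (k + 1)))) / 2 + (potW I a p H.hp mu (k + 1) - potW I a p H.hp mu k) := by
  have hp := H.hp
  have key : ∀ x, - (om + rho * abar) * (mu k x - mu (k + 2) x)
      + 1 / (p + 1) * (a x * (mu k x) ^ (p + 1) - a x * (mu (k + 2) x) ^ (p + 1)) ≤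
      (mu (k + 2) x - mu k x) * ((1 / h ^ 2) * (m (k + 2) x - 2 * m (k + 1) x + m k x)
        + L (m (k + 1)) x) := by
    intro x
    have h0 : mu (k + 2) x ≤ mu k x := le_trans (H.hamu (k + 1) x) (H.hamu k x)
    have h1 := rpow_convex hp (H.hmu k x) (H.hmu (k + 2) x)
    have h2 := H.hP k hk x
    have h3 := hrho k x
    have ha := H.ha x
    have h4 : (m (k + 2) x - 2 * m (k + 1) x + m k x) / h ^ 2 =
      (1 / h ^ 2) * (m (k + 2) x - 2 * m (k + 1) x + m k x) := by ring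
    rw [h4] at h2
    set P := (1 / h ^ 2) * (m (k + 2) x - 2 * m (k + 1) x + m k x) + L (m (k + 1)) x with hPdef
    set d := mu k x - mu (k + 2) x with hd
    have hd0 : 0 ≤ d := by linarith only [h0]
    have h5 : P ≤ om - a x * (mu (k + 1) x) ^ p := by linarith only [h2]
    have h6 : d * P ≤ d * (om - a x * (mu (k + 1) x) ^ p) := mul_le_mul_of_nonneg_left h5 hd0
    have h7 : 1 / (p + 1) * (a x * (mu k x) ^ (p + 1) - a x * (mu (k + 2) x) ^ (p + 1)) ≤
        a x * (d * (mu k x) ^ p) := by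
      have e0 : 1 / (p + 1) * (a x * (mu k x) ^ (p + 1) - a x * (mu (k + 2) x) ^ (p + 1)) =
        a x / (p + 1) * ((mu k x) ^ (p + 1) - (mu (k + 2) x) ^ (p + 1)) := by ring
      have : a x / (p + 1) * ((mu k x) ^ (p + 1) - (mu (k + 2) x) ^ (p + 1)) ≤
          a x / (p + 1) * ((p + 1) * (d * (mu k x) ^ p)) := by
        apply mul_le_mul_of_nonneg_left h1 (by (clear * - ha hp; positivity))
      have e : a x / (p + 1) * ((p + 1) * (d * (mu k x) ^ p)) =
          a x * (d * (mu k x) ^ p) := by (clear * - hp; field_simp)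
      linarith only [this, e, e0]
    have h8 : a x * (d * ((mu k x) ^ p - (mu (k + 1) x) ^ p)) ≤ abar * (d * rho) := by
      have g1 : a x * (d * ((mu k x) ^ p - (mu (k + 1) x) ^ p)) ≤ a x * (d * rho) :=
        mul_le_mul_of_nonneg_left (mul_le_mul_of_nonneg_left h3 hd0) ha
      have g2 : a x * (d * rho) ≤ abar * (d * rho) :=
        mul_le_mul_of_nonneg_right (hab x) (mul_nonneg hd0 hrho0)
      linarith only [g1, g2]
    have h9 : (mu (k + 2) x - mu k x) * P = - (d * P) := by rw [hd]; ring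
    rw [h9]
    linarith only [h6, h7, h8]
  have hmono := I_mono H.hI (f := (-(om + rho * abar)) • (mu k - mu (k + 2))
      + (1 / (p + 1)) • (a * pw (p + 1) (by linarith only [hp]) (mu k)
        - a * pw (p + 1) (by linarith only [hp]) (mu (k + 2))))
    (g := (mu (k + 2) - mu k) * ((1 / h ^ 2) • (m (k + 2) - 2 * m (k + 1) + m k)
          + L (m (k + 1)))) (fun x => by
      have := key x
      simp only [ContinuousMap.coe_add, ContinuousMap.coe_sub, ContinuousMap.coe_smul, Pi.add_apply, Pi.sub_apply, Pi.smul_apply, smul_eq_mul, pw_apply, ContinuousMap.coe_mul, Pi.mul_apply]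
      have h2 : (2 : C(S, ℝ)) x = 2 := rfl
      rw [h2]; linarith only [this])
  rw [map_add, map_smul, map_smul, map_sub I (a * pw _ _ _) (a * pw _ _ _)] at hmono
  simp only [smul_eq_mul] at hmono
  have hen1 : enW I a p H.hp mu k = I (a * pw (p + 1) (by linarith only [hp]) (mu k)) := rfl
  have hen2 : enW I a p H.hp mu (k + 2) = I (a * pw (p + 1) (by linarith only [hp]) (mu (k + 2))) :=
    rfl
  rw [← hen1, ← hen2] at hmono
  have e : potW I a p H.hp mu (k + 1) - potW I a p H.hp mu k =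
      - (1 / (p + 1) * (enW I a p H.hp mu k - enW I a p H.hp mu (k + 2))) / 2 := by
    unfold potW
    have e4 : enW I a p H.hp mu (k + 1 + 1) = enW I a p H.hp mu (k + 2) := rfl
    rw [e4]
    field_simp; ring
  rw [e]
  linarith only [hmono]

theorem enW_nonneg (H : SupW I L m mu a b p q h om N) (k : ℕ) : 0 ≤ enW I a p H.hp mu k :=
  H.hI _ (fun x => mul_nonneg (H.ha x) (Real.rpow_nonneg (H.hmu k x).le _))

theorem enW_anti (H : SupW I L m mu a b p q h om N) (k : ℕ) :
    enW I a p H.hp mu (k + 1) ≤ enW I a p H.hp mu k := by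
  apply I_mono H.hI
  intro x
  have hp := H.hp
  exact mul_le_mul_of_nonneg_left
    (Real.rpow_le_rpow (H.hmu _ x).le (H.hamu k x) (by linarith only [hp])) (H.ha x)

/-- One step of the discrete Hamiltonian. -/
theorem hhW_step (H : SupW I L m mu a b p q h om N) {rho abar : ℝ} (hrho0 : 0 ≤ rho)
    (hrho : ∀ k x, (mu k x) ^ p - (mu (k + 1) x) ^ p ≤ rho)
    (hrho' : ∀ k x, (m k x) ^ q - (m (k + 1) x) ^ q ≤ rho)
    (hab : ∀ x, a x ≤ abar) (hbb : ∀ x, b x ≤ abar)
    (k : ℕ) (hk : k + 1 < N) :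
    HHW I L m mu a b p q H.hp H.hq h k ≤ HHW I L m mu a b p q H.hp H.hq h (k + 1)
      + (om + rho * abar) / 2 * (I (mu k - mu (k + 2)) + I (m k - m (k + 2))) := by
  have h1 := half_stepW H hrho0 hrho hab k hk
  have h2 := half_stepW H.symm hrho0 hrho' hbb k hk
  have h3 := kin_diff H.old k
  unfold HHW
  linarith only [h1, h2, h3]

/-- **Discrete Hamiltonian, telescoped.** -/
theorem hhW_tele (H : SupW I L m mu a b p q h om N) {rho abar : ℝ} (hrho0 : 0 ≤ rho)
    (hab0 : 0 ≤ abar)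
    (hrho : ∀ k x, (mu k x) ^ p - (mu (k + 1) x) ^ p ≤ rho)
    (hrho' : ∀ k x, (m k x) ^ q - (m (k + 1) x) ^ q ≤ rho)
    (hab : ∀ x, a x ≤ abar) (hbb : ∀ x, b x ≤ abar)
    (K : ℕ) (hK : K < N) :
    HHW I L m mu a b p q H.hp H.hq h 0 ≤ HHW I L m mu a b p q H.hp H.hq h K
      + (om + rho * abar) * (I (mu 0) + I (m 0)) := by
  have hom := H.hom
  have key : ∀ K, K < N →
      HHW I L m mu a b p q H.hp H.hq h 0 ≤ HHW I L m mu a b p q H.hp H.hq h K
      + (om + rho * abar) / 2 * (I (mu 0) + I (mu 1) - I (mu K) - I (mu (K + 1))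
        + (I (m 0) + I (m 1) - I (m K) - I (m (K + 1)))) := by
    intro K
    induction K with
    | zero => intro _; simp only [add_sub_cancel_left, zero_add, sub_self, add_zero, mul_zero, Std.le_refl]
    | succ K ih =>
      intro hK
      have h1 := ih (by omega)
      have h2 := hhW_step H hrho0 hrho hrho' hab hbb K hK
      rw [map_sub, map_sub] at h2
      have e : K + 1 + 1 = K + 2 := rfl
      rw [e]
      linarith only [h1, h2]
  have h1 := key K hK
  have hmu0 : ∀ k, 0 ≤ I (mu k) := fun k => H.hI _ (fun x => (H.hmu k x).le)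
  have hm0 : ∀ k, 0 ≤ I (m k) := fun k => H.hI _ (fun x => (H.hm k x).le)
  have hmu1 : I (mu 1) ≤ I (mu 0) := I_mono H.hI (H.hamu 0)
  have hm1 : I (m 1) ≤ I (m 0) := I_mono H.hI (H.ham 0)
  have h2 : (om + rho * abar) / 2 * (I (mu 0) + I (mu 1) - I (mu K) - I (mu (K + 1))
        + (I (m 0) + I (m 1) - I (m K) - I (m (K + 1)))) ≤
      (om + rho * abar) / 2 * (2 * (I (mu 0) + I (m 0))) := by
    apply mul_le_mul_of_nonneg_left _ (by (clear * - hom hrho0 hab0; positivity))
    have a1 := hmu0 K; have a2 := hmu0 (K + 1); have a3 := hm0 K; have a4 := hm0 (K + 1)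
    linarith only [a1, a2, a3, a4, hmu1, hm1]
  linarith only [h1, h2]

/-- Virial inequality for one component. -/
theorem virialW (H : SupW I L m mu a b p q h om N) {eta : ℕ → ℝ} {ce : ℝ} {n : ℕ} (hn : n < N)
    (he0 : ∀ k, 0 ≤ eta k) (he1 : ∀ k, eta k ≤ 1) (hen : eta (n + 1) = 0)
    (hce : ∀ k, |eta (k + 1) - eta k| ≤ ce) :
    h * ∑ k ∈ range n, eta (k + 1) * (I (mu (k + 1) * L (m (k + 1)))
        + enW I a p H.hp mu (k + 1)) ≤
      (∑ k ∈ range (n + 1), eta k * I ((m (k + 1) - m k) * (mu (k + 1) - mu k))) / h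
        + ce / h * I (mu 0 * m 0) + om * (n * h) * I (mu 0) := by
  have hh := H.hh
  have hp := H.hp
  have hom := H.hom
  have hce0 : 0 ≤ ce := le_trans (abs_nonneg _) (hce 0)
  -- the inequality at each index
  have h1 : ∀ k ∈ range n, eta (k + 1) * (I (mu (k + 1) * L (m (k + 1)))
        + enW I a p H.hp mu (k + 1)) ≤
      - (1 / h ^ 2) * (eta (k + 1) * (I (mu (k + 1) * (m (k + 2) - m (k + 1)))
        - I (mu (k + 1) * (m (k + 1) - m k)))) + om * I (mu 0) := by
    intro k hk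
    have hk' : k < n := mem_range.mp hk
    have hPk := H.hP k (by omega)
    have e1 : enW I a p H.hp mu (k + 1) = I (mu (k + 1) * (a * pw p hp.le (mu (k + 1)))) := by
      unfold enW
      congr 1
      ext x
      simp only [pw_apply, ContinuousMap.coe_mul, Pi.mul_apply]
      rw [Real.rpow_add (H.hmu (k + 1) x), Real.rpow_one]; ring
    have h2 : I (mu (k + 1) * ((1 / h ^ 2) • ((m (k + 2) - m (k + 1)) - (m (k + 1) - m k))
        + L (m (k + 1)) + a * pw p hp.le (mu (k + 1)))) ≤ I (om • mu (k + 1)) := by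
      apply I_mono H.hI
      intro x
      have hx := hPk x
      have hm := H.hmu (k + 1) x
      have e2 : (m (k + 2) x - 2 * m (k + 1) x + m k x) / h ^ 2 =
        (1 / h ^ 2) * ((m (k + 2) x - m (k + 1) x) - (m (k + 1) x - m k x)) := by ring
      rw [e2] at hx
      simp only [ContinuousMap.coe_sub, ContinuousMap.coe_mul, ContinuousMap.coe_add,
        ContinuousMap.coe_smul, Pi.sub_apply, Pi.mul_apply, Pi.add_apply, Pi.smul_apply,
        smul_eq_mul, pw_apply]
      have := mul_le_mul_of_nonneg_left hx hm.le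
      linarith only [this]
    rw [mul_add, mul_add, map_add, map_add, mul_smul_comm, map_smul,
      map_smul, mul_sub, map_sub, ← e1] at h2
    simp only [smul_eq_mul] at h2
    have h3 : I (mu (k + 1)) ≤ I (mu 0) := I_mono H.hI (anti_zero H.hamu (k + 1))
    have h3' : 0 ≤ I (mu (k + 1)) := H.hI _ (fun x => (H.hmu _ x).le)
    have h4 := mul_le_mul_of_nonneg_left h2 (he0 (k + 1))
    have h5 : eta (k + 1) * (om * I (mu (k + 1))) ≤ om * I (mu 0) := by
      calc eta (k + 1) * (om * I (mu (k + 1))) ≤ 1 * (om * I (mu (k + 1))) := by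
            apply mul_le_mul_of_nonneg_right (he1 _) (by (clear * - hom h3'; positivity))
        _ ≤ om * I (mu 0) := by rw [one_mul]; (clear * - h3 hom; gcongr)
    linarith only [h4, h5]
  have h2 := sum_le_sum h1
  rw [sum_add_distrib, sum_const, card_range, nsmul_eq_mul, ← mul_sum] at h2
  -- summation by parts
  have h3 : ∑ k ∈ range n, eta (k + 1) * (I (mu (k + 1) * (m (k + 2) - m (k + 1)))
        - I (mu (k + 1) * (m (k + 1) - m k))) =
      - (∑ k ∈ range (n + 1), eta k * I ((m (k + 1) - m k) * (mu (k + 1) - mu k)))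
      - (∑ k ∈ range (n + 1), (eta (k + 1) - eta k) * I (mu (k + 1) * (m (k + 1) - m k)))
      - eta 0 * I (mu 0 * (m 1 - m 0)) := by
    have g1 : ∑ k ∈ range n, eta (k + 1) * I (mu (k + 1) * (m (k + 2) - m (k + 1))) =
        ∑ k ∈ range (n + 1), eta k * I (mu k * (m (k + 1) - m k))
          - eta 0 * I (mu 0 * (m 1 - m 0)) := by
      rw [sum_range_succ' _ n]; ring
    have g2 : ∑ k ∈ range n, eta (k + 1) * I (mu (k + 1) * (m (k + 1) - m k)) =
        ∑ k ∈ range (n + 1), eta (k + 1) * I (mu (k + 1) * (m (k + 1) - m k)) := by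
      rw [sum_range_succ, hen]; ring
    have g3 : ∑ k ∈ range n, eta (k + 1) * (I (mu (k + 1) * (m (k + 2) - m (k + 1)))
        - I (mu (k + 1) * (m (k + 1) - m k))) =
        ∑ k ∈ range n, eta (k + 1) * I (mu (k + 1) * (m (k + 2) - m (k + 1)))
        - ∑ k ∈ range n, eta (k + 1) * I (mu (k + 1) * (m (k + 1) - m k)) := by
      rw [← sum_sub_distrib]
      apply sum_congr rfl; intro k _; ring
    rw [g3, g1, g2]
    have g4 : ∑ k ∈ range (n + 1), eta k * I (mu k * (m (k + 1) - m k))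
        - ∑ k ∈ range (n + 1), eta (k + 1) * I (mu (k + 1) * (m (k + 1) - m k)) =
        - (∑ k ∈ range (n + 1), eta k * I ((m (k + 1) - m k) * (mu (k + 1) - mu k)))
      - (∑ k ∈ range (n + 1), (eta (k + 1) - eta k) * I (mu (k + 1) * (m (k + 1) - m k))) := by
      rw [← sum_sub_distrib, ← sum_neg_distrib, ← sum_sub_distrib]
      apply sum_congr rfl
      intro k _
      have : I ((m (k + 1) - m k) * (mu (k + 1) - mu k)) =
          I (mu (k + 1) * (m (k + 1) - m k)) - I (mu k * (m (k + 1) - m k)) := by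
        rw [← map_sub]; congr 1; ring
      rw [this]; ring
    linarith only [g4]
  rw [h3] at h2
  -- boundary term
  have h4 : I (mu 0 * (m 1 - m 0)) ≤ 0 := by
    have : I (mu 0 * (m 1 - m 0)) ≤ I 0 := by
      apply I_mono H.hI
      intro x
      have g1 := H.hmu 0 x
      have g2 := H.ham 0 x
      simp only [ContinuousMap.coe_sub, ContinuousMap.coe_mul, Pi.sub_apply, Pi.mul_apply,
        ContinuousMap.coe_zero, Pi.zero_apply]
      have : 0 ≤ mu 0 x * (m 0 x - m 1 x) := mul_nonneg g1.le (by simpa only [sub_nonneg, zero_add] using g2)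
      linarith only [this]
    simpa only [ge_iff_le, map_zero] using this
  have h5 : ∑ k ∈ range (n + 1), (eta (k + 1) - eta k) * I (mu (k + 1) * (m (k + 1) - m k)) ≤
      ce * I (mu 0 * m 0) := by
    calc ∑ k ∈ range (n + 1), (eta (k + 1) - eta k) * I (mu (k + 1) * (m (k + 1) - m k))
        ≤ ∑ k ∈ range (n + 1), ce * I (mu 0 * (m k - m (k + 1))) := by
          apply sum_le_sum
          intro k _
          have g1 : I (mu (k + 1) * (m k - m (k + 1))) ≤ I (mu 0 * (m k - m (k + 1))) := by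
            apply I_mono H.hI
            intro x
            simp only [ContinuousMap.coe_sub, ContinuousMap.coe_mul, Pi.sub_apply, Pi.mul_apply]
            apply mul_le_mul_of_nonneg_right (anti_zero H.hamu (k + 1) x)
            have := H.ham k x; linarith only [this]
          have g0 : 0 ≤ I (mu (k + 1) * (m k - m (k + 1))) := by
            apply H.hI
            intro x
            simp only [ContinuousMap.coe_sub, ContinuousMap.coe_mul, Pi.sub_apply, Pi.mul_apply]
            apply mul_nonneg (H.hmu _ x).le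
            have := H.ham k x; linarith only [this]
          have g2 : I (mu (k + 1) * (m (k + 1) - m k)) = - I (mu (k + 1) * (m k - m (k + 1))) := by
            rw [← map_neg]; congr 1; ring
          rw [g2]
          have g3 := hce k
          have g4 : -(eta (k + 1) - eta k) ≤ ce := le_trans (neg_le_abs _) g3
          calc (eta (k + 1) - eta k) * -I (mu (k + 1) * (m k - m (k + 1)))
              = -(eta (k + 1) - eta k) * I (mu (k + 1) * (m k - m (k + 1))) := by ring
            _ ≤ ce * I (mu (k + 1) * (m k - m (k + 1))) := mul_le_mul_of_nonneg_right g4 g0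
            _ ≤ ce * I (mu 0 * (m k - m (k + 1))) := mul_le_mul_of_nonneg_left g1 hce0
      _ = ce * ∑ k ∈ range (n + 1), I (mu 0 * (m k - m (k + 1))) := by rw [mul_sum]
      _ ≤ ce * I (mu 0 * m 0) := mul_le_mul_of_nonneg_left (tsum_drop H.old n) hce0
  have h6 := mul_le_mul_of_nonneg_left h2 hh.le
  refine le_trans h6 ?_
  have hh2 : h * (-(1 / h ^ 2) * (-(∑ k ∈ range (n + 1), eta k * I ((m (k + 1) - m k) * (mu (k + 1) - mu k)))
      - (∑ k ∈ range (n + 1), (eta (k + 1) - eta k) * I (mu (k + 1) * (m (k + 1) - m k)))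
      - eta 0 * I (mu 0 * (m 1 - m 0))) + ↑n * (om * I (mu 0))) =
      (∑ k ∈ range (n + 1), eta k * I ((m (k + 1) - m k) * (mu (k + 1) - mu k))) / h
      + (∑ k ∈ range (n + 1), (eta (k + 1) - eta k) * I (mu (k + 1) * (m (k + 1) - m k))) / h
      + eta 0 * I (mu 0 * (m 1 - m 0)) / h + om * (n * h) * I (mu 0) := by
    field_simp
    ring
  rw [hh2]
  have h7 : (∑ k ∈ range (n + 1), (eta (k + 1) - eta k) * I (mu (k + 1) * (m (k + 1) - m k))) / h ≤
      ce / h * I (mu 0 * m 0) := by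
    rw [div_mul_eq_mul_div]
    exact div_le_div_of_nonneg_right h5 hh.le
  have h8 : eta 0 * I (mu 0 * (m 1 - m 0)) / h ≤ 0 := by
    apply div_nonpos_of_nonpos_of_nonneg _ hh.le
    exact mul_nonpos_of_nonneg_of_nonpos (he0 0) h4
  linarith only [h7, h8]

theorem potW_le (H : SupW I L m mu a b p q h om N) (k : ℕ) :
    potW I a p H.hp mu k ≤ enW I a p H.hp mu k / (p + 1) := by
  have hp := H.hp
  unfold potW
  have h1 := enW_anti H k
  rw [div_le_div_iff₀ (by linarith only [hp]) (by linarith only [hp])]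
  have hp1 : 0 < p + 1 := by linarith only [hp]
  nlinarith only [h1, hp1]

theorem hamW_term (H : SupW I L m mu a b p q h om N) {Lam : ℝ} (hLam : 0 ≤ Lam)
    (hL : ∀ k x, |L (mu k) x| ≤ Lam) (hL' : ∀ k x, |L (m k) x| ≤ Lam)
    {eta : ℕ → ℝ} (he0 : ∀ k, 0 ≤ eta k) (he1 : ∀ k, eta k ≤ 1) (k : ℕ) :
    eta k * HHW I L m mu a b p q H.hp H.hq h k ≤
        eta k * I ((m (k + 1) - m k) * (mu (k + 1) - mu k)) / h ^ 2
        + eta k * I (m k * L (mu k))
        + Lam / 2 * (I (m k - m (k + 1)) + I (mu k - mu (k + 1)))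
        + eta k * enW I a p H.hp mu k / (p + 1)
        + eta k * enW I b q H.hq m k / (q + 1) := by
  have f1 := kin_le H.old hL hL' k
  have f2 := potW_le H k
  have f3 := potW_le H.symm k
  have e0 := he0 k
  have e1 := he1 k
  have f4 : HHW I L m mu a b p q H.hp H.hq h k ≤
    I ((m (k + 1) - m k) * (mu (k + 1) - mu k)) / h ^ 2
    + I (m k * L (mu k))
    + Lam / 2 * (I (m k - m (k + 1)) + I (mu k - mu (k + 1)))
    + enW I a p H.hp mu k / (p + 1)
    + enW I b q H.hq m k / (q + 1) := by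
    unfold HHW; linarith only [f1, f2, f3]
  have f5 := mul_le_mul_of_nonneg_left f4 e0
  have g0 : 0 ≤ Lam / 2 * (I (m k - m (k + 1)) + I (mu k - mu (k + 1))) := by
    apply mul_nonneg (by linarith only [hLam])
    apply add_nonneg
    · apply H.hI; intro x; have := H.ham k x
      simp only [ContinuousMap.coe_sub, Pi.sub_apply]; linarith only [this]
    · apply H.hI; intro x; have := H.hamu k x
      simp only [ContinuousMap.coe_sub, Pi.sub_apply]; linarith only [this]
  have f6 : eta k * (Lam / 2 * (I (m k - m (k + 1)) + I (mu k - mu (k + 1))))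
      ≤ Lam / 2 * (I (m k - m (k + 1)) + I (mu k - mu (k + 1))) := by
    calc _ ≤ 1 * (Lam / 2 * (I (m k - m (k + 1)) + I (mu k - mu (k + 1)))) :=
          mul_le_mul_of_nonneg_right e1 g0
      _ = _ := one_mul _
  refine le_trans f5 ?_
  have e2 : eta k * (I ((m (k + 1) - m k) * (mu (k + 1) - mu k)) / h ^ 2
    + I (m k * L (mu k))
    + Lam / 2 * (I (m k - m (k + 1)) + I (mu k - mu (k + 1)))
    + enW I a p H.hp mu k / (p + 1)
    + enW I b q H.hq m k / (q + 1)) =
    eta k * I ((m (k + 1) - m k) * (mu (k + 1) - mu k)) / h ^ 2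
    + eta k * I (m k * L (mu k))
    + eta k * (Lam / 2 * (I (m k - m (k + 1)) + I (mu k - mu (k + 1))))
    + eta k * enW I a p H.hp mu k / (p + 1)
    + eta k * enW I b q H.hq m k / (q + 1) := by ring
  rw [e2]; linarith only [f6]

theorem hamW_sum (H : SupW I L m mu a b p q h om N) {Lam : ℝ} (hLam : 0 ≤ Lam)
    (hL : ∀ k x, |L (mu k) x| ≤ Lam) (hL' : ∀ k x, |L (m k) x| ≤ Lam)
    {eta : ℕ → ℝ} (he0 : ∀ k, 0 ≤ eta k) (he1 : ∀ k, eta k ≤ 1) (n : ℕ) :
    h * ∑ k ∈ range n, eta (k + 1) * HHW I L m mu a b p q H.hp H.hq h (k + 1) ≤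
      (∑ k ∈ range (n + 1), eta k * I ((m (k + 1) - m k) * (mu (k + 1) - mu k))) / h
      + h * ∑ k ∈ range n, eta (k + 1) * I (m (k + 1) * L (mu (k + 1)))
      + h * Lam / 2 * (I (m 0) + I (mu 0))
      + (h * ∑ k ∈ range n, eta (k + 1) * enW I a p H.hp mu (k + 1)) / (p + 1)
      + (h * ∑ k ∈ range n, eta (k + 1) * enW I b q H.hq m (k + 1)) / (q + 1) := by
  have hh := H.hh
  have g2 := sum_le_sum (fun k (_ : k ∈ range n) =>
    hamW_term H hLam hL hL' he0 he1 (k + 1))
  simp only [sum_add_distrib] at g2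
  have g3 := mul_le_mul_of_nonneg_left g2 hh.le
  refine le_trans g3 ?_
  have k1 : h * ∑ k ∈ range n, eta (k + 1) * I ((m (k + 1 + 1) - m (k + 1)) *
      (mu (k + 1 + 1) - mu (k + 1))) / h ^ 2 ≤
      (∑ k ∈ range (n + 1), eta k * I ((m (k + 1) - m k) * (mu (k + 1) - mu k))) / h := by
    rw [sum_range_succ' _ n, ← sum_div]
    have : h * ((∑ k ∈ range n, eta (k + 1) * I ((m (k + 1 + 1) - m (k + 1)) *
      (mu (k + 1 + 1) - mu (k + 1)))) / h ^ 2) = (∑ k ∈ range n, eta (k + 1) *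
        I ((m (k + 1 + 1) - m (k + 1)) * (mu (k + 1 + 1) - mu (k + 1)))) / h := by (clear * - hh; field_simp)
    rw [this]
    apply div_le_div_of_nonneg_right _ hh.le
    have := mul_nonneg (he0 0) (dd_nonneg H.old 0)
    linarith only [this]
  have k2 : ∑ k ∈ range n, Lam / 2 * (I (m (k + 1) - m (k + 1 + 1)) +
      I (mu (k + 1) - mu (k + 1 + 1))) ≤ Lam / 2 * (I (m 0) + I (mu 0)) := by
    rw [← mul_sum, sum_add_distrib]
    apply mul_le_mul_of_nonneg_left _ (by linarith only [hLam])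
    have a1 := diff_sum_le H.old n
    have a2 := diff_sum_le H.old.symm n
    exact add_le_add a1 a2
  have k3 := mul_le_mul_of_nonneg_left k2 hh.le
  have k4 : h * ∑ k ∈ range n, eta (k + 1) * enW I a p H.hp mu (k + 1) / (p + 1) =
      (h * ∑ k ∈ range n, eta (k + 1) * enW I a p H.hp mu (k + 1)) / (p + 1) := by
    rw [← sum_div]; ring
  have k5 : h * ∑ k ∈ range n, eta (k + 1) * enW I b q H.hq m (k + 1) / (q + 1) =
      (h * ∑ k ∈ range n, eta (k + 1) * enW I b q H.hq m (k + 1)) / (q + 1) := by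
    rw [← sum_div]; ring
  rw [mul_add, mul_add, mul_add, mul_add, k4, k5]
  linarith only [k1, k3]

/-- Weighted sum of the telescoped inequality. -/
theorem teleW_sum (H : SupW I L m mu a b p q h om N) {rho abar : ℝ} {n : ℕ} (hn : n < N)
    (hrho0 : 0 ≤ rho) (hab0 : 0 ≤ abar)
    (hrho : ∀ k x, (mu k x) ^ p - (mu (k + 1) x) ^ p ≤ rho)
    (hrho' : ∀ k x, (m k x) ^ q - (m (k + 1) x) ^ q ≤ rho)
    (hab : ∀ x, a x ≤ abar) (hbb : ∀ x, b x ≤ abar) :
    (n * h / 2) * HHW I L m mu a b p q H.hp H.hq h 0 ≤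
      h * ∑ k ∈ range n, etaf n (k + 1) * HHW I L m mu a b p q H.hp H.hq h (k + 1)
      + (n * h / 2) * ((om + rho * abar) * (I (mu 0) + I (m 0))) := by
  have hh := H.hh
  have V4 : ∀ k ∈ range n, etaf n (k + 1) * HHW I L m mu a b p q H.hp H.hq h 0 ≤
      etaf n (k + 1) * HHW I L m mu a b p q H.hp H.hq h (k + 1)
      + etaf n (k + 1) * ((om + rho * abar) * (I (mu 0) + I (m 0))) := by
    intro k hk
    have hk' : k < n := mem_range.mp hk
    have g1 := hhW_tele H hrho0 hab0 hrho hrho' hab hbb (k + 1) (by omega)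
    rw [← mul_add]
    exact mul_le_mul_of_nonneg_left g1 (etaf_nonneg n _)
  have V6 := sum_le_sum V4
  rw [sum_add_distrib, ← sum_mul, ← sum_mul, etaf_sum n] at V6
  have V7 := mul_le_mul_of_nonneg_left V6 hh.le
  rw [mul_add] at V7
  linarith only [V7]

theorem virialW1 (H : SupW I L m mu a b p q h om N) {n : ℕ} (hn : n < N) :
    h * ∑ k ∈ range n, etaf n (k + 1) * I (m (k + 1) * L (mu (k + 1)))
      + h * ∑ k ∈ range n, etaf n (k + 1) * enW I a p H.hp mu (k + 1) ≤
    (∑ k ∈ range (n + 1), etaf n k * I ((m (k + 1) - m k) * (mu (k + 1) - mu k))) / h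
      + (1 / (((n : ℝ) + 1) * h) * I (mu 0 * m 0) + om * (n * h) * I (mu 0)) := by
  have V1 := virialW H hn (etaf_nonneg n) (etaf_le_one n) (etaf_end n) (etaf_diff n)
  have W1 : h * ∑ k ∈ range n, etaf n (k + 1) * (I (mu (k + 1) * L (m (k + 1)))
        + enW I a p H.hp mu (k + 1)) =
      h * ∑ k ∈ range n, etaf n (k + 1) * I (m (k + 1) * L (mu (k + 1)))
      + h * ∑ k ∈ range n, etaf n (k + 1) * enW I a p H.hp mu (k + 1) := by
    rw [← mul_add, ← sum_add_distrib]
    congr 1; apply sum_congr rfl; intro k _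
    rw [H.hsym (mu (k + 1)) (m (k + 1))]; ring
  have hceh : 1 / ((n : ℝ) + 1) / h = 1 / (((n : ℝ) + 1) * h) := by rw [div_div]
  rw [W1, hceh] at V1
  rw [← add_assoc]
  exact V1

theorem virialW2 (H : SupW I L m mu a b p q h om N) {n : ℕ} (hn : n < N) :
    h * ∑ k ∈ range n, etaf n (k + 1) * I (m (k + 1) * L (mu (k + 1)))
      + h * ∑ k ∈ range n, etaf n (k + 1) * enW I b q H.hq m (k + 1) ≤
    (∑ k ∈ range (n + 1), etaf n k * I ((m (k + 1) - m k) * (mu (k + 1) - mu k))) / h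
      + (1 / (((n : ℝ) + 1) * h) * I (mu 0 * m 0) + om * (n * h) * I (m 0)) := by
  have V1 := virialW1 H.symm hn
  have e1 : ∑ k ∈ range n, etaf n (k + 1) * I (mu (k + 1) * L (m (k + 1))) =
      ∑ k ∈ range n, etaf n (k + 1) * I (m (k + 1) * L (mu (k + 1))) := by
    apply sum_congr rfl; intro k _; rw [H.hsym (mu (k + 1)) (m (k + 1))]
  have e2 : (∑ k ∈ range (n + 1), etaf n k * I ((mu (k + 1) - mu k) * (m (k + 1) - m k))) =
      (∑ k ∈ range (n + 1), etaf n k * I ((m (k + 1) - m k) * (mu (k + 1) - mu k))) := by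
    apply sum_congr rfl; intro k _; rw [mul_comm (mu (k + 1) - mu k)]
  rw [e1, e2, mul_comm (m 0) (mu 0)] at V1
  exact V1

/-- Weighted sum of the Hamiltonians. -/
theorem hamW_total (H : SupW I L m mu a b p q h om N) {Lam : ℝ} {n : ℕ} (hn : n < N)
    (hpq : 1 / (p + 1) + 1 / (q + 1) ≤ 1) (hLam : 0 ≤ Lam)
    (hL : ∀ k x, |L (mu k) x| ≤ Lam) (hL' : ∀ k x, |L (m k) x| ≤ Lam) :
    h * ∑ k ∈ range n, etaf n (k + 1) * HHW I L m mu a b p q H.hp H.hq h (k + 1) ≤
      2 * KE I m mu h n + (1 / (((n : ℝ) + 1) * h) * I (mu 0 * m 0)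
      + om * (n * h) * (I (mu 0) + I (m 0))) + h * Lam / 2 * (I (m 0) + I (mu 0)) := by
  have hp := H.hp
  have hq := H.hq
  have hh := H.hh
  have hom := H.hom
  have hmu0 : 0 ≤ I (mu 0) := H.hI _ (fun x => (H.hmu 0 x).le)
  have hm0 : 0 ≤ I (m 0) := H.hI _ (fun x => (H.hm 0 x).le)
  have V1 := virialW1 H hn
  have V2 := virialW2 H hn
  have V3 := hamW_sum H hLam hL hL' (etaf_nonneg n) (etaf_le_one n) n
  have V5 := ke_le H.old n
  have hE1n : 0 ≤ h * ∑ k ∈ range n, etaf n (k + 1) * enW I a p H.hp mu (k + 1) := by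
    apply mul_nonneg hh.le
    apply sum_nonneg
    intro k _
    exact mul_nonneg (etaf_nonneg n _) (enW_nonneg H _)
  have hx1 : 0 ≤ om * (n * h) * I (m 0) := by (clear * - hom hh hm0; positivity)
  have hx2 : 0 ≤ om * (n * h) * I (mu 0) := by (clear * - hom hh hmu0; positivity)
  revert V1 V2 V3 V5 hE1n
  generalize h * ∑ k ∈ range n, etaf n (k + 1) * I (m (k + 1) * L (mu (k + 1))) = J
  generalize h * ∑ k ∈ range n, etaf n (k + 1) * enW I a p H.hp mu (k + 1) = E1
  generalize h * ∑ k ∈ range n, etaf n (k + 1) * enW I b q H.hq m (k + 1) = E2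
  generalize (∑ k ∈ range (n + 1), etaf n k *
    I ((m (k + 1) - m k) * (mu (k + 1) - mu k))) / h = KK
  generalize h * ∑ k ∈ range n, etaf n (k + 1) * HHW I L m mu a b p q hp hq h (k + 1) = X
  generalize KE I m mu h n = K0
  generalize 1 / (((n : ℝ) + 1) * h) * I (mu 0 * m 0) = Z
  intro V1 V2 V3 V5 hE1n
  have V6 := final_alg (s1 := 1 / (p + 1)) (s2 := 1 / (q + 1)) (Y := h * Lam / 2 *
      (I (m 0) + I (mu 0))) (R := Z + om * (n * h) * (I (mu 0) + I (m 0)))
    (by (clear * - hp; positivity)) (by (clear * - hq; positivity)) hpq hE1n V1 V2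
    (by linarith only [hx1]) (by linarith only [hx2]) (X := X)
    (by
      refine le_trans V3 (le_of_eq ?_)
      ring)
  linarith only [V5, V6]

/-- **The discrete main inequality.** -/
theorem discW_main (H : SupW I L m mu a b p q h om N) {rho abar Lam : ℝ} {n : ℕ} (hn : n < N)
    (hpq : 1 / (p + 1) + 1 / (q + 1) ≤ 1)
    (hrho0 : 0 ≤ rho) (hab0 : 0 ≤ abar) (hLam : 0 ≤ Lam)
    (hrho : ∀ k x, (mu k x) ^ p - (mu (k + 1) x) ^ p ≤ rho)
    (hrho' : ∀ k x, (m k x) ^ q - (m (k + 1) x) ^ q ≤ rho)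
    (hab : ∀ x, a x ≤ abar) (hbb : ∀ x, b x ≤ abar)
    (hL : ∀ k x, |L (mu k) x| ≤ Lam) (hL' : ∀ k x, |L (m k) x| ≤ Lam) :
    (n * h / 2) * HHW I L m mu a b p q H.hp H.hq h 0 ≤
      2 * KE I m mu h n + 1 / (((n : ℝ) + 1) * h) * I (mu 0 * m 0)
      + (om * (n * h) + h * Lam / 2) * (I (mu 0) + I (m 0))
      + (n * h / 2) * ((om + rho * abar) * (I (mu 0) + I (m 0))) := by
  have V0 := teleW_sum H hn hrho0 hab0 hrho hrho' hab hbb
  have V1 := hamW_total H hn hpq hLam hL hL'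
  have e3 : (om * (n * h) + h * Lam / 2) * (I (mu 0) + I (m 0)) =
    om * (n * h) * (I (mu 0) + I (m 0)) + h * Lam / 2 * (I (m 0) + I (mu 0)) := by ring
  rw [e3]
  linarith only [V0, V1]

end

end Vale.Agent.P100.H20
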