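import Mathlib
import Vale.Agent.P100.Bdl.B3
import Vale.Agent.P100.H20.Disc

set_option linter.all false

/-!
The limit inequality of the running minimum method with weights that depend on the slice point.
-/

open MeasureTheory Set Filter Topology Real

namespace Vale.Agent.P100.H20

open Vale.Agent.P100.RM

section

variable {S : Type*} [TopologicalSpace S]

theorem disc1W {L : C(S, ℝ) → C(S, ℝ)}
    (hmax : ∀ (f g : C(S, ℝ)) (θ : S), (∀ θ', f θ' ≤ g θ') → f θ = g θ → L f θ ≤ L g θ)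
    {X Y : ℤ → C(S, ℝ)} {a : C(S, ℝ)} {h om p : ℝ} {N : ℕ} (hh : 0 < h)
    (hp : 0 < p) (ha0 : ∀ x, 0 ≤ a x)
    (hY : ∀ (j : ℤ) (θ : S), |j| < (N : ℤ) → 0 < Y j θ)
    (hEq : ∀ (j : ℤ) (θ : S), |j| < (N : ℤ) →
      (X (j + 1) θ - 2 * X j θ + X (j - 1) θ) / h ^ 2 + L (X j) θ
        + a θ * (Y j θ) ^ p ≤ om)
    (k : ℕ) (hk : k + 1 < N) (θ : S) :
    (cmin X (k + 2) θ - 2 * cmin X (k + 1) θ + cmin X k θ) / h ^ 2 + L (cmin X (k + 1)) θ
      + a θ * (cmin Y (k + 1) θ) ^ p ≤ om := by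
  have hh2 : 0 < h ^ 2 := by (clear * - hh; positivity)
  obtain ⟨j, hj, hX⟩ := cmin_argmin X θ (k + 1)
  have hjN : |j| < (N : ℤ) := by push_cast at hj; omega
  have hL : L (cmin X (k + 1)) θ ≤ L (X j) θ :=
    hmax _ _ θ (fun θ' => cmin_le X θ' (k + 1) j hj) hX
  have hYpos : 0 < cmin Y (k + 1) θ := by
    apply cmin_pos
    intro i hi
    apply hY
    push_cast at hi; omega
  have hpow : (cmin Y (k + 1) θ) ^ p ≤ (Y j θ) ^ p :=
    Real.rpow_le_rpow hYpos.le (cmin_le Y θ (k + 1) j hj) hp.le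
  have hprod : a θ * (cmin Y (k + 1) θ) ^ p ≤ a θ * (Y j θ) ^ p :=
    mul_le_mul_of_nonneg_left hpow (ha0 θ)
  have hE := hEq j θ hjN
  have e1 : cmin X (k + 2) θ ≤ cmin X (k + 1) θ := cmin_anti X (k + 1) θ
  have e2 : cmin X (k + 1) θ ≤ cmin X k θ := cmin_anti X k θ
  rcases lt_or_ge |j| ((k : ℤ) + 1) with hlt | hge
  · -- interior argmin
    have hk' : cmin X k θ ≤ X j θ := cmin_le X θ k j (by (clear * - hlt; omega))
    have hsec : 0 ≤ (X (j + 1) θ - 2 * X j θ + X (j - 1) θ) / h ^ 2 := by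
      apply div_nonneg _ hh2.le
      have f1 : cmin X (k + 1) θ ≤ X (j + 1) θ := cmin_le X θ (k + 1) (j + 1) (by
        push_cast; have := abs_add_le j 1; simp only [abs_one] at this; omega)
      have f2 : cmin X (k + 1) θ ≤ X (j - 1) θ := cmin_le X θ (k + 1) (j - 1) (by
        push_cast; have := abs_sub j 1; simp only [abs_one] at this; omega)
      rw [hX] at f1 f2; linarith only [f1, f2]
    have hsec2 : (cmin X (k + 2) θ - 2 * cmin X (k + 1) θ + cmin X k θ) / h ^ 2 ≤ 0 := by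
      apply div_nonpos_of_nonpos_of_nonneg _ hh2.le
      rw [hX] at e1 e2 ⊢; linarith only [e1, hk']
    rw [hX] at *
    linarith only [hL, hprod, hE, hsec, hsec2]
  · have hjeq : |j| = (k : ℤ) + 1 := by push_cast at hj; omega
    have key : cmin X (k + 2) θ - 2 * cmin X (k + 1) θ + cmin X k θ ≤
        X (j + 1) θ - 2 * X j θ + X (j - 1) θ := by
      rcases abs_cases j with ⟨h2, _⟩ | ⟨h2, _⟩
      · have hj' : j = (k : ℤ) + 1 := by omega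
        have f1 : cmin X (k + 2) θ ≤ X (j + 1) θ := cmin_le X θ (k + 2) (j + 1) (by
          rw [abs_of_nonneg (by omega)]; push_cast; omega)
        have f2 : cmin X k θ ≤ X (j - 1) θ := cmin_le X θ k (j - 1) (by
          rw [abs_of_nonneg (by omega)]; omega)
        rw [hX]; linarith only [f1, f2]
      · have hj' : j = -((k : ℤ) + 1) := by omega
        have f1 : cmin X (k + 2) θ ≤ X (j - 1) θ := cmin_le X θ (k + 2) (j - 1) (by
          rw [abs_of_nonpos (by omega)]; push_cast; omega)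
        have f2 : cmin X k θ ≤ X (j + 1) θ := cmin_le X θ k (j + 1) (by
          rw [abs_of_nonpos (by omega)]; omega)
        rw [hX]; linarith only [f1, f2]
    have hdiv : (cmin X (k + 2) θ - 2 * cmin X (k + 1) θ + cmin X k θ) / h ^ 2 ≤
        (X (j + 1) θ - 2 * X j θ + X (j - 1) θ) / h ^ 2 := by (clear * - key hh; gcongr)
    rw [hX] at *
    linarith only [hL, hprod, hE, hdiv]

end

section

variable {S K : Type*} [TopologicalSpace S] [CompactSpace S] [MeasurableSpace S] [BorelSpace S]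
  [Fintype K]

/-- The discrete inequality. -/
theorem disc_intW (σ : Measure S) [IsFiniteMeasure σ] {κ lam p q h om rho Lam abar : ℝ} {a b : C(S, ℝ)} {N : ℕ}
    {R : K → S → S} (hR : ∀ k, Continuous (R k)) (hκ : 0 ≤ κ)
    (hsym : ∀ F G : S → ℝ, Continuous F → Continuous G →
      ∫ θ, Lop κ R F θ * G θ ∂σ = ∫ θ, F θ * Lop κ R G θ ∂σ)
    (hp : 0 < p) (hq : 0 < q) (hpq : 1 / (p + 1) + 1 / (q + 1) ≤ 1) (ha : ∀ x, 0 ≤ a x) (hb : ∀ x, 0 ≤ b x)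
    (haA : ∀ x, a x ≤ abar) (hbA : ∀ x, b x ≤ abar) (hA0 : 0 ≤ abar)
    (hN : 1 ≤ N) (hh : 0 < h) (hom : 0 ≤ om) (hrho0 : 0 ≤ rho) (hLam : 0 ≤ Lam)
    {X Y : ℤ → C(S, ℝ)} (hX : ∀ i θ, 0 < X i θ) (hY : ∀ i θ, 0 < Y i θ)
    (hEX : ∀ (j : ℤ) (θ : S), |j| < (N : ℤ) → (X (j + 1) θ - 2 * X j θ + X (j - 1) θ) / h ^ 2
      + Lk κ lam R hR (X j) θ + a θ * (Y j θ) ^ p ≤ om)
    (hEY : ∀ (j : ℤ) (θ : S), |j| < (N : ℤ) → (Y (j + 1) θ - 2 * Y j θ + Y (j - 1) θ) / h ^ 2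
      + Lk κ lam R hR (Y j) θ + b θ * (X j θ) ^ q ≤ om)
    (hrho : ∀ k < N, ∀ x, (cmin Y k x) ^ p - (cmin Y (k + 1) x) ^ p ≤ rho)
    (hrho' : ∀ k < N, ∀ x, (cmin X k x) ^ q - (cmin X (k + 1) x) ^ q ≤ rho)
    (hL : ∀ F : C(S, ℝ), (∀ x, 0 ≤ F x) → ((∀ x, F x ≤ X 0 x) ∨ (∀ x, F x ≤ Y 0 x)) →
      ∀ x, |Lk κ lam R hR F x| ≤ Lam) :
    ((N - 1 : ℕ) * h / 2) * HHW (Iσ σ) (Lk κ lam R hR) (cminN X N) (cminN Y N) a
      b p q hp hq h 0 ≤
      2 * KE (Iσ σ) (cminN X N) (cminN Y N) h (N - 1)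
      + 1 / (((N - 1 : ℕ) + 1 : ℝ) * h) * ∫ θ, Y 0 θ * X 0 θ ∂σ
      + (om * ((N - 1 : ℕ) * h) + h * Lam / 2) * (∫ θ, Y 0 θ ∂σ + ∫ θ, X 0 θ ∂σ)
      + ((N - 1 : ℕ) * h / 2) * ((om + rho * abar) * (∫ θ, Y 0 θ ∂σ + ∫ θ, X 0 θ ∂σ)) := by
  have hmax : ∀ (f g : C(S, ℝ)) (θ : S), (∀ θ', f θ' ≤ g θ') → f θ = g θ →
      Lk κ lam R hR f θ ≤ Lk κ lam R hR g θ := by
    intro f g θ hfg he
    change κ * ∑ k, (f (R k θ) - f θ) - lam * f θ ≤ κ * ∑ k, (g (R k θ) - g θ) - lam * g θ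
    rw [he]
    have : ∑ k, (f (R k θ) - g θ) ≤ ∑ k, (g (R k θ) - g θ) :=
      Finset.sum_le_sum fun k _ => by linarith only [hfg (R k θ)]
    have := mul_le_mul_of_nonneg_left this hκ
    linarith only [this]
  have hsup : SupW (Iσ σ) (Lk κ lam R hR) (cminN X N) (cminN Y N) a b
      p q h om N := by
    refine ⟨fun f hf => integral_nonneg hf, fun f g => ?_, hp, hq, hh, hom, ha,
      hb, cminN_pos hX N, cminN_pos hY N, cminN_anti X N, cminN_anti Y N, ?_, ?_⟩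
    · change ∫ θ, f θ * (Lop κ R g θ - lam * g θ) ∂σ = ∫ θ, g θ * (Lop κ R f θ - lam * f θ) ∂σ
      have h1 := hsym f g f.continuous g.continuous
      have i1 : Integrable (fun θ => f θ * Lop κ R g θ) σ :=
        int_cont σ (f.continuous.mul (continuous_Lop κ hR g.continuous))
      have i2 : Integrable (fun θ => Lop κ R f θ * g θ) σ :=
        int_cont σ ((continuous_Lop κ hR f.continuous).mul g.continuous)
      have i3 : Integrable (fun θ => f θ * (lam * g θ)) σ :=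
        int_cont σ (f.continuous.mul (continuous_const.mul g.continuous))
      have e1 : ∫ θ, f θ * (Lop κ R g θ - lam * g θ) ∂σ =
          ∫ θ, f θ * Lop κ R g θ ∂σ - ∫ θ, f θ * (lam * g θ) ∂σ := by
        rw [← integral_sub i1 i3]
        exact integral_congr_ae (Eventually.of_forall fun θ => by ring)
      have e2 : ∫ θ, g θ * (Lop κ R f θ - lam * f θ) ∂σ =
          ∫ θ, Lop κ R f θ * g θ ∂σ - ∫ θ, f θ * (lam * g θ) ∂σ := by
        rw [← integral_sub i2 i3]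
        exact integral_congr_ae (Eventually.of_forall fun θ => by ring)
      rw [e1, e2, h1]
    · intro k hk x
      rw [cminN_of_le (show k + 2 ≤ N by omega), cminN_of_le (show k + 1 ≤ N by omega),
        cminN_of_le (show k ≤ N by omega), cminN_of_le (show k + 1 ≤ N by omega)]
      exact disc1W (a := a) hmax hh hp ha
        (fun j θ _ => hY j θ) (fun j θ hj => hEX j θ hj) k hk x
    · intro k hk x
      rw [cminN_of_le (show k + 2 ≤ N by omega), cminN_of_le (show k + 1 ≤ N by omega),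
        cminN_of_le (show k ≤ N by omega), cminN_of_le (show k + 1 ≤ N by omega)]
      exact disc1W (a := b) hmax hh hq hb
        (fun j θ _ => hX j θ) (fun j θ hj => hEY j θ hj) k hk x
  have hr : ∀ {Z : ℤ → C(S, ℝ)} {r : ℝ}, (∀ k < N, ∀ x, (cmin Z k x) ^ r -
      (cmin Z (k + 1) x) ^ r ≤ rho) → ∀ k x, (cminN Z N k x) ^ r - (cminN Z N (k + 1) x) ^ r ≤ rho := by
    intro Z r hZ k x
    rcases Nat.lt_or_ge k N with h1 | h1
    · rw [cminN_of_le h1.le, cminN_of_le h1]; exact hZ k h1 x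
    · rw [cminN, cminN, min_eq_right h1, min_eq_right (by omega), sub_self]; exact hrho0
  have key := discW_main hsup (rho := rho) (abar := abar) (Lam := Lam) (n := N - 1)
    (by omega) hpq hrho0 hA0 hLam (hr hrho) (hr hrho') haA hbA
    (fun k x => hL _ (fun x => (cminN_pos hY N k x).le) (Or.inr (cminN_le_zero Y N k)) x)
    (fun k x => hL _ (fun x => (cminN_pos hX N k x).le) (Or.inl (cminN_le_zero X N k)) x)
  have z1 : cminN X N 0 = X 0 := by rw [cminN_of_le (Nat.zero_le _)]; rfl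
  have z2 : cminN Y N 0 = Y 0 := by rw [cminN_of_le (Nat.zero_le _)]; rfl
  rw [z1, z2] at key
  exact key

end

section

variable {S : Type*} [TopologicalSpace S] [CompactSpace S] [MeasurableSpace S] [BorelSpace S]

/-- Lower bound of the first Hamiltonian. -/
theorem hhW_ge {K : Type*} [Fintype K] (σ : Measure S) [IsFiniteMeasure σ]
    {κ lam p q h w ω e B Λ abar : ℝ} {a b : C(S, ℝ)}
    {R : K → S → S} (hR : ∀ k, Continuous (R k))
    (hsym : ∀ F G : S → ℝ, Continuous F → Continuous G →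
      ∫ θ, Lop κ R F θ * G θ ∂σ = ∫ θ, F θ * Lop κ R G θ ∂σ)
    (hp : 0 < p) (hq : 0 < q) (ha : ∀ x, 0 ≤ a x) (hb : ∀ x, 0 ≤ b x)
    (haA : ∀ x, a x ≤ abar) (hbA : ∀ x, b x ≤ abar) (hA0 : 0 ≤ abar) (hlam : 0 ≤ lam)
    (hω : 0 ≤ ω) (he0 : 0 ≤ e)
    {m mu : ℕ → C(S, ℝ)} (hm1 : ∀ x, 0 < m 1 x) (hmu1 : ∀ x, 0 < mu 1 x)
    (hm : ∀ x, m 1 x ≤ m 0 x ∧ m 0 x - m 1 x ≤ w)
    (hmu : ∀ x, mu 1 x ≤ mu 0 x ∧ mu 0 x - mu 1 x ≤ w)
    (hB : ∀ x, m 0 x ≤ B ∧ mu 0 x ≤ B)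
    {X1 Y1 SX : S → ℝ} (hX1c : Continuous X1) (hY1c : Continuous Y1) (hSXc : Continuous SX)
    (hX1 : ∀ x, |X1 x| ≤ B) (hY1 : ∀ x, |Y1 x| ≤ B)
    (hprod : ∀ x, X1 x * Y1 x - ω * (|X1 x| + |Y1 x|) ≤
      (m 1 x - m 0 x) * (mu 1 x - mu 0 x) / h ^ 2)
    (hΛ : ∀ x, |Lop κ R (m 0) x| ≤ Λ ∧ |Lop κ R (mu 0) x| ≤ Λ)
    (he : ∀ x, |Lop κ R (m 0) x - SX x| ≤ e) :
    ∫ x, X1 x * Y1 x ∂σ + ∫ x, SX x * mu 0 x ∂σ - lam * ∫ x, m 0 x * mu 0 x ∂σ
      + 1 / (p + 1) * ∫ x, a x * mu 0 x ^ (p + 1) ∂σ + 1 / (q + 1) * ∫ x, b x * m 0 x ^ (q + 1) ∂σ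
      - (2 * ω * B + e * B + w * Λ + abar / 2 * (w * B ^ p) + abar / 2 * (w * B ^ q)) * σ.real univ
      ≤ HHW (Iσ σ) (Lk κ lam R hR) m mu a b p q hp hq h 0 := by
  have old := hh_ge σ (κ := κ) (lam := lam) (a := 0) (b := 0) (h := h) (w := w) (ω := ω) (e := e)
    (B := B) (Λ := Λ) hR hsym hp hq le_rfl le_rfl hlam hω he0 hm1 hmu1 hm hmu hB hX1c hY1c hSXc
    hX1 hY1 hprod hΛ he
  have hpz : ∀ (r : ℝ) (hr : 0 < r) (g : ℕ → C(S, ℝ)), pot (Iσ σ) r hr (fun _ => (0 : ℝ)) g 0 = 0 := by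
    intro r hr g
    unfold pot
    simp
  have e0 : HH (Iσ σ) (Lk κ lam R hR) m mu (fun _ => (0 : ℝ)) (fun _ => (0 : ℝ)) p q hp hq h 0 =
      kin (Iσ σ) (Lk κ lam R hR) m mu h 0 := by
    unfold HH
    rw [hpz, hpz, add_zero, add_zero]
  rw [e0] at old
  have pt : ∀ {r : ℝ} (hr : 0 < r) (c : C(S, ℝ)) (hc : ∀ x, 0 ≤ c x) (hc' : ∀ x, c x ≤ abar)
      {g : ℕ → C(S, ℝ)}, (∀ x, 0 < g 1 x) →
      (∀ x, g 1 x ≤ g 0 x ∧ g 0 x - g 1 x ≤ w) → (∀ x, g 0 x ≤ B) →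
      1 / (r + 1) * ∫ x, c x * g 0 x ^ (r + 1) ∂σ - abar / 2 * (w * B ^ r) * σ.real univ ≤
        potW (Iσ σ) c r hr g 0 := by
    intro r hr c hc hc' g hg1 hg hgB
    have cont : ∀ k, Continuous fun x => c x * g k x ^ (r + 1) := fun k =>
      c.continuous.mul ((g k).continuous.rpow_const fun _ => Or.inr (by linarith only [hr]))
    have h1 : ∫ x, c x * g 0 x ^ (r + 1) ∂σ - (abar * ((r + 1) * (w * B ^ r))) * σ.real univ ≤
        ∫ x, c x * g 1 x ^ (r + 1) ∂σ := by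
      refine int_le_add σ (int_cont σ (cont 0)) (int_cont σ (cont 1)) fun x => ?_
      have g0 := (hg1 x).trans_le (hg x).1
      have h2 := rpow_convex hr g0 (hg1 x)
      have hw0 : 0 ≤ w := by linarith only [(hg x).1, (hg x).2]
      have h3 : (g 0 x - g 1 x) * g 0 x ^ r ≤ w * B ^ r :=
        mul_le_mul (hg x).2 (rpow_le_rpow g0.le (hgB x) hr.le) (rpow_nonneg g0.le _) hw0
      have h30 : 0 ≤ (g 0 x - g 1 x) * g 0 x ^ r :=
        mul_nonneg (by linarith only [(hg x).1]) (rpow_nonneg g0.le _)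
      have h4 : c x * (g 0 x ^ (r + 1) - g 1 x ^ (r + 1)) ≤
          c x * ((r + 1) * ((g 0 x - g 1 x) * g 0 x ^ r)) := mul_le_mul_of_nonneg_left h2 (hc x)
      have hr1 : 0 < r + 1 := by linarith only [hr]
      have h5 : c x * ((r + 1) * ((g 0 x - g 1 x) * g 0 x ^ r)) ≤
          abar * ((r + 1) * (w * B ^ r)) := by
        apply mul_le_mul (hc' x) (mul_le_mul_of_nonneg_left h3 hr1.le)
          (mul_nonneg hr1.le h30) hA0
      linarith only [h4, h5]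
    have h2 : potW (Iσ σ) c r hr g 0 =
        (∫ x, c x * g 0 x ^ (r + 1) ∂σ + ∫ x, c x * g 1 x ^ (r + 1) ∂σ) / (2 * (r + 1)) := rfl
    rw [h2, le_div_iff₀ (by (clear * - hr; positivity))]
    have h4 : (1 / (r + 1) * ∫ x, c x * g 0 x ^ (r + 1) ∂σ - abar / 2 * (w * B ^ r) * σ.real univ)
        * (2 * (r + 1)) = 2 * (∫ x, c x * g 0 x ^ (r + 1) ∂σ)
          - (abar * ((r + 1) * (w * B ^ r))) * σ.real univ := by
      (clear * - hr; field_simp)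
    rw [h4]
    linarith only [h1]
  have p1 := pt hp a ha haA hmu1 hmu fun x => (hB x).2
  have p2 := pt hq b hb hbA hm1 hm fun x => (hB x).1
  unfold HHW
  have z1 : (0 : ℝ) / (p + 1) = 0 := zero_div _
  have z2 : (0 : ℝ) / (q + 1) = 0 := zero_div _
  rw [z1, z2] at old
  linarith only [old, p1, p2]

end

section

variable {S K : Type*} [TopologicalSpace S] [CompactSpace S] [MeasurableSpace S] [BorelSpace S]
  [Fintype K]

omit [CompactSpace S] [MeasurableSpace S] [BorelSpace S] in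
/-- The approximate discrete equation. -/
theorem disc_eqW {X X1 X2 SX Y : ℝ → S → ℝ} {T B ω e h κ lam p : ℝ} {a : C(S, ℝ)} {R : K → S → S}
    (W : Win X X1 X2 SX T B ω e h κ R) (hR : ∀ k, Continuous (R k)) (hh : 0 < h) {N : ℕ}
    (hN : h * N = T) (hYc : Continuous (fun z : ℝ × S => Y z.1 z.2))
    (eq : ∀ s θ, |s| ≤ T → X2 s θ + SX s θ - lam * X s θ + a θ * Y s θ ^ p ≤ 0)
    (j : ℤ) (θ : S) (hj : |j| < (N : ℤ)) :
    (smpC X W.c0 h (j + 1) θ - 2 * smpC X W.c0 h j θ + smpC X W.c0 h (j - 1) θ) / h ^ 2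
      + Lk κ lam R hR (smpC X W.c0 h j) θ + a θ * (smpC Y hYc h j θ) ^ p ≤ 2 * ω + e := by
  have hjN : (|(j : ℝ)| + 1) ≤ N := by
    have h1 : |j| + 1 ≤ (N : ℤ) := by omega
    have h2 : ((|j| + 1 : ℤ) : ℝ) ≤ ((N : ℤ) : ℝ) := by exact_mod_cast h1
    push_cast at h2
    exact h2
  set t : ℝ := j * h with ht
  have habs : |t| + h ≤ T := by
    rw [ht, abs_mul, abs_of_pos hh, ← hN]
    nlinarith only [hh, hjN]
  have ht0 : |t| ≤ T := by linarith only [hh, habs]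
  have ht1 : |t + h| ≤ T := (abs_add_le _ _).trans (by rw [abs_of_pos hh]; exact habs)
  have ht2 : |t - h| ≤ T := (abs_sub _ _).trans (by rw [abs_of_pos hh]; exact habs)
  have e1 : smpC X W.c0 h (j + 1) θ = X (t + h) θ := by
    change X (((j + 1 : ℤ) : ℝ) * h) θ = _
    congr 1; rw [ht]; push_cast; ring
  have e2 : smpC X W.c0 h (j - 1) θ = X (t - h) θ := by
    change X (((j - 1 : ℤ) : ℝ) * h) θ = _
    congr 1; rw [ht]; push_cast; ring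
  have e3 : smpC X W.c0 h j θ = X t θ := rfl
  have e4 : smpC Y hYc h j θ = Y t θ := rfl
  have e5 : Lk κ lam R hR (smpC X W.c0 h j) θ = Lop κ R (X t) θ - lam * X t θ := rfl
  rw [e1, e2, e3, e4, e5]
  have s1 := (abs_le.1 (snd_diff (f := fun s => X s θ) (f1 := fun s => X1 s θ)
    (f2 := fun s => X2 s θ) (t := t) hh ht1 ht2 (fun s _ => W.d0 s θ) (fun s _ => W.d1 s θ)
    (fun s s' a b c => W.m2 s s' a b c θ))).2
  have s2 := (abs_le.1 (W.u t ht0 θ)).2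
  have s3 := eq t θ ht0
  linarith only [s1, s2, s3]

/-- The inequality at a fixed step. -/
theorem fixed_stepW (σ : Measure S) [IsFiniteMeasure σ] {lam p q T B ω e h κ rho abar : ℝ} {a b : C(S, ℝ)}
    (hT : 0 < T) (hlam : 0 ≤ lam) (ha : ∀ x, 0 ≤ a x) (hb : ∀ x, 0 ≤ b x)
    (haA : ∀ x, a x ≤ abar) (hbA : ∀ x, b x ≤ abar) (hA0 : 0 ≤ abar) (hp : 0 < p) (hq : 0 < q)
    (hpq : 1 / (p + 1) + 1 / (q + 1) ≤ 1) (hκ : 0 ≤ κ) (hB : 0 ≤ B) (he : 0 ≤ e)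
    (hω0 : 0 ≤ ω) (hω1 : ω ≤ 1) (hrho : 0 ≤ rho) (hh : 0 < h)
    {R : K → S → S} (hR : ∀ k, Continuous (R k))
    (hsym : ∀ F G : S → ℝ, Continuous F → Continuous G →
      ∫ θ, Lop κ R F θ * G θ ∂σ = ∫ θ, F θ * Lop κ R G θ ∂σ)
    {X X1 X2 SX Y Y1 Y2 SY : ℝ → S → ℝ} (W : Win X X1 X2 SX T B ω e h κ R)
    (W' : Win Y Y1 Y2 SY T B ω e h κ R)
    (eX : ∀ s θ, |s| ≤ T → X2 s θ + SX s θ - lam * X s θ + a θ * Y s θ ^ p ≤ 0)
    (eY : ∀ s θ, |s| ≤ T → Y2 s θ + SY s θ - lam * Y s θ + b θ * X s θ ^ q ≤ 0)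
    {N : ℕ} (hN1 : 1 ≤ N) (hN : h * N = T)
    (hmp : ∀ y y' : ℝ, y ∈ Icc 0 B → y' ∈ Icc 0 B → |y - y'| ≤ h * (B + 1) →
      y ^ p - y' ^ p ≤ rho)
    (hmq : ∀ y y' : ℝ, y ∈ Icc 0 B → y' ∈ Icc 0 B → |y - y'| ≤ h * (B + 1) →
      y ^ q - y' ^ q ≤ rho)
    {G : S → ℝ} (hG0 : ∀ θ, 0 ≤ G θ) (hGi : Integrable G σ)
    (hG : ∀ᵐ θ ∂σ, ∀ t, |t| ≤ T → X t θ ≤ X 0 θ → |X1 t θ| ≤ G θ) :
    (T - h) / 2 * (∫ x, X1 0 x * Y1 0 x ∂σ + ∫ x, SX 0 x * Y 0 x ∂σ - lam * ∫ x, X 0 x * Y 0 x ∂σ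
      + 1 / (p + 1) * ∫ x, a x * Y 0 x ^ (p + 1) ∂σ
      + 1 / (q + 1) * ∫ x, b x * X 0 x ^ (q + 1) ∂σ
      - (2 * ω * B + e * B + h * (B + 1) * (κ * (Fintype.card K * B) + lam * B)
        + abar / 2 * (h * (B + 1) * B ^ p) + abar / 2 * (h * (B + 1) * B ^ q)) * σ.real univ) ≤
      2 * (∫ θ, G θ * Y 0 θ ∂σ + ω * (B * σ.real univ)) + 1 / T * ∫ θ, Y 0 θ * X 0 θ ∂σ
      + ((2 * ω + e) * T + h * (κ * (Fintype.card K * B) + lam * B) / 2) *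
        (2 * (B * σ.real univ))
      + T / 2 * (((2 * ω + e) + rho * abar) * (2 * (B * σ.real univ))) := by
  set Lam : ℝ := κ * (Fintype.card K * B) + lam * B with hLam
  have hLam0 : 0 ≤ Lam := by (clear * - hκ hB hlam; positivity)
  have hN0 : (1 : ℝ) ≤ N := by exact_mod_cast hN1
  have hhT : h ≤ T := by rw [← hN]; nlinarith only [hh, hN0]
  have hNh : ((N - 1 : ℕ) : ℝ) * h = T - h := by
    rw [Nat.cast_sub hN1, Nat.cast_one, ← hN]; ring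
  have hNh' : (((N - 1 : ℕ) : ℝ) + 1) * h = T := by
    rw [Nat.cast_sub hN1, Nat.cast_one, ← hN]; ring
  have x0 : ∀ θ, smpC X W.c0 h 0 θ = X 0 θ := W.zero
  have y0 : ∀ θ, smpC Y W'.c0 h 0 θ = Y 0 θ := W'.zero
  have hT0 : |(0 : ℝ)| ≤ T := by rw [abs_zero]; exact hT.le
  have XB : ∀ θ, X 0 θ ≤ B := fun θ => (le_abs_self _).trans (W.b0 0 hT0 θ)
  have YB : ∀ θ, Y 0 θ ≤ B := fun θ => (le_abs_self _).trans (W'.b0 0 hT0 θ)
  have hL : ∀ F : C(S, ℝ), (∀ x, 0 ≤ F x) → ((∀ x, F x ≤ smpC X W.c0 h 0 x) ∨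
      (∀ x, F x ≤ smpC Y W'.c0 h 0 x)) → ∀ x, |Lk κ lam R hR F x| ≤ Lam := by
    intro F hF hF' x
    have hFB : ∀ x, F x ≤ B := by
      rcases hF' with h1 | h1
      · exact fun x => (h1 x).trans (by rw [x0]; exact XB x)
      · exact fun x => (h1 x).trans (by rw [y0]; exact YB x)
    have e5 : Lk κ lam R hR F x = Lop κ R F x - lam * F x := rfl
    rw [e5]
    refine (abs_sub _ _).trans ?_
    rw [abs_mul, abs_of_nonneg hlam, abs_of_nonneg (hF x)]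
    exact add_le_add (lop_bound hκ hF hFB x) (mul_le_mul_of_nonneg_left (hFB x) hlam)
  have key := disc_intW (σ := σ) (abar := abar) (κ := κ) (lam := lam) (a := a) (b := b) (p := p) (q := q) (h := h)
    (om := 2 * ω + e) (rho := rho) (Lam := Lam) (N := N) hR hκ hsym hp hq hpq ha hb haA hbA hA0 hN1 hh
    (by (clear * - hω0 he; positivity)) hrho hLam0 (X := smpC X W.c0 h) (Y := smpC Y W'.c0 h)
    (fun i θ => W.pos _ _) (fun i θ => W'.pos _ _)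
    (fun j θ hj => disc_eqW W hR hh hN W'.c0 eX j θ hj)
    (fun j θ hj => disc_eqW W' hR hh hN W.c0 eY j θ hj)
    (fun k hk x => hmp _ _ (W'.range hT.le k x) (W'.range hT.le (k + 1) x) (by
      have h1 := W'.slope hh hω0 hω1 hB hN hk x
      have h2 := cmin_anti (smpC Y W'.c0 h) k x
      rw [abs_of_nonneg (by linarith only [h2])]; exact h1))
    (fun k hk x => hmq _ _ (W.range hT.le k x) (W.range hT.le (k + 1) x) (by
      have h1 := W.slope hh hω0 hω1 hB hN hk x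
      have h2 := cmin_anti (smpC X W.c0 h) k x
      rw [abs_of_nonneg (by linarith only [h2])]; exact h1)) hL
  rw [hNh, hNh'] at key
  simp_rw [x0, y0] at key
  have hKE := ke_le' σ (B := B) hN1 hh hN W.c0 W'.c0 (fun t θ _ => W.d0 t θ) W.m1 hω0
    W'.pos YB hG0 hGi hG
  have hm01 : cminN (smpC X W.c0 h) N 0 = smpC X W.c0 h 0 := by
    rw [cminN_of_le (Nat.zero_le _)]; rfl
  have hmu01 : cminN (smpC Y W'.c0 h) N 0 = smpC Y W'.c0 h 0 := by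
    rw [cminN_of_le (Nat.zero_le _)]; rfl
  have f0 : ∀ x, cminN (smpC X W.c0 h) N 0 x = X 0 x := fun x => by rw [hm01, x0]
  have g0 : ∀ x, cminN (smpC Y W'.c0 h) N 0 x = Y 0 x := fun x => by rw [hmu01, y0]
  have f0' : (cminN (smpC X W.c0 h) N 0 : S → ℝ) = X 0 := funext f0
  have g0' : (cminN (smpC Y W'.c0 h) N 0 : S → ℝ) = Y 0 := funext g0
  have hge := hhW_ge (σ := σ) (abar := abar) (κ := κ) (lam := lam) (a := a) (b := b) (p := p) (q := q) (h := h)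
    (w := h * (B + 1)) (ω := ω) (e := e) (B := B) (Λ := Lam) hR hsym hp hq ha hb haA hbA hA0 hlam hω0 he
    (m := cminN (smpC X W.c0 h) N) (mu := cminN (smpC Y W'.c0 h) N)
    (fun x => cminN_pos (fun i θ => W.pos _ _) N 1 x)
    (fun x => cminN_pos (fun i θ => W'.pos _ _) N 1 x)
    (fun x => ⟨cminN_anti _ N 0 x, by
      rw [cminN_of_le (Nat.zero_le _), cminN_of_le hN1]
      exact W.slope hh hω0 hω1 hB hN (k := 0) hN1 x⟩)
    (fun x => ⟨cminN_anti _ N 0 x, by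
      rw [cminN_of_le (Nat.zero_le _), cminN_of_le hN1]
      exact W'.slope hh hω0 hω1 hB hN (k := 0) hN1 x⟩)
    (fun x => ⟨by rw [f0]; exact XB x, by rw [g0]; exact YB x⟩)
    (X1 := X1 0) (Y1 := Y1 0) (SX := SX 0)
    (W.c1.comp (Continuous.prodMk_right _)) (W'.c1.comp (Continuous.prodMk_right _))
    (W.cS.comp (Continuous.prodMk_right _)) (W.b1 0 hT0) (W'.b1 0 hT0)
    (fun x => by
      rw [cminN_of_le (Nat.zero_le _), cminN_of_le hN1, cminN_of_le (Nat.zero_le _),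
        cminN_of_le hN1]
      exact W.prod W' hh hω0 hhT x)
    (fun x => ⟨by
      rw [f0']
      exact (lop_bound hκ (fun x => (W.pos 0 x).le) XB x).trans (by
        rw [hLam]; have := mul_nonneg hlam hB; linarith only [this]), by
      rw [g0']
      exact (lop_bound hκ (fun x => (W'.pos 0 x).le) YB x).trans (by
        rw [hLam]; have := mul_nonneg hlam hB; linarith only [this])⟩)
    (fun x => by rw [f0']; exact W.u 0 hT0 x)
  simp_rw [f0, g0] at hge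
  have hTh : 0 ≤ (T - h) / 2 := by linarith only [hhT]
  have h1 := mul_le_mul_of_nonneg_left hge hTh
  refine h1.trans (key.trans ?_)
  have hV : 0 ≤ σ.real univ := measureReal_nonneg
  have iXle : ∫ θ, X 0 θ ∂σ ≤ B * σ.real univ := by
    calc ∫ θ, X 0 θ ∂σ ≤ ∫ _θ, B ∂σ := integral_mono
          (int_cont σ (W.c0.comp (Continuous.prodMk_right _))) (integrable_const _) XB
      _ = B * σ.real univ := by rw [integral_const, smul_eq_mul]; ring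
  have iYle : ∫ θ, Y 0 θ ∂σ ≤ B * σ.real univ := by
    calc ∫ θ, Y 0 θ ∂σ ≤ ∫ _θ, B ∂σ := integral_mono
          (int_cont σ (W'.c0.comp (Continuous.prodMk_right _))) (integrable_const _) YB
      _ = B * σ.real univ := by rw [integral_const, smul_eq_mul]; ring
  have iX0 : 0 ≤ ∫ θ, X 0 θ ∂σ := integral_nonneg fun θ => (W.pos 0 θ).le
  have iY0 : 0 ≤ ∫ θ, Y 0 θ ∂σ := integral_nonneg fun θ => (W'.pos 0 θ).le
  have hsum : ∫ θ, Y 0 θ ∂σ + ∫ θ, X 0 θ ∂σ ≤ 2 * (B * σ.real univ) := by linarith only [iXle, iYle]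
  have hsum0 : 0 ≤ ∫ θ, Y 0 θ ∂σ + ∫ θ, X 0 θ ∂σ := by linarith only [iX0, iY0]
  have t1 : ((2 * ω + e) * (T - h) + h * Lam / 2) * (∫ θ, Y 0 θ ∂σ + ∫ θ, X 0 θ ∂σ) ≤
      ((2 * ω + e) * T + h * Lam / 2) * (2 * (B * σ.real univ)) := by
    refine mul_le_mul ?_ hsum hsum0 (by (clear * - hω0 he hT hh hκ hB hlam; positivity))
    have : (2 * ω + e) * (T - h) ≤ (2 * ω + e) * T := by
      refine mul_le_mul_of_nonneg_left (by linarith only [hh]) (by (clear * - hω0 he; positivity))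
    linarith only [this]
  have t2 : (T - h) / 2 * (((2 * ω + e) + rho * abar) * (∫ θ, Y 0 θ ∂σ + ∫ θ, X 0 θ ∂σ)) ≤
      T / 2 * (((2 * ω + e) + rho * abar) * (2 * (B * σ.real univ))) := by
    refine mul_le_mul (by linarith only [hh]) ?_ (by (clear * - hω0 he hrho hA0 iY0 iX0; positivity)) (by positivity)
    exact mul_le_mul_of_nonneg_left hsum (by (clear * - hω0 he hrho hA0; positivity))
  linarith only [hKE, t1, t2]

/-- **The limit inequality, abstract form.** -/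
theorem lim_absW (σ : Measure S) [IsFiniteMeasure σ] {lam p q T abar : ℝ} {a b : C(S, ℝ)}
    (hT : 0 < T) (hlam : 0 ≤ lam) (ha : ∀ x, 0 ≤ a x) (hb : ∀ x, 0 ≤ b x)
    (haA : ∀ x, a x ≤ abar) (hbA : ∀ x, b x ≤ abar) (hA0 : 0 ≤ abar) (hp : 0 < p) (hq : 0 < q)
    (hpq : 1 / (p + 1) + 1 / (q + 1) ≤ 1)
    {R : ℝ → K → S → S} (hR : ∀ ε k, Continuous (R ε k))
    (hsym : ∀ (c ε : ℝ) (F G : S → ℝ), Continuous F → Continuous G →
      ∫ θ, Lop c (R ε) F θ * G θ ∂σ = ∫ θ, F θ * Lop c (R ε) G θ ∂σ)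
    {X X1 X2 SX Y Y1 Y2 SY : ℝ → S → ℝ}
    (cX : Continuous (fun z : ℝ × S => X z.1 z.2)) (cX1 : Continuous (fun z : ℝ × S => X1 z.1 z.2))
    (cX2 : Continuous (fun z : ℝ × S => X2 z.1 z.2))
    (cSX : Continuous (fun z : ℝ × S => SX z.1 z.2))
    (cY : Continuous (fun z : ℝ × S => Y z.1 z.2)) (cY1 : Continuous (fun z : ℝ × S => Y1 z.1 z.2))
    (cY2 : Continuous (fun z : ℝ × S => Y2 z.1 z.2))
    (cSY : Continuous (fun z : ℝ × S => SY z.1 z.2))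
    (dX : ∀ s θ, HasDerivAt (fun t => X t θ) (X1 s θ) s)
    (dX1 : ∀ s θ, HasDerivAt (fun t => X1 t θ) (X2 s θ) s)
    (dY : ∀ s θ, HasDerivAt (fun t => Y t θ) (Y1 s θ) s)
    (dY1 : ∀ s θ, HasDerivAt (fun t => Y1 t θ) (Y2 s θ) s)
    (posX : ∀ s θ, 0 < X s θ) (posY : ∀ s θ, 0 < Y s θ)
    (uX : ∀ e > 0, ∃ ε0 > 0, ∀ ε, 0 < ε → ε < ε0 → ∀ s, |s| ≤ T → ∀ θ,
      |Lop ((ε ^ 2)⁻¹) (R ε) (X s) θ - SX s θ| ≤ e)
    (uY : ∀ e > 0, ∃ ε0 > 0, ∀ ε, 0 < ε → ε < ε0 → ∀ s, |s| ≤ T → ∀ θ,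
      |Lop ((ε ^ 2)⁻¹) (R ε) (Y s) θ - SY s θ| ≤ e)
    (eX : ∀ s θ, |s| ≤ T → X2 s θ + SX s θ - lam * X s θ + a θ * Y s θ ^ p ≤ 0)
    (eY : ∀ s θ, |s| ≤ T → Y2 s θ + SY s θ - lam * Y s θ + b θ * X s θ ^ q ≤ 0)
    {G : S → ℝ} (hG0 : ∀ θ, 0 ≤ G θ) (hGi : Integrable G σ)
    (hG : ∀ᵐ θ ∂σ, ∀ t, |t| ≤ T → X t θ ≤ X 0 θ → |X1 t θ| ≤ G θ) :
    T / 2 * (∫ x, X1 0 x * Y1 0 x ∂σ + ∫ x, SX 0 x * Y 0 x ∂σ - lam * ∫ x, X 0 x * Y 0 x ∂σ
      + 1 / (p + 1) * ∫ x, a x * Y 0 x ^ (p + 1) ∂σ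
      + 1 / (q + 1) * ∫ x, b x * X 0 x ^ (q + 1) ∂σ) ≤
      2 * ∫ θ, G θ * Y 0 θ ∂σ + 1 / T * ∫ θ, Y 0 θ * X 0 θ ∂σ := by
  refine le_of_forall_pos_le_add fun η hη => ?_
  obtain ⟨B0, hB0⟩ := exists_bound cX T
  obtain ⟨B1, hB1⟩ := exists_bound cY T
  obtain ⟨B2, hB2⟩ := exists_bound cX1 T
  obtain ⟨B3, hB3⟩ := exists_bound cY1 T
  obtain ⟨B, hB, hB0', hB1', hB2', hB3'⟩ : ∃ B : ℝ, 0 ≤ B ∧ B0 ≤ B ∧ B1 ≤ B ∧ B2 ≤ B ∧ B3 ≤ B :=
    ⟨max 0 (max (max B0 B1) (max B2 B3)), le_max_left _ _,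
      (le_max_left _ _).trans ((le_max_left _ _).trans (le_max_right _ _)),
      (le_max_right _ _).trans ((le_max_left _ _).trans (le_max_right _ _)),
      (le_max_left _ _).trans ((le_max_right _ _).trans (le_max_right _ _)),
      (le_max_right _ _).trans ((le_max_right _ _).trans (le_max_right _ _))⟩
  obtain ⟨V, hV, hVdef⟩ : ∃ V : ℝ, 0 ≤ V ∧ σ.real univ = V := ⟨_, measureReal_nonneg, rfl⟩
  generalize hH0 : ∫ x, X1 0 x * Y1 0 x ∂σ + ∫ x, SX 0 x * Y 0 x ∂σ - lam * ∫ x, X 0 x * Y 0 x ∂σ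
      + 1 / (p + 1) * ∫ x, a x * Y 0 x ^ (p + 1) ∂σ
      + 1 / (q + 1) * ∫ x, b x * X 0 x ^ (q + 1) ∂σ = H0
  obtain ⟨e, he0, heQ⟩ : ∃ e : ℝ, 0 < e ∧ e * (4 * T * B * V) ≤ η / 6 :=
    ⟨η / (6 * (4 * T * B * V + 1)), by (clear * - hη hT hB hV; positivity), small_choice hη (by (clear * - hT hB hV; positivity)) le_rfl⟩
  obtain ⟨ε1, hε1, hu1⟩ := uX e he0
  obtain ⟨ε2, hε2, hu2⟩ := uY e he0
  obtain ⟨ε, hε0, hε1', hε2'⟩ : ∃ ε : ℝ, 0 < ε ∧ ε < ε1 ∧ ε < ε2 := by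
    refine ⟨min ε1 ε2 / 2, by (clear * - hε1 hε2; positivity), ?_, ?_⟩
    · have t1 := min_le_left ε1 ε2
      have t2 : 0 < min ε1 ε2 := lt_min hε1 hε2
      linarith only [t1, t2]
    · have t1 := min_le_right ε1 ε2
      have t2 : 0 < min ε1 ε2 := lt_min hε1 hε2
      linarith only [t1, t2]
  obtain ⟨κ, hκ, hκe⟩ : ∃ κ : ℝ, 0 ≤ κ ∧ (ε ^ 2)⁻¹ = κ := ⟨_, by (clear * - hε0; positivity), rfl⟩
  obtain ⟨Lam, hLam0, hLam⟩ : ∃ Lam : ℝ, 0 ≤ Lam ∧ κ * (Fintype.card K * B) + lam * B = Lam :=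
    ⟨_, by (clear * - hκ hB hlam; positivity), rfl⟩
  obtain ⟨C3, hC30, hC3⟩ : ∃ C3 : ℝ, 0 ≤ C3 ∧
      (B + 1) * Lam + abar / 2 * ((B + 1) * B ^ p) + abar / 2 * ((B + 1) * B ^ q) = C3 :=
    ⟨_, by (clear * - hB hLam0 hA0; positivity), rfl⟩
  obtain ⟨ω, hω0, hω1, hωQ⟩ : ∃ ω : ℝ, 0 < ω ∧ ω ≤ 1 ∧ ω * ((7 * T + 2) * B * V) ≤ η / 6 :=
    ⟨min 1 (η / (6 * ((7 * T + 2) * B * V + 1))), lt_min one_pos (by (clear * - hη hT hB hV; positivity)),
      min_le_left _ _, small_choice hη (by (clear * - hT hB hV; positivity)) (min_le_right _ _)⟩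
  obtain ⟨rho, hrho0, hrhoQ⟩ : ∃ rho : ℝ, 0 < rho ∧ rho * (T * abar * B * V) ≤ η / 6 :=
    ⟨η / (6 * (T * abar * B * V + 1)), by (clear * - hη hT hA0 hB hV; positivity), small_choice hη (by (clear * - hT hA0 hB hV; positivity)) le_rfl⟩
  obtain ⟨δ1, hδ1, m1⟩ := unif_mod cX1 T hω0
  obtain ⟨δ2, hδ2, m2⟩ := unif_mod cX2 T hω0
  obtain ⟨δ3, hδ3, m3⟩ := unif_mod cY1 T hω0
  obtain ⟨δ4, hδ4, m4⟩ := unif_mod cY2 T hω0
  obtain ⟨δ5, hδ5, m5⟩ := rpow_mod (B := B) hp hrho0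
  obtain ⟨δ6, hδ6, m6⟩ := rpow_mod (B := B) hq hrho0
  obtain ⟨δ, hδ, e1, e2, e3, e4, e5, e6, e7⟩ : ∃ δ : ℝ, 0 < δ ∧ δ ≤ δ1 ∧ δ ≤ δ2 ∧ δ ≤ δ3 ∧
      δ ≤ δ4 ∧ δ ≤ δ5 / (B + 1) ∧ δ ≤ δ6 / (B + 1) ∧
      δ ≤ η / (6 * ((|H0| / 2 + T / 2 * C3 * V + Lam * B * V) + 1)) :=
    ⟨min (min (min δ1 δ2) (min δ3 δ4)) (min (min (δ5 / (B + 1)) (δ6 / (B + 1)))
        (η / (6 * ((|H0| / 2 + T / 2 * C3 * V + Lam * B * V) + 1)))), by (clear * - hδ1 hδ2 hδ3 hδ4 hδ5 hB hδ6 hη hT hC30 hV hLam0; positivity),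
      (min_le_left _ _).trans ((min_le_left _ _).trans (min_le_left _ _)),
      (min_le_left _ _).trans ((min_le_left _ _).trans (min_le_right _ _)),
      (min_le_left _ _).trans ((min_le_right _ _).trans (min_le_left _ _)),
      (min_le_left _ _).trans ((min_le_right _ _).trans (min_le_right _ _)),
      (min_le_right _ _).trans ((min_le_left _ _).trans (min_le_left _ _)),
      (min_le_right _ _).trans ((min_le_left _ _).trans (min_le_right _ _)),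
      (min_le_right _ _).trans (min_le_right _ _)⟩
  obtain ⟨h, N, hh, hN1, hN, hhδ⟩ := exists_step hT hδ
  have k5 : h * (B + 1) ≤ δ5 := by
    have : h ≤ δ5 / (B + 1) := hhδ.trans e5
    rwa [le_div_iff₀ (by (clear * - hB; positivity))] at this
  have k6 : h * (B + 1) ≤ δ6 := by
    have : h ≤ δ6 / (B + 1) := hhδ.trans e6
    rwa [le_div_iff₀ (by (clear * - hB; positivity))] at this
  have k7 : h * (|H0| / 2 + T / 2 * C3 * V + Lam * B * V) ≤ η / 6 :=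
    small_choice hη (by (clear * - hT hC30 hV hLam0 hB; positivity)) (hhδ.trans e7)
  have WX : Win X X1 X2 SX T B ω e h κ (R ε) :=
    { c0 := cX, c1 := cX1, cS := cSX, pos := posX, d0 := dX, d1 := dX1
      b0 := fun s hs θ => (hB0 s hs θ).trans hB0'
      b1 := fun s hs θ => (hB2 s hs θ).trans hB2'
      m1 := fun s s' hs hs' hss => m1 s s' hs hs' (hss.trans (hhδ.trans e1))
      m2 := fun s s' hs hs' hss => m2 s s' hs hs' (hss.trans (hhδ.trans e2))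
      u := fun s hs θ => by rw [← hκe]; exact hu1 ε hε0 hε1' s hs θ }
  have WY : Win Y Y1 Y2 SY T B ω e h κ (R ε) :=
    { c0 := cY, c1 := cY1, cS := cSY, pos := posY, d0 := dY, d1 := dY1
      b0 := fun s hs θ => (hB1 s hs θ).trans hB1'
      b1 := fun s hs θ => (hB3 s hs θ).trans hB3'
      m1 := fun s s' hs hs' hss => m3 s s' hs hs' (hss.trans (hhδ.trans e3))
      m2 := fun s s' hs hs' hss => m4 s s' hs hs' (hss.trans (hhδ.trans e4))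
      u := fun s hs θ => by rw [← hκe]; exact hu2 ε hε0 hε2' s hs θ }
  have key := fixed_stepW σ hT hlam ha hb haA hbA hA0 hp hq hpq hκ hB he0.le hω0.le hω1 hrho0.le hh (hR ε)
    (hsym _ ε) WX WY eX eY hN1 hN (fun y y' hy hy' hyy => m5 y y' hy hy' (hyy.trans k5))
    (fun y y' hy hy' hyy => m6 y y' hy hy' (hyy.trans k6)) hG0 hGi hG
  rw [hH0, hVdef, hLam] at key
  have herr : 2 * ω * B + e * B + h * (B + 1) * Lam + abar / 2 * (h * (B + 1) * B ^ p)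
      + abar / 2 * (h * (B + 1) * B ^ q) = 2 * ω * B + e * B + h * C3 := by
    rw [← hC3]; ring
  rw [herr] at key
  have hfin := lim_arith hT.le hh.le hω0.le he0.le hB hV hC30 key
  linarith only [hη, heQ, hωQ, hrhoQ, k7, hfin]

end

end Vale.Agent.P100.H20
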