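import Mathlib
import Vale.Agent.P100.Bdl.B3
import Vale.Agent.P100.H20.Defs

set_option linter.all false

/-!
Bounds near the origin for solutions with weights.
-/

open MeasureTheory Set Filter Topology Real

namespace Vale.Agent.P100.H20

open Vale.Agent.P100.RM Vale.Agent.P100.TS Vale.Agent.P100.RM.GrowL

noncomputable section

variable {n : ℕ}

lemma locallyIntegrable_weightW [NeZero n] (hn : 3 ≤ n) {A C : ℝ} (hA : -2 < A)
    {k w : (Fin n → ℝ) → ℝ} (hk : Measurable k) (hk0 : ∀ y, 0 ≤ k y)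
    (hkA : ∀ y, y ≠ 0 → k y ≤ C * TS.en y ^ A) (hw : Continuous w) :
    LocallyIntegrable (fun y : Fin n → ℝ => k y * w y) := by
  rw [locallyIntegrable_iff]
  intro K hK
  obtain ⟨R, hR⟩ := hK.isBounded.subset_closedBall (0 : Fin n → ℝ)
  apply IntegrableOn.mono_set _ hR
  obtain ⟨D, hD⟩ := (isCompact_closedBall (0 : Fin n → ℝ) R).exists_bound_of_continuousOn
    hw.continuousOn
  refine Integrable.mono' (((integrableOn_en_rpow hn hA R).mul_const D).const_mul |C|)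
    (hk.mul hw.measurable).aestronglyMeasurable ?_
  have hne : ∀ᵐ y : Fin n → ℝ, y ≠ 0 := by
    rw [ae_iff]; simp
  filter_upwards [ae_restrict_of_ae hne, ae_restrict_mem measurableSet_closedBall] with y hy0 hy
  rw [norm_mul, Real.norm_eq_abs, abs_of_nonneg (hk0 y)]
  have h1 : k y ≤ |C| * TS.en y ^ A := (hkA y hy0).trans
    (mul_le_mul_of_nonneg_right (le_abs_self _) (Real.rpow_nonneg (en_nonneg _) _))
  calc k y * ‖w y‖ ≤ (|C| * TS.en y ^ A) * D :=
        mul_le_mul h1 (hD y hy) (norm_nonneg _) (mul_nonneg (abs_nonneg _)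
          (Real.rpow_nonneg (en_nonneg _) _))
    _ = |C| * (TS.en y ^ A * D) := by ring

/-- Gradient bound near the origin, weights. -/
lemma grad_nearW (hn : 3 ≤ n) {p A C : ℝ} (hA : -2 < A) (hp : 0 < p) {K u v : E n → ℝ}
    (hKc : ContinuousOn K {0}ᶜ) (hK : ∀ x, x ≠ 0 → 0 ≤ K x ∧ K x ≤ C * ‖x‖ ^ A)
    (hu : Continuous u) (hv : Continuous v) (hu2 : ContDiffOn ℝ 2 u {0}ᶜ)
    (pu : ∀ x, 0 < u x) (pv : ∀ x, 0 < v x)
    (heq : ∀ x, x ≠ 0 → -(Laplacian.laplacian u x) = K x * v x ^ p) :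
    ∃ C : ℝ, 0 ≤ C ∧ ∀ x : E n, x ≠ 0 → ‖x‖ ≤ 1 → ‖fderiv ℝ u x‖ * ‖x‖ ≤ C := by
  have : NeZero n := ⟨by (clear * - hn; omega)⟩
  have hmaps : MapsTo (eE n) {0}ᶜ {0}ᶜ := fun x hx h => hx ((eE n).map_eq_zero_iff.1 h)
  have hKm : Measurable K := measurable_of_continuousOn_compl_singleton 0 hKc
  -- the source term
  have hvc : Continuous fun y : Fin n → ℝ => v (eE n y) ^ p :=
    (hv.comp (eE n).continuous).rpow_const fun x => Or.inl (pv _).ne'
  have hkm : Measurable fun y : Fin n → ℝ => |K (eE n y)| :=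
    (hKm.comp (eE n).continuous.measurable).abs
  have hkA : ∀ y : Fin n → ℝ, y ≠ 0 → |K (eE n y)| ≤ C * TS.en y ^ A := by
    intro y hy
    have hex : eE n y ≠ 0 := fun h => hy ((eE n).map_eq_zero_iff.1 h)
    have h1 := hK _ hex
    rw [abs_of_nonneg h1.1, ← norm_eE]
    exact h1.2
  have S : TS.Sup n (fun x => u (eE n x)) (fun y => |K (eE n y)| * v (eE n y) ^ p) :=
    { cont := hu.comp (eE n).continuous
      smooth := hu2.comp (eE n).contDiff.contDiffOn hmaps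
      eq := fun y hy => by
        have hex : eE n y ≠ 0 := fun h => hy ((eE n).map_eq_zero_iff.1 h)
        have h1 := heq _ hex
        rw [lap_eE hu2 hy, abs_of_nonneg (hK _ hex).1]
        linarith only [h1]
      loc := locallyIntegrable_weightW hn hA hkm (fun y => abs_nonneg _) hkA hvc
      meas := hkm.mul hvc.measurable
      f_nonneg := fun y => mul_nonneg (abs_nonneg _) (Real.rpow_nonneg (pv _).le _)
      u_nonneg := fun y => (pu _).le }
  obtain ⟨CA, hCA0, hCA⟩ := weight_near (n := n) hA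
  obtain ⟨Mv, hMv⟩ := (isCompact_closedBall (0 : Fin n → ℝ) 2).exists_bound_of_continuousOn
    (hv.comp (eE n).continuous).continuousOn
  obtain ⟨C, hC, hb⟩ := grad_near_zero hn S (Cf := |C| * CA * Mv ^ p) (by
    intro y hy hy0
    have h1 := hCA y hy0 hy
    have h2 : v (eE n y) ^ p ≤ Mv ^ p := by
      apply Real.rpow_le_rpow (pv _).le _ hp.le
      have := hMv y (by rwa [mem_closedBall_zero_iff])
      rw [Real.norm_eq_abs] at this
      exact (le_abs_self _).trans this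
    have h3 : |K (eE n y)| ≤ |C| * (CA * (‖y‖ ^ 2)⁻¹) := by
      calc |K (eE n y)| ≤ C * TS.en y ^ A := hkA y hy0
        _ ≤ |C| * TS.en y ^ A :=
          mul_le_mul_of_nonneg_right (le_abs_self _) (Real.rpow_nonneg (en_nonneg _) _)
        _ ≤ _ := mul_le_mul_of_nonneg_left h1 (abs_nonneg _)
    calc |K (eE n y)| * v (eE n y) ^ p ≤ (|C| * (CA * (‖y‖ ^ 2)⁻¹)) * Mv ^ p :=
          mul_le_mul h3 h2 (Real.rpow_nonneg (pv _).le _) (by (clear * - hCA0 hy0; positivity))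
      _ = _ := by ring)
  refine ⟨n * (C * n), by (clear * - hn hC; positivity), fun x hx hx1 => ?_⟩
  obtain ⟨y, hy⟩ : ∃ y, y = (eE n).symm x := ⟨_, rfl⟩
  have hxy : eE n y = x := by rw [hy]; exact (eE n).apply_symm_apply x
  have hx0 : 0 < ‖x‖ := norm_pos_iff.2 hx
  have hen : TS.en y = ‖x‖ := by rw [← norm_eE, hxy]
  have hy0 : y ≠ 0 := by
    rintro rfl
    exact hx (by rw [← hxy]; exact (eE n).map_zero)
  have hyn : 0 < ‖y‖ := norm_pos_iff.2 hy0
  have h1 : ‖y‖ ≤ 1 := (norm_le_en y).trans (hen.trans_le hx1)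
  have h2 : ‖x‖ ≤ n * ‖y‖ := hen ▸ en_le y
  have hj : ∀ j, |fderiv ℝ u x (EuclideanSpace.basisFun (Fin n) ℝ j)| * ‖x‖ ≤ C * n := by
    intro j
    have h3 := hb y hy0 h1 j
    rw [pd_eE, hxy] at h3
    calc |fderiv ℝ u x (EuclideanSpace.basisFun (Fin n) ℝ j)| * ‖x‖
        ≤ (C * ‖y‖⁻¹) * (n * ‖y‖) := mul_le_mul h3 h2 hx0.le (by positivity)
      _ = C * n := by field_simp
  have hop : ‖fderiv ℝ u x‖ ≤
      ∑ j, |fderiv ℝ u x (EuclideanSpace.basisFun (Fin n) ℝ j)| := by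
    apply ContinuousLinearMap.opNorm_le_bound _ (Finset.sum_nonneg fun j _ => abs_nonneg _)
    intro z
    have hz : z = ∑ j, z j • EuclideanSpace.basisFun (Fin n) ℝ j := by
      have := (EuclideanSpace.basisFun (Fin n) ℝ).sum_repr z
      simpa only [EuclideanSpace.basisFun_apply, EuclideanSpace.basisFun_repr] using this.symm
    have hzj : ∀ j, |z j| ≤ ‖z‖ := fun j => by
      have := PiLp.norm_apply_le z j
      simpa only [ge_iff_le, norm_eq_abs] using this
    calc ‖fderiv ℝ u x z‖ = ‖fderiv ℝ u x (∑ j, z j • EuclideanSpace.basisFun (Fin n) ℝ j)‖ := by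
          rw [← hz]
      _ = ‖∑ j, z j * fderiv ℝ u x (EuclideanSpace.basisFun (Fin n) ℝ j)‖ := by
          rw [map_sum]
          simp only [map_smul, smul_eq_mul]
      _ ≤ ∑ j, |z j * fderiv ℝ u x (EuclideanSpace.basisFun (Fin n) ℝ j)| :=
          norm_sum_le _ _
      _ ≤ ∑ j, |fderiv ℝ u x (EuclideanSpace.basisFun (Fin n) ℝ j)| * ‖z‖ := by
          refine Finset.sum_le_sum fun j _ => ?_
          rw [abs_mul, mul_comm]
          exact mul_le_mul_of_nonneg_left (hzj j) (abs_nonneg _)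
      _ = _ := by rw [Finset.sum_mul]
  calc ‖fderiv ℝ u x‖ * ‖x‖
      ≤ (∑ j, |fderiv ℝ u x (EuclideanSpace.basisFun (Fin n) ℝ j)|) * ‖x‖ :=
        mul_le_mul_of_nonneg_right hop hx0.le
    _ = ∑ j, |fderiv ℝ u x (EuclideanSpace.basisFun (Fin n) ℝ j)| * ‖x‖ := by
        rw [Finset.sum_mul]
    _ ≤ ∑ _j : Fin n, C * n := Finset.sum_le_sum fun j _ => hj j
    _ = n * (C * n) := by simp only [Finset.sum_const, Finset.card_univ, Fintype.card_fin, nsmul_eq_mul]

/-- Bounds near the origin from the gradient bound. -/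
lemma near_of_grad {u : E n → ℝ} (hu : Continuous u) {C : ℝ} (hC : 0 ≤ C)
    (hb : ∀ x : E n, x ≠ 0 → ‖x‖ ≤ 1 → ‖fderiv ℝ u x‖ * ‖x‖ ≤ C) :
    ∃ C : ℝ, 0 ≤ C ∧ ∀ x : E n, x ≠ 0 → ‖x‖ ≤ 1 → |u x| ≤ C ∧ |fderiv ℝ u x x| ≤ C := by
  obtain ⟨M, hM⟩ := (isCompact_closedBall (0 : E n) 1).exists_bound_of_continuousOn
    hu.continuousOn
  refine ⟨max C M, hC.trans (le_max_left _ _), fun x hx hx1 => ⟨?_, ?_⟩⟩
  · exact (hM x (by simpa only [Metric.mem_closedBall, dist_zero_right] using hx1)).trans (le_max_right _ _)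
  · have h1 := (fderiv ℝ u x).le_opNorm x
    exact (h1.trans (hb x hx hx1)).trans (le_max_left _ _)

end

end Vale.Agent.P100.H20
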