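import Mathlib
import Vale.Agent.P100.H20.Lim
import Vale.Agent.P100.H20.Line
import Vale.Agent.P100.H20.Near
import Vale.Agent.P100.H20.Grow
import Vale.Agent.P100.H20.Defs

set_option linter.all false

/-!
Weights with explicit constants, scaling, and the limit inequality for solutions with weights.
-/

open MeasureTheory Set Filter Topology Real

namespace Vale.Agent.P100.H20

open Vale.Agent.P100.RM

noncomputable section

variable {n : ℕ}

/-- Weights with explicit constants. -/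
structure Wt (n : ℕ) (A c C M : ℝ) (K : E n → ℝ) : Prop where
  c0 : 0 < c
  cont : ContinuousOn K {0}ᶜ
  lo : ∀ x, x ≠ 0 → c * ‖x‖ ^ A ≤ K x
  hi : ∀ x, x ≠ 0 → K x ≤ C * ‖x‖ ^ A
  g1 : ∀ x, x ≠ 0 → ∀ t : ℝ, 1 ≤ t → t ^ A * K x ≤ K (t • x)
  g2 : ∀ x, x ≠ 0 → ∀ t : ℝ, 1 ≤ t → K (t • x) ≤ t ^ M * K x

namespace Wt

variable {A c C M : ℝ} {K : E n → ℝ}

lemma pos (w : Wt n A c C M K) {x : E n} (hx : x ≠ 0) : 0 < K x :=
  lt_of_lt_of_le (mul_pos w.c0 (rpow_pos_of_pos (norm_pos_iff.2 hx) _)) (w.lo x hx)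

lemma mono (w : Wt n A c C M K) {c' C' M' : ℝ} (hc : 0 < c') (hcc : c' ≤ c) (hC : C ≤ C')
    (hM : M ≤ M') : Wt n A c' C' M' K where
  c0 := hc
  cont := w.cont
  lo x hx := (mul_le_mul_of_nonneg_right hcc (rpow_nonneg (norm_nonneg _) _)).trans (w.lo x hx)
  hi x hx := (w.hi x hx).trans (mul_le_mul_of_nonneg_right hC (rpow_nonneg (norm_nonneg _) _))
  g1 := w.g1
  g2 x hx t ht := (w.g2 x hx t ht).trans
    (mul_le_mul_of_nonneg_right (rpow_le_rpow_of_exponent_le ht hM) (w.pos hx).le)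

lemma sph_ne (θ : Sph n) : (θ : E n) ≠ 0 := by
  intro h
  have h1 : ‖(θ : E n)‖ = 1 := by simp
  rw [h, norm_zero] at h1
  exact zero_ne_one h1

lemma sph_lo (w : Wt n A c C M K) (θ : Sph n) : c ≤ K (θ : E n) := by
  have h1 := w.lo _ (sph_ne θ)
  have h2 : ‖(θ : E n)‖ = 1 := by simp
  rwa [h2, one_rpow, mul_one] at h1

lemma sph_hi (w : Wt n A c C M K) (θ : Sph n) : K (θ : E n) ≤ C := by
  have h1 := w.hi _ (sph_ne θ)
  have h2 : ‖(θ : E n)‖ = 1 := by simp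
  rwa [h2, one_rpow, mul_one] at h1

lemma sph_cont (w : Wt n A c C M K) : Continuous fun θ : Sph n => K (θ : E n) :=
  w.cont.comp_continuous continuous_subtype_val fun θ => sph_ne θ

/-- Radial growth along a ray. -/
lemma ray (w : Wt n A c C M K) (θ : Sph n) {s t : ℝ} (h : s ≤ t) :
    exp (A * (t - s)) * K (exp s • (θ : E n)) ≤ K (exp t • (θ : E n)) := by
  have h1 := w.g1 (exp s • (θ : E n)) (expsmul_ne_zero s θ) (exp (t - s))
    (one_le_exp (by linarith only [h]))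
  rw [smul_smul, ← exp_add, sub_add_cancel, ← exp_mul] at h1
  rwa [mul_comm A]

lemma ray' (w : Wt n A c C M K) (θ : Sph n) {s t : ℝ} (h : s ≤ t) :
    K (exp t • (θ : E n)) ≤ exp (M * (t - s)) * K (exp s • (θ : E n)) := by
  have h1 := w.g2 (exp s • (θ : E n)) (expsmul_ne_zero s θ) (exp (t - s))
    (one_le_exp (by linarith only [h]))
  rw [smul_smul, ← exp_add, sub_add_cancel, ← exp_mul] at h1
  rwa [mul_comm M]

/-- Lower bound in a window. -/
lemma low (w : Wt n A c C M K) (θ : Sph n) (s : ℝ) :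
    exp (-((|A| + |M|) * |s|)) * K (θ : E n) ≤ K (exp s • (θ : E n)) := by
  have hK := (w.pos (sph_ne θ)).le
  have hA := abs_nonneg A
  have hM := abs_nonneg M
  rcases le_total 0 s with h | h
  · have h1 := w.ray θ h
    rw [exp_zero, one_smul, sub_zero] at h1
    refine le_trans ?_ h1
    apply mul_le_mul_of_nonneg_right _ hK
    apply exp_le_exp.2
    rw [abs_of_nonneg h]
    have h2 := neg_abs_le A
    nlinarith only [h2, hM, h]
  · have h1 := w.ray' θ h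
    rw [exp_zero, one_smul, zero_sub] at h1
    have h2 := mul_le_mul_of_nonneg_left h1 (exp_pos (M * s)).le
    rw [← mul_assoc, ← exp_add] at h2
    have e : M * s + M * -s = 0 := by ring
    rw [e, exp_zero, one_mul] at h2
    refine le_trans ?_ h2
    apply mul_le_mul_of_nonneg_right _ hK
    apply exp_le_exp.2
    rw [abs_of_nonpos h]
    have h3 := le_abs_self M
    nlinarith only [h3, hA, h]

/-- Scaling of weights. -/
lemma scl (w : Wt n A c C M K) (t : ℝ) : Wt n A c C M (scl (-A) t K) := by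
  have hR : 0 < exp t := exp_pos t
  have hE : 0 < exp (-A * t) := exp_pos _
  have hsm : Continuous fun x : E n => exp t • x := continuous_const_smul _
  have hn : ∀ x : E n, ‖exp t • x‖ ^ A = exp (A * t) * ‖x‖ ^ A := by
    intro x
    rw [norm_smul, Real.norm_of_nonneg hR.le, mul_rpow hR.le (norm_nonneg x), ← exp_mul,
      mul_comm t A]
  have he : exp (-A * t) * exp (A * t) = 1 := by
    rw [← exp_add, exp_eq_one_iff]; ring
  refine ⟨w.c0, ?_, ?_, ?_, ?_, ?_⟩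
  · exact continuousOn_const.mul (w.cont.comp hsm.continuousOn fun x hx => smul_ne_zero hR.ne' hx)
  · intro x hx
    have h1 := mul_le_mul_of_nonneg_left (w.lo _ (smul_ne_zero hR.ne' hx)) hE.le
    rw [hn] at h1
    have e1 : exp (-A * t) * (c * (exp (A * t) * ‖x‖ ^ A)) = c * ‖x‖ ^ A := by
      calc _ = (exp (-A * t) * exp (A * t)) * (c * ‖x‖ ^ A) := by ring
        _ = _ := by rw [he, one_mul]
    rw [e1] at h1
    exact h1
  · intro x hx
    have h1 := mul_le_mul_of_nonneg_left (w.hi _ (smul_ne_zero hR.ne' hx)) hE.le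
    rw [hn] at h1
    have e1 : exp (-A * t) * (C * (exp (A * t) * ‖x‖ ^ A)) = C * ‖x‖ ^ A := by
      calc _ = (exp (-A * t) * exp (A * t)) * (C * ‖x‖ ^ A) := by ring
        _ = _ := by rw [he, one_mul]
    rw [e1] at h1
    exact h1
  · intro x hx s hs
    have h1 := mul_le_mul_of_nonneg_left (w.g1 _ (smul_ne_zero hR.ne' hx) s hs) hE.le
    rw [smul_comm s (exp t) x] at h1
    show s ^ A * (exp (-A * t) * K (exp t • x)) ≤ exp (-A * t) * K (exp t • (s • x))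
    linarith only [h1]
  · intro x hx s hs
    have h1 := mul_le_mul_of_nonneg_left (w.g2 _ (smul_ne_zero hR.ne' hx) s hs) hE.le
    rw [smul_comm s (exp t) x] at h1
    show exp (-A * t) * K (exp t • (s • x)) ≤ s ^ M * (exp (-A * t) * K (exp t • x))
    linarith only [h1]

end Wt

/-- A solution together with its weights. -/
structure SW (n : ℕ) (p q A B c C M : ℝ) (K L u v : E n → ℝ) : Prop where
  wK : Wt n A c C M K
  wL : Wt n B c C M L
  sol : IsPositiveEntireSolutionW n p q K L u v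

lemma SW.swap {p q A B c C M : ℝ} {K L u v : E n → ℝ} (h : SW n p q A B c C M K L u v) :
    SW n q p B A c C M L K v u :=
  ⟨h.wL, h.wK, ⟨h.sol.contDiffOn_v, h.sol.contDiffOn_u, h.sol.continuous_v, h.sol.continuous_u,
    h.sol.pos_v, h.sol.pos_u, h.sol.eq_v, h.sol.eq_u⟩⟩

/-- Scaling of solutions. -/
lemma SW.scl {p q A B c C M α β : ℝ} {K L u v : E n → ℝ} (hs : SW n p q A B c C M K L u v)
    (h1 : α + 2 + A = β * p) (h2 : β + 2 + B = α * q) (t : ℝ) :
    SW n p q A B c C M (scl (-A) t K) (scl (-B) t L) (scl α t u) (scl β t v) := by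
  have hR : 0 < exp t := exp_pos t
  have hsm : ContDiff ℝ 2 fun x : E n => exp t • x := contDiff_const_smul _
  have hmaps : MapsTo (fun x : E n => exp t • x) {0}ᶜ {0}ᶜ := fun x hx =>
    smul_ne_zero hR.ne' hx
  have key : ∀ (w z k : E n → ℝ) (P A' a b : ℝ), (∀ x, 0 < z x) →
      (∀ x, x ≠ 0 → -(Laplacian.laplacian w x) = k x * z x ^ P) → a + 2 + A' = b * P →
      ∀ x, x ≠ 0 →
      -(Laplacian.laplacian (fun x => exp (a * t) * w (exp t • x)) x) =
        (exp (-A' * t) * k (exp t • x)) * (exp (b * t) * z (exp t • x)) ^ P := by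
    intro w z k P A' a b hz he hab x hx
    rw [laplacian_scale, ← mul_neg, he _ (smul_ne_zero hR.ne' hx),
      Real.mul_rpow (exp_pos _).le (hz _).le, ← Real.exp_mul]
    have e1 : exp (-A' * t) * exp (b * t * P) = exp (a * t) * exp t ^ 2 := by
      rw [← Real.exp_nat_mul, ← Real.exp_add, ← Real.exp_add]
      congr 1
      have : b * t * P = b * P * t := by ring
      rw [this, ← hab]
      push_cast
      ring
    calc exp (a * t) * exp t ^ 2 * (k (exp t • x) * z (exp t • x) ^ P)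
        = (exp (-A' * t) * exp (b * t * P)) * (k (exp t • x) * z (exp t • x) ^ P) := by rw [e1]
      _ = _ := by ring
  exact ⟨hs.wK.scl t, hs.wL.scl t,
    ⟨contDiffOn_const.mul (hs.sol.contDiffOn_u.comp hsm.contDiffOn hmaps),
    contDiffOn_const.mul (hs.sol.contDiffOn_v.comp hsm.contDiffOn hmaps),
    continuous_const.mul (hs.sol.continuous_u.comp (continuous_const_smul _)),
    continuous_const.mul (hs.sol.continuous_v.comp (continuous_const_smul _)),
    fun x => mul_pos (exp_pos _) (hs.sol.pos_u _), fun x => mul_pos (exp_pos _) (hs.sol.pos_v _),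
    key u v K p A α β hs.sol.pos_v hs.sol.eq_u h1,
    key v u L q B β α hs.sol.pos_u hs.sol.eq_v h2⟩⟩

/-- The equation on the cylinder. -/
lemma cy_eqW {p : ℝ} {K u v : E n → ℝ} (hu : ContDiffOn ℝ 2 u {0}ᶜ) (pv : ∀ x, 0 < v x)
    (he : ∀ x, x ≠ 0 → -(Laplacian.laplacian u x) = K x * v x ^ p)
    (g h s : ℝ) (θ : Sph n) :
    cy2 g u s θ + ((n : ℝ) - 2 - 2 * g) * cy1 g u s θ + cyS g u s θ
      - g * ((n : ℝ) - 2 - g) * cy0 g u s θ +
        (exp ((g + 2 - p * h) * s) * K (exp s • (θ : E n))) * (cy0 h v s θ) ^ p = 0 := by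
  rw [cy_lap hu]
  have h1 := he (exp s • (θ : E n)) (expsmul_ne_zero s θ)
  have h2 : Laplacian.laplacian u (exp s • (θ : E n)) =
      -(K (exp s • (θ : E n)) * v (exp s • (θ : E n)) ^ p) := by linarith only [h1]
  rw [h2]
  unfold cy0
  rw [mul_rpow (exp_pos _).le (pv _).le, ← exp_mul]
  have e : exp ((g + 2) * s) = exp ((g + 2 - p * h) * s) * exp (h * s * p) := by
    rw [← exp_add]; ring_nf
  rw [e]
  ring

/-- The inequality with the weight frozen. -/
theorem cy_subW {p A c C M T : ℝ} {K u v : E n → ℝ} (w : Wt n A c C M K)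
    (hu : ContDiffOn ℝ 2 u {0}ᶜ) (pv : ∀ x, 0 < v x)
    (he : ∀ x, x ≠ 0 → -(Laplacian.laplacian u x) = K x * v x ^ p)
    (s : ℝ) (hsT : |s| ≤ T) (θ : Sph n) :
    cy2 (((n : ℝ) - 2) / 2) u s θ + cyS (((n : ℝ) - 2) / 2) u s θ
      - ((((n : ℝ) - 2) / 2) ^ 2) * cy0 (((n : ℝ) - 2) / 2) u s θ
      + (exp (-((|((n : ℝ) - 2) / 2 + 2 - p * (((n : ℝ) - 2) / 2)| + (|A| + |M|)) * T)) *
        K (θ : E n)) * (cy0 (((n : ℝ) - 2) / 2) v s θ) ^ p ≤ 0 := by
  have h := cy_eqW hu pv he (((n : ℝ) - 2) / 2) (((n : ℝ) - 2) / 2) s θ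
  set k : ℝ := ((n : ℝ) - 2) / 2 + 2 - p * (((n : ℝ) - 2) / 2) with hk
  have hAM : 0 ≤ |A| + |M| := add_nonneg (abs_nonneg _) (abs_nonneg _)
  have h1 : exp (-((|k| + (|A| + |M|)) * T)) ≤ exp (k * s) * exp (-((|A| + |M|) * |s|)) := by
    rw [← exp_add]
    apply exp_le_exp.2
    have h2 : |k * s| ≤ |k| * T := by
      rw [abs_mul]; exact mul_le_mul_of_nonneg_left hsT (abs_nonneg _)
    have h3 := (abs_le.1 h2).1
    have h4 := mul_le_mul_of_nonneg_left hsT hAM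
    linarith only [h3, h4]
  have hK := (w.pos (Wt.sph_ne θ)).le
  have h2 : exp (-((|k| + (|A| + |M|)) * T)) * K (θ : E n) ≤
      exp (k * s) * K (exp s • (θ : E n)) := by
    calc exp (-((|k| + (|A| + |M|)) * T)) * K (θ : E n)
        ≤ (exp (k * s) * exp (-((|A| + |M|) * |s|))) * K (θ : E n) :=
          mul_le_mul_of_nonneg_right h1 hK
      _ = exp (k * s) * (exp (-((|A| + |M|) * |s|)) * K (θ : E n)) := by ring
      _ ≤ _ := mul_le_mul_of_nonneg_left (w.low θ s) (exp_pos _).le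
  have h3 : 0 ≤ (cy0 (((n : ℝ) - 2) / 2) v s θ) ^ p :=
    (rpow_pos_of_pos (cy0_pos pv _ _ _) _).le
  have h4 := mul_le_mul_of_nonneg_right h2 h3
  have h5 : (n : ℝ) - 2 - 2 * (((n : ℝ) - 2) / 2) = 0 := by ring
  have h6 : ((n : ℝ) - 2) / 2 * ((n : ℝ) - 2 - ((n : ℝ) - 2) / 2) = (((n : ℝ) - 2) / 2) ^ 2 := by
    ring
  rw [h5, h6, zero_mul, add_zero] at h
  linarith only [h, h4]

/-- The Hamiltonian on the unit sphere with weights (drift parameter `d`). -/
def HamW (n : ℕ) (p q d : ℝ) (K L u v : E n → ℝ) : ℝ :=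
  ∫ θ, (cy1 (((n : ℝ) - 2) / 2 + d) u 0 θ * cy1 (((n : ℝ) - 2) / 2 - d) v 0 θ +
    cyS (((n : ℝ) - 2) / 2 + d) u 0 θ * cy0 (((n : ℝ) - 2) / 2 - d) v 0 θ
    - ((((n : ℝ) - 2) / 2) ^ 2 - d ^ 2) *
      (cy0 (((n : ℝ) - 2) / 2 + d) u 0 θ * cy0 (((n : ℝ) - 2) / 2 - d) v 0 θ)
    + K (θ : E n) * (v (θ : E n)) ^ (p + 1) / (p + 1)
    + L (θ : E n) * (u (θ : E n)) ^ (q + 1) / (q + 1)) ∂(sg n)

theorem lim_ineqW (hn : 3 ≤ n) {p q A B c C M : ℝ} (hp : 0 < p) (hq : 0 < q) (hpq : 1 ≤ p * q) :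
    ∃ C0 T0 : ℝ, 0 < C0 ∧ 0 < T0 ∧
    ∀ K L u v : E n → ℝ, SW n p q A B c C M K L u v → ∀ T : ℝ, 0 < T → T ≤ T0 →
    ∀ G : Sph n → ℝ, (∀ θ, 0 ≤ G θ) → Integrable (fun θ => G θ * v (θ : E n)) (sg n) →
      (∀ᵐ θ ∂(sg n), ∀ s, |s| ≤ T → cy0 (((n : ℝ) - 2) / 2) u s θ ≤ cy0 (((n : ℝ) - 2) / 2) u 0 θ →
        |cy1 (((n : ℝ) - 2) / 2) u s θ| ≤ G θ) →
      HamW n p q 0 K L u v ≤ C0 / T * ∫ θ, G θ * v (θ : E n) ∂(sg n) +
        C0 / T ^ 2 * ∫ θ : Sph n, u (θ : E n) * v (θ : E n) ∂(sg n) + C0 * T * En n p q u v := by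
  set c' : ℝ := ((n : ℝ) - 2) / 2 with hc
  set k1 : ℝ := |c' + 2 - p * c'| + (|A| + |M|) with hk1
  set k2 : ℝ := |c' + 2 - q * c'| + (|B| + |M|) with hk2
  have hk1' : 0 ≤ k1 := by rw [hk1]; positivity
  have hk2' : 0 ≤ k2 := by rw [hk2]; positivity
  have hCa : 0 ≤ |C| := abs_nonneg C
  have hp1 : 0 < p + 1 := by linarith only [hp]
  have hq1 : 0 < q + 1 := by linarith only [hq]
  refine ⟨4 + (k1 + k2) * |C|, 1, by (clear * - hk1' hk2' hCa; positivity), one_pos, ?_⟩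
  intro K L u v hs T hT hT1 G hG0 hGv hG
  have hsig : 1 / (p + 1) + 1 / (q + 1) ≤ 1 := by
    rw [div_add_div _ _ hp1.ne' hq1.ne', div_le_one (by positivity)]
    nlinarith only [hpq]
  have hu := hs.sol.contDiffOn_u
  have hv := hs.sol.contDiffOn_v
  have pu := hs.sol.pos_u
  have pv := hs.sol.pos_v
  -- `G` is integrable
  have cu : Continuous fun θ : Sph n => u (θ : E n) := hs.sol.continuous_u.comp continuous_subtype_val
  have cv : Continuous fun θ : Sph n => v (θ : E n) := hs.sol.continuous_v.comp continuous_subtype_val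
  have cK := hs.wK.sph_cont
  have cL := hs.wL.sph_cont
  have hGi : Integrable G (sg n) := by
    have cinv : Continuous fun θ : Sph n => (v (θ : E n))⁻¹ := cv.inv₀ fun θ => (pv _).ne'
    obtain ⟨M, hM⟩ := (isCompact_univ (X := Sph n)).bddAbove_image cinv.abs.continuousOn
    have h1 := hGv.bdd_mul (c := M) cinv.aestronglyMeasurable
      (Eventually.of_forall fun θ => by
        rw [Real.norm_eq_abs]; exact hM ⟨θ, mem_univ _, rfl⟩)
    refine h1.congr (Eventually.of_forall fun θ => ?_)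
    have := (pv (θ : E n)).ne'
    field_simp
  have hle1 : ∀ {k x : ℝ}, 0 ≤ k → 0 ≤ x → x ≤ C → exp (-(k * T)) * x ≤ |C| := by
    intro k x hk hx hxC
    have h1 : exp (-(k * T)) ≤ 1 := exp_le_one_iff.2 (by
      have := mul_nonneg hk hT.le
      linarith only [this])
    calc exp (-(k * T)) * x ≤ 1 * x := mul_le_mul_of_nonneg_right h1 hx
      _ = x := one_mul x
      _ ≤ |C| := hxC.trans (le_abs_self _)
  have key := lim_absW (σ := sg n) (lam := c' ^ 2) (abar := |C|)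
    (a := ⟨fun θ => exp (-(k1 * T)) * K (θ : E n), continuous_const.mul cK⟩)
    (b := ⟨fun θ => exp (-(k2 * T)) * L (θ : E n), continuous_const.mul cL⟩)
    (p := p) (q := q) (T := T) hT (by (clear * -; positivity))
    (fun θ => mul_nonneg (exp_pos _).le (hs.wK.pos (Wt.sph_ne θ)).le)
    (fun θ => mul_nonneg (exp_pos _).le (hs.wL.pos (Wt.sph_ne θ)).le)
    (fun θ => hle1 hk1' (hs.wK.pos (Wt.sph_ne θ)).le (hs.wK.sph_hi θ))
    (fun θ => hle1 hk2' (hs.wL.pos (Wt.sph_ne θ)).le (hs.wL.sph_hi θ)) hCa hp hq hsig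
    (R := rotS n) (fun ε k => continuous_rotS ε k) (fun c ε F G hF hG => Lsym c ε hF hG)
    (X := cy0 c' u) (X1 := cy1 c' u) (X2 := cy2 c' u) (SX := cyS c' u)
    (Y := cy0 c' v) (Y1 := cy1 c' v) (Y2 := cy2 c' v) (SY := cyS c' v)
    (continuous_cy0 hu c') (continuous_cy1 hu c') (continuous_cy2 hu c') (continuous_cyS hu c')
    (continuous_cy0 hv c') (continuous_cy1 hv c') (continuous_cy2 hv c') (continuous_cyS hv c')
    (fun s θ => hasDerivAt_cy0 hu c' s θ) (fun s θ => hasDerivAt_cy1 hu c' s θ)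
    (fun s θ => hasDerivAt_cy0 hv c' s θ) (fun s θ => hasDerivAt_cy1 hv c' s θ)
    (fun s θ => cy0_pos pu c' s θ) (fun s θ => cy0_pos pv c' s θ)
    (Lop_unif hu c' T) (Lop_unif hv c' T)
    (fun s θ hsT => cy_subW hs.wK hu pv hs.sol.eq_u s hsT θ)
    (fun s θ hsT => cy_subW hs.wL hv pu hs.sol.eq_v s hsT θ)
    hG0 hGi hG
  simp only [cy0_zero, ContinuousMap.coe_mk] at key
  -- the Hamiltonian
  have i1 : Integrable (fun θ : Sph n => cy1 c' u 0 θ * cy1 c' v 0 θ) (sg n) :=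
    int_cont _ (((continuous_cy1 hu c').comp (Continuous.prodMk_right _)).mul
      ((continuous_cy1 hv c').comp (Continuous.prodMk_right _)))
  have i2 : Integrable (fun θ : Sph n => cyS c' u 0 θ * v (θ : E n)) (sg n) :=
    int_cont _ (((continuous_cyS hu c').comp (Continuous.prodMk_right _)).mul cv)
  have i3 : Integrable (fun θ : Sph n => u (θ : E n) * v (θ : E n)) (sg n) :=
    int_cont _ (cu.mul cv)
  have i4 : Integrable (fun θ : Sph n => v (θ : E n) ^ (p + 1)) (sg n) :=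
    int_cont _ (cv.rpow_const fun _ => Or.inr hp1.le)
  have i5 : Integrable (fun θ : Sph n => u (θ : E n) ^ (q + 1)) (sg n) :=
    int_cont _ (cu.rpow_const fun _ => Or.inr hq1.le)
  have i6 : Integrable (fun θ : Sph n => K (θ : E n) * v (θ : E n) ^ (p + 1)) (sg n) :=
    int_cont _ (cK.mul (cv.rpow_const fun _ => Or.inr hp1.le))
  have i7 : Integrable (fun θ : Sph n => L (θ : E n) * u (θ : E n) ^ (q + 1)) (sg n) :=
    int_cont _ (cL.mul (cu.rpow_const fun _ => Or.inr hq1.le))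
  have hHam : HamW n p q 0 K L u v = ∫ θ, cy1 c' u 0 θ * cy1 c' v 0 θ ∂(sg n)
      + ∫ θ : Sph n, cyS c' u 0 θ * v (θ : E n) ∂(sg n)
      - c' ^ 2 * ∫ θ : Sph n, u (θ : E n) * v (θ : E n) ∂(sg n)
      + 1 / (p + 1) * ∫ θ : Sph n, K (θ : E n) * v (θ : E n) ^ (p + 1) ∂(sg n)
      + 1 / (q + 1) * ∫ θ : Sph n, L (θ : E n) * u (θ : E n) ^ (q + 1) ∂(sg n) := by
    rw [← int5 (c' ^ 2) (1 / (p + 1)) (1 / (q + 1)) i1 i2 i3 i6 i7]
    unfold HamW
    refine integral_congr_ae (Eventually.of_forall fun θ => ?_)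
    simp only [add_zero, sub_zero, cy0_zero, ← hc]
    ring
  have hEn : En n p q u v = ∫ θ : Sph n, v (θ : E n) ^ (p + 1) ∂(sg n)
      + ∫ θ : Sph n, u (θ : E n) ^ (q + 1) ∂(sg n) := by
    rw [En, integral_add i4 i5]
  have j4 : 0 ≤ ∫ θ : Sph n, v (θ : E n) ^ (p + 1) ∂(sg n) :=
    integral_nonneg fun θ => (rpow_pos_of_pos (pv _) _).le
  have j5 : 0 ≤ ∫ θ : Sph n, u (θ : E n) ^ (q + 1) ∂(sg n) :=
    integral_nonneg fun θ => (rpow_pos_of_pos (pu _) _).le
  have j6 : 0 ≤ ∫ θ : Sph n, K (θ : E n) * v (θ : E n) ^ (p + 1) ∂(sg n) :=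
    integral_nonneg fun θ => mul_nonneg (hs.wK.pos (Wt.sph_ne θ)).le (rpow_pos_of_pos (pv _) _).le
  have j7 : 0 ≤ ∫ θ : Sph n, L (θ : E n) * u (θ : E n) ^ (q + 1) ∂(sg n) :=
    integral_nonneg fun θ => mul_nonneg (hs.wL.pos (Wt.sph_ne θ)).le (rpow_pos_of_pos (pu _) _).le
  have l6 : ∫ θ : Sph n, K (θ : E n) * v (θ : E n) ^ (p + 1) ∂(sg n) ≤
      |C| * ∫ θ : Sph n, v (θ : E n) ^ (p + 1) ∂(sg n) := by
    rw [← integral_const_mul]
    exact integral_mono i6 (i4.const_mul _) fun θ => mul_le_mul_of_nonneg_right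
      ((hs.wK.sph_hi θ).trans (le_abs_self _)) (rpow_pos_of_pos (pv _) _).le
  have l7 : ∫ θ : Sph n, L (θ : E n) * u (θ : E n) ^ (q + 1) ∂(sg n) ≤
      |C| * ∫ θ : Sph n, u (θ : E n) ^ (q + 1) ∂(sg n) := by
    rw [← integral_const_mul]
    exact integral_mono i7 (i5.const_mul _) fun θ => mul_le_mul_of_nonneg_right
      ((hs.wL.sph_hi θ).trans (le_abs_self _)) (rpow_pos_of_pos (pu _) _).le
  have j3 : 0 ≤ ∫ θ : Sph n, u (θ : E n) * v (θ : E n) ∂(sg n) :=
    integral_nonneg fun θ => mul_nonneg (pu _).le (pv _).le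
  have j0 : 0 ≤ ∫ θ : Sph n, G θ * v (θ : E n) ∂(sg n) :=
    integral_nonneg fun θ => mul_nonneg (hG0 θ) (pv _).le
  have hcomm : ∫ θ : Sph n, v (θ : E n) * u (θ : E n) ∂(sg n) =
      ∫ θ : Sph n, u (θ : E n) * v (θ : E n) ∂(sg n) := by
    simp_rw [mul_comm]
  have hpull1 : ∫ θ : Sph n, exp (-(k1 * T)) * K (θ : E n) * v (θ : E n) ^ (p + 1) ∂(sg n) =
      exp (-(k1 * T)) * ∫ θ : Sph n, K (θ : E n) * v (θ : E n) ^ (p + 1) ∂(sg n) := by
    rw [← integral_const_mul]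
    exact integral_congr_ae (Eventually.of_forall fun θ => by ring)
  have hpull2 : ∫ θ : Sph n, exp (-(k2 * T)) * L (θ : E n) * u (θ : E n) ^ (q + 1) ∂(sg n) =
      exp (-(k2 * T)) * ∫ θ : Sph n, L (θ : E n) * u (θ : E n) ^ (q + 1) ∂(sg n) := by
    rw [← integral_const_mul]
    exact integral_congr_ae (Eventually.of_forall fun θ => by ring)
  rw [hcomm, hpull1, hpull2] at key
  rw [hHam, hEn]
  generalize ∫ θ, cy1 c' u 0 θ * cy1 c' v 0 θ ∂(sg n) = I1 at key ⊢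
  generalize ∫ θ : Sph n, cyS c' u 0 θ * v (θ : E n) ∂(sg n) = I2 at key ⊢
  generalize ∫ θ : Sph n, u (θ : E n) * v (θ : E n) ∂(sg n) = I3 at key j3 ⊢
  generalize ∫ θ : Sph n, K (θ : E n) * v (θ : E n) ^ (p + 1) ∂(sg n) = I6 at key j6 l6 ⊢
  generalize ∫ θ : Sph n, L (θ : E n) * u (θ : E n) ^ (q + 1) ∂(sg n) = I7 at key j7 l7 ⊢
  generalize ∫ θ : Sph n, v (θ : E n) ^ (p + 1) ∂(sg n) = I4 at j4 l6 ⊢
  generalize ∫ θ : Sph n, u (θ : E n) ^ (q + 1) ∂(sg n) = I5 at j5 l7 ⊢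
  generalize ∫ θ : Sph n, G θ * v (θ : E n) ∂(sg n) = I0 at key j0 ⊢
  have ex : ∀ k : ℝ, 1 - exp (-(k * T)) ≤ k * T := fun k => by
    have := add_one_le_exp (-(k * T)); linarith only [this]
  have fr : ∀ {r k I : ℝ}, 0 < r → 0 ≤ k → 0 ≤ I → 1 / (r + 1) * I ≤
      1 / (r + 1) * (exp (-(k * T)) * I) + k * T * I := by
    intro r k I hr hk hI
    have h1 : (1 - exp (-(k * T))) / (r + 1) ≤ k * T := by
      rw [div_le_iff₀ (by linarith only [hr])]
      have h2 := ex k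
      have h3 : 0 ≤ k * T := mul_nonneg hk hT.le
      nlinarith only [h2, hr, h3]
    have h4 := mul_le_mul_of_nonneg_right h1 hI
    have h5 : (1 - exp (-(k * T))) / (r + 1) * I =
      1 / (r + 1) * I - 1 / (r + 1) * (exp (-(k * T)) * I) := by ring
    linarith only [h4, h5]
  have f4 := fr (k := k1) hp hk1' j6
  have f5 := fr (k := k2) hq hk2' j7
  have key2 : I1 + I2 - c' ^ 2 * I3 + 1 / (p + 1) * (exp (-(k1 * T)) * I6)
      + 1 / (q + 1) * (exp (-(k2 * T)) * I7) ≤ 4 / T * I0 + 2 / T ^ 2 * I3 := by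
    have h2T : 0 < T / 2 := by positivity
    have h1 : T / 2 * (4 / T * I0 + 2 / T ^ 2 * I3) = 2 * I0 + 1 / T * I3 := by
      field_simp
      ring
    rw [← h1] at key
    exact le_of_mul_le_mul_left key h2T
  have hkk : 0 ≤ (k1 + k2) * |C| := mul_nonneg (add_nonneg hk1' hk2') hCa
  have g0 : 4 / T * I0 ≤ (4 + (k1 + k2) * |C|) / T * I0 := by gcongr; linarith only [hkk]
  have g3 : 2 / T ^ 2 * I3 ≤ (4 + (k1 + k2) * |C|) / T ^ 2 * I3 := by
    gcongr; linarith only [hkk]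
  have g4 : k1 * T * I6 + k2 * T * I7 ≤ (4 + (k1 + k2) * |C|) * T * (I4 + I5) := by
    have a1 : k1 * T * I6 ≤ k1 * T * (|C| * I4) :=
      mul_le_mul_of_nonneg_left l6 (mul_nonneg hk1' hT.le)
    have a2 : k2 * T * I7 ≤ k2 * T * (|C| * I5) :=
      mul_le_mul_of_nonneg_left l7 (mul_nonneg hk2' hT.le)
    have b1 : 0 ≤ k1 * T * (|C| * I5) := by positivity
    have b2 : 0 ≤ k2 * T * (|C| * I4) := by positivity
    have b3 : 0 ≤ 4 * T * (I4 + I5) := by positivity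
    linarith only [a1, a2, b1, b2, b3]
  linarith only [f4, f5, key2, g0, g3, g4]

end

end Vale.Agent.P100.H20
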