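import Mathlib
import Vale.Agent.P100.H20.Core1

set_option linter.all false

/-!
The growth inequality for the rescaled Hamiltonian with weights.
-/

open MeasureTheory Set Filter Topology Real Function

namespace Vale.Agent.P100.H20

open Vale.Agent.P100.RM

noncomputable section

variable {n : ℕ}

lemma mW_aux {A c C M k : ℝ} {K : E n → ℝ} (w : Wt n A c C M K) (θ : Sph n) {s t : ℝ}
    (h : s ≤ t) : exp ((k + A) * (t - s)) * (exp (k * s) * K (exp s • (θ : E n))) ≤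
      exp (k * t) * K (exp t • (θ : E n)) := by
  have h1 := mul_le_mul_of_nonneg_left (w.ray θ h) (exp_pos (k * t)).le
  refine le_trans (le_of_eq ?_) h1
  rw [← mul_assoc, ← mul_assoc, ← exp_add, ← exp_add]
  congr 2
  ring

lemma cW_aux {A c C M : ℝ} (k : ℝ) {K : E n → ℝ} (w : Wt n A c C M K) :
    Continuous (uncurry fun (t : ℝ) (θ : Sph n) => exp (k * t) * K (exp t • (θ : E n))) :=
  (by fun_prop : Continuous (fun x : ℝ × Sph n => exp (k * x.1))).mul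
    (continuous_comp_expsmul w.cont)

/-- The cylinder data of a solution, exponents `c + d` and `c - d`, `c = (n-2)/2`. -/
def datW {p q A B c C M : ℝ} {K L u v : E n → ℝ} (hs : SW n p q A B c C M K L u v) (d : ℝ) :
    DatW (Sph n) p q d ((((n : ℝ) - 2) / 2) ^ 2 - d ^ 2)
      ((((n : ℝ) - 2) / 2 + d) + 2 - p * (((n : ℝ) - 2) / 2 - d) + A)
      ((((n : ℝ) - 2) / 2 - d) + 2 - q * (((n : ℝ) - 2) / 2 + d) + B) where
  X := cy0 (((n : ℝ) - 2) / 2 + d) u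
  X1 := cy1 (((n : ℝ) - 2) / 2 + d) u
  X2 := cy2 (((n : ℝ) - 2) / 2 + d) u
  SX := cyS (((n : ℝ) - 2) / 2 + d) u
  Y := cy0 (((n : ℝ) - 2) / 2 - d) v
  Y1 := cy1 (((n : ℝ) - 2) / 2 - d) v
  Y2 := cy2 (((n : ℝ) - 2) / 2 - d) v
  SY := cyS (((n : ℝ) - 2) / 2 - d) v
  W1 t θ := exp (((((n : ℝ) - 2) / 2 + d) + 2 - p * (((n : ℝ) - 2) / 2 - d)) * t) *
    K (exp t • (θ : E n))
  W2 t θ := exp (((((n : ℝ) - 2) / 2 - d) + 2 - q * (((n : ℝ) - 2) / 2 + d)) * t) *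
    L (exp t • (θ : E n))
  hX t θ := hasDerivAt_cy0 hs.sol.contDiffOn_u _ t θ
  hX1 t θ := hasDerivAt_cy1 hs.sol.contDiffOn_u _ t θ
  hY t θ := hasDerivAt_cy0 hs.sol.contDiffOn_v _ t θ
  hY1 t θ := hasDerivAt_cy1 hs.sol.contDiffOn_v _ t θ
  cX := continuous_cy0 hs.sol.contDiffOn_u _
  cX1 := continuous_cy1 hs.sol.contDiffOn_u _
  cX2 := continuous_cy2 hs.sol.contDiffOn_u _
  cSX := continuous_cyS hs.sol.contDiffOn_u _
  cY := continuous_cy0 hs.sol.contDiffOn_v _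
  cY1 := continuous_cy1 hs.sol.contDiffOn_v _
  cY2 := continuous_cy2 hs.sol.contDiffOn_v _
  cSY := continuous_cyS hs.sol.contDiffOn_v _
  cW1 := cW_aux _ hs.wK
  cW2 := cW_aux _ hs.wL
  mW1 θ s t h := mW_aux hs.wK θ h
  mW2 θ s t h := mW_aux hs.wL θ h
  pX t θ := mul_pos (exp_pos _) (hs.sol.pos_u _)
  pY t θ := mul_pos (exp_pos _) (hs.sol.pos_v _)
  eX t θ := by
    have := cy_eqW hs.sol.contDiffOn_u hs.sol.pos_v hs.sol.eq_u (((n : ℝ) - 2) / 2 + d)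
      (((n : ℝ) - 2) / 2 - d) t θ
    linear_combination this
  eY t θ := by
    have := cy_eqW hs.sol.contDiffOn_v hs.sol.pos_u hs.sol.eq_v (((n : ℝ) - 2) / 2 - d)
      (((n : ℝ) - 2) / 2 + d) t θ
    linear_combination this

/-- The weight identity for the potential terms. -/
lemma pot_eqW {p A α β δ c d t y k : ℝ} (hy : 0 < y) (h1 : α + 2 + A = β * p)
    (hδ : δ = α + β - 2 * c) :
    exp (-δ * t) * ((exp (-A * t) * k) * (exp (β * t) * y) ^ (p + 1)) =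
      (exp ((c + d + 2 - p * (c - d)) * t) * k) * (exp ((c - d) * t) * y) ^ (p + 1) := by
  have h := pot_eq (d := d) (t := t) hy h1 hδ
  have e : exp ((c + d + 2 - p * (c - d)) * t) =
      exp (-A * t) * exp ((c + d + 2 + A - p * (c - d)) * t) := by
    rw [← exp_add]; congr 1; ring
  rw [e]
  linear_combination (exp (-A * t) * k) * h

/-- The rescaled Hamiltonian is the Hamiltonian of the cylinder data. -/
lemma ham_eqW {p q A B c C M α β d : ℝ} (h1 : α + 2 + A = β * p) (h2 : β + 2 + B = α * q)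
    {K L u v : E n → ℝ} (hs : SW n p q A B c C M K L u v) (t : ℝ) :
    exp (-(α + β - ((n : ℝ) - 2)) * t) *
      HamW n p q d (scl (-A) t K) (scl (-B) t L) (scl α t u) (scl β t v) =
      (datW hs d).H (sg n) t := by
  unfold HamW DatW.H
  rw [← integral_const_mul]
  congr 1
  ext θ
  obtain ⟨a0, a1, a2, aS⟩ := cy_scl hs.sol.contDiffOn_u α (((n : ℝ) - 2) / 2 + d) t 0 θ
  obtain ⟨b0, b1, b2, bS⟩ := cy_scl hs.sol.contDiffOn_v β (((n : ℝ) - 2) / 2 - d) t 0 θ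
  rw [a0, a1, aS, b0, b1]
  rw [zero_add]
  have hc : exp (-(α + β - ((n : ℝ) - 2)) * t) * (exp ((α - (((n : ℝ) - 2) / 2 + d)) * t) *
      exp ((β - (((n : ℝ) - 2) / 2 - d)) * t)) = 1 := by
    rw [← exp_add, ← exp_add, exp_eq_one_iff]
    ring
  have p1 := pot_eqW (p := p) (A := A) (d := d) (t := t) (k := K (exp t • (θ : E n)))
    (hs.sol.pos_v (exp t • (θ : E n))) h1
    (δ := α + β - ((n : ℝ) - 2)) (c := ((n : ℝ) - 2) / 2) (by ring)
  have p2 := pot_eqW (p := q) (A := B) (d := -d) (t := t) (k := L (exp t • (θ : E n)))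
    (hs.sol.pos_u (exp t • (θ : E n))) h2
    (δ := α + β - ((n : ℝ) - 2)) (c := ((n : ℝ) - 2) / 2) (by ring)
  have p2' : exp (-(α + β - ((n : ℝ) - 2)) * t) *
      ((exp (-B * t) * L (exp t • (θ : E n))) *
        (exp (α * t) * u (exp t • (θ : E n))) ^ (q + 1)) =
      (exp (((((n : ℝ) - 2) / 2 - d) + 2 - q * (((n : ℝ) - 2) / 2 + d)) * t) *
        L (exp t • (θ : E n))) *
        (exp ((((n : ℝ) - 2) / 2 + d) * t) * u (exp t • (θ : E n))) ^ (q + 1) := by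
    rw [p2, sub_neg_eq_add, ← sub_eq_add_neg]
  have dP : (datW hs d).P t θ = (exp (((((n : ℝ) - 2) / 2 + d) + 2 -
      p * (((n : ℝ) - 2) / 2 - d)) * t) * K (exp t • (θ : E n))) *
      (exp ((((n : ℝ) - 2) / 2 - d) * t) * v (exp t • (θ : E n))) ^ (p + 1) / (p + 1) := rfl
  have dQ : (datW hs d).Q t θ = (exp (((((n : ℝ) - 2) / 2 - d) + 2 -
      q * (((n : ℝ) - 2) / 2 + d)) * t) * L (exp t • (θ : E n))) *
      (exp ((((n : ℝ) - 2) / 2 + d) * t) * u (exp t • (θ : E n))) ^ (q + 1) / (q + 1) := rfl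
  have dd : (datW hs d).dens t θ = cy1 (((n : ℝ) - 2) / 2 + d) u t θ *
      cy1 (((n : ℝ) - 2) / 2 - d) v t θ + cyS (((n : ℝ) - 2) / 2 + d) u t θ *
      cy0 (((n : ℝ) - 2) / 2 - d) v t θ - ((((n : ℝ) - 2) / 2) ^ 2 - d ^ 2) *
      (cy0 (((n : ℝ) - 2) / 2 + d) u t θ * cy0 (((n : ℝ) - 2) / 2 - d) v t θ) +
      (datW hs d).P t θ + (datW hs d).Q t θ := rfl
  rw [dd, dP, dQ, ← p1, ← p2', scl_one_exp, scl_one_exp, scl_one_exp, scl_one_exp]
  set e0 := exp (-(α + β - ((n : ℝ) - 2)) * t)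
  set e1 := exp ((α - (((n : ℝ) - 2) / 2 + d)) * t)
  set e2 := exp ((β - (((n : ℝ) - 2) / 2 - d)) * t)
  linear_combination (cy1 (((n : ℝ) - 2) / 2 + d) u t θ * cy1 (((n : ℝ) - 2) / 2 - d) v t θ +
    cyS (((n : ℝ) - 2) / 2 + d) u t θ * cy0 (((n : ℝ) - 2) / 2 - d) v t θ -
    ((((n : ℝ) - 2) / 2) ^ 2 - d ^ 2) *
    (cy0 (((n : ℝ) - 2) / 2 + d) u t θ * cy0 (((n : ℝ) - 2) / 2 - d) v t θ)) * hc

/-- The growth inequality for the cylinder data. -/
lemma dat_growthW {p q A B c C M d : ℝ} (hp : 0 < p) (hq : 0 < q) {K L u v : E n → ℝ}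
    (hs : SW n p q A B c C M K L u v) {a b : ℝ} (hab : a ≤ b) :
    ∫ s in a..b, (∫ θ, (datW hs d).G s θ ∂(sg n)) ≤
      (datW hs d).H (sg n) b - (datW hs d).H (sg n) a := by
  have hunif : ∀ {w : E n → ℝ}, ContDiffOn ℝ 2 w {0}ᶜ → ∀ g : ℝ, ∀ L : ℝ, ∀ e > 0,
      ∀ᶠ k in atTop, ∀ s, |s| ≤ L → ∀ θ,
      |Lop ((eps k ^ 2)⁻¹) (rotS n (eps k)) (cy0 g w s) θ - cyS g w s θ| ≤ e := by
    intro w hw g L e he
    obtain ⟨ε0, h0, h1⟩ := Lop_unif hw g L e he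
    filter_upwards [eps_tendsto.eventually_lt_const h0] with k hk
    exact h1 (eps k) (eps_pos k) hk
  exact (datW hs d).growthW hp hq (fun k => (eps k ^ 2)⁻¹) (fun k => rotS n (eps k))
    (fun k i => continuous_rotS _ _) (fun k F G hF hG => Lsym _ _ hF hG)
    (fun L e he => hunif hs.sol.contDiffOn_u _ L e he)
    (fun L e he => hunif hs.sol.contDiffOn_v _ L e he) hab

theorem growW {p q A B c C M α β d : ℝ} (hp : 0 < p) (hq : 0 < q)
    (h1 : α + 2 + A = β * p) (h2 : β + 2 + B = α * q)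
    {K L u v : E n → ℝ} (hs : SW n p q A B c C M K L u v) {t1 t2 : ℝ} (ht : t1 ≤ t2) :
    ∫ s in t1..t2, exp (-(α + β - ((n : ℝ) - 2)) * s) *
        ∫ θ : Sph n, ((p * (β - ((n : ℝ) - 2) / 2 + d) - (α - ((n : ℝ) - 2) / 2 - d)) / (p + 1) *
            (scl (-A) s K (θ : E n) * (scl β s v (θ : E n)) ^ (p + 1))
          + (q * (α - ((n : ℝ) - 2) / 2 - d) - (β - ((n : ℝ) - 2) / 2 + d)) / (q + 1) *
            (scl (-B) s L (θ : E n) * (scl α s u (θ : E n)) ^ (q + 1))) ∂(sg n) ≤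
    exp (-(α + β - ((n : ℝ) - 2)) * t2) *
      HamW n p q d (scl (-A) t2 K) (scl (-B) t2 L) (scl α t2 u) (scl β t2 v)
      - exp (-(α + β - ((n : ℝ) - 2)) * t1) *
      HamW n p q d (scl (-A) t1 K) (scl (-B) t1 L) (scl α t1 u) (scl β t1 v) := by
  rw [ham_eqW h1 h2 hs, ham_eqW h1 h2 hs]
  refine le_trans (le_of_eq ?_) (dat_growthW hp hq hs ht)
  congr 1
  ext s
  rw [← integral_const_mul]
  congr 1
  ext θ
  have p1 := pot_eqW (p := p) (A := A) (d := d) (t := s) (k := K (exp s • (θ : E n)))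
    (hs.sol.pos_v (exp s • (θ : E n))) h1
    (δ := α + β - ((n : ℝ) - 2)) (c := ((n : ℝ) - 2) / 2) (by ring)
  have p2 := pot_eqW (p := q) (A := B) (d := -d) (t := s) (k := L (exp s • (θ : E n)))
    (hs.sol.pos_u (exp s • (θ : E n))) h2
    (δ := α + β - ((n : ℝ) - 2)) (c := ((n : ℝ) - 2) / 2) (by ring)
  have p2' : exp (-(α + β - ((n : ℝ) - 2)) * s) *
      ((exp (-B * s) * L (exp s • (θ : E n))) *
        (exp (α * s) * u (exp s • (θ : E n))) ^ (q + 1)) =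
      (exp (((((n : ℝ) - 2) / 2 - d) + 2 - q * (((n : ℝ) - 2) / 2 + d)) * s) *
        L (exp s • (θ : E n))) *
        (exp ((((n : ℝ) - 2) / 2 + d) * s) * u (exp s • (θ : E n))) ^ (q + 1) := by
    rw [p2, sub_neg_eq_add, ← sub_eq_add_neg]
  have dG : (datW hs d).G s θ =
      ((((n : ℝ) - 2) / 2 + d) + 2 - p * (((n : ℝ) - 2) / 2 - d) + A) *
      ((exp (((((n : ℝ) - 2) / 2 + d) + 2 - p * (((n : ℝ) - 2) / 2 - d)) * s) *
        K (exp s • (θ : E n))) *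
      (exp ((((n : ℝ) - 2) / 2 - d) * s) * v (exp s • (θ : E n))) ^ (p + 1) / (p + 1)) +
      ((((n : ℝ) - 2) / 2 - d) + 2 - q * (((n : ℝ) - 2) / 2 + d) + B) *
      ((exp (((((n : ℝ) - 2) / 2 - d) + 2 - q * (((n : ℝ) - 2) / 2 + d)) * s) *
        L (exp s • (θ : E n))) *
      (exp ((((n : ℝ) - 2) / 2 + d) * s) * u (exp s • (θ : E n))) ^ (q + 1) / (q + 1)) := rfl
  rw [dG, ← p1, ← p2', scl_one_exp, scl_one_exp, scl_one_exp, scl_one_exp]
  have w1 : (((n : ℝ) - 2) / 2 + d) + 2 - p * (((n : ℝ) - 2) / 2 - d) + A =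
      p * (β - ((n : ℝ) - 2) / 2 + d) - (α - ((n : ℝ) - 2) / 2 - d) := by
    linear_combination h1
  have w2 : (((n : ℝ) - 2) / 2 - d) + 2 - q * (((n : ℝ) - 2) / 2 + d) + B =
      q * (α - ((n : ℝ) - 2) / 2 - d) - (β - ((n : ℝ) - 2) / 2 + d) := by
    linear_combination h2
  rw [w1, w2]
  ring

end

end Vale.Agent.P100.H20
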