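import Mathlib
import Vale.Agent.P100.H20.Core2

set_option linter.all false

/-!
The Hamiltonian with weights tends to `0` at `-∞`.
-/

open MeasureTheory Set Filter Topology Real Function

namespace Vale.Agent.P100.H20

open Vale.Agent.P100.RM Vale.Agent.P100.RM.GrowL

noncomputable section

variable {n : ℕ}

theorem grow_limW (hn : 3 ≤ n) {p q A B c C M α β d : ℝ} (hp : 0 < p) (hq : 0 < q) (hA : -2 < A)
    (hB : -2 < B) (h1 : α + 2 + A = β * p) (h2 : β + 2 + B = α * q)
    (hd : |d| < ((n : ℝ) - 2) / 2)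
    (hω1 : 0 < p * (β - ((n : ℝ) - 2) / 2 + d) - (α - ((n : ℝ) - 2) / 2 - d))
    (hω2 : 0 < q * (α - ((n : ℝ) - 2) / 2 - d) - (β - ((n : ℝ) - 2) / 2 + d))
    {K L u v : E n → ℝ} (hs : SW n p q A B c C M K L u v) :
    Tendsto (fun t => exp (-(α + β - ((n : ℝ) - 2)) * t) *
      HamW n p q d (scl (-A) t K) (scl (-B) t L) (scl α t u) (scl β t v)) atBot (𝓝 0) := by
  obtain ⟨g, hg⟩ : ∃ g, g = ((n : ℝ) - 2) / 2 + d := ⟨_, rfl⟩
  obtain ⟨h, hh⟩ : ∃ h, h = ((n : ℝ) - 2) / 2 - d := ⟨_, rfl⟩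
  have hg0 : 0 < g := by rw [hg]; linarith only [hd, neg_abs_le d]
  have hh0 : 0 < h := by rw [hh]; linarith only [hd, le_abs_self d]
  obtain ⟨Gu, hGu, hgu⟩ := grad_nearW hn hA hp hs.wK.cont
    (fun x hx => ⟨(hs.wK.pos hx).le, hs.wK.hi x hx⟩) hs.sol.continuous_u hs.sol.continuous_v
    hs.sol.contDiffOn_u hs.sol.pos_u hs.sol.pos_v hs.sol.eq_u
  obtain ⟨Gv, hGv, hgv⟩ := grad_nearW hn hB hq hs.wL.cont
    (fun x hx => ⟨(hs.wL.pos hx).le, hs.wL.hi x hx⟩) hs.sol.continuous_v hs.sol.continuous_u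
    hs.sol.contDiffOn_v hs.sol.pos_v hs.sol.pos_u hs.sol.eq_v
  obtain ⟨Cu, hCu, hbu⟩ := near_of_grad hs.sol.continuous_u hGu hgu
  obtain ⟨Cv, hCv, hbv⟩ := near_of_grad hs.sol.continuous_v hGv hgv
  obtain ⟨S, hSe⟩ : ∃ S, S = (sg n).real univ := ⟨_, rfl⟩
  have hS : 0 ≤ S := hSe ▸ measureReal_nonneg
  obtain ⟨l, hl⟩ : ∃ l, l = |(((n : ℝ) - 2) / 2) ^ 2 - d ^ 2| := ⟨_, rfl⟩
  have hl0 : 0 ≤ l := hl ▸ abs_nonneg _
  obtain ⟨Ca, hCa⟩ : ∃ Ca, Ca = |C| := ⟨_, rfl⟩
  have hCa0 : 0 ≤ Ca := hCa ▸ abs_nonneg _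
  obtain ⟨e1, he1⟩ : ∃ e1, e1 = -(α + β - ((n : ℝ) - 2)) + β * (p + 1) := ⟨_, rfl⟩
  obtain ⟨e2, he2⟩ : ∃ e2, e2 = -(α + β - ((n : ℝ) - 2)) + α * (q + 1) := ⟨_, rfl⟩
  have he1p : 0 < e1 := by
    have : e1 = (p * (β - ((n : ℝ) - 2) / 2 + d) - (α - ((n : ℝ) - 2) / 2 - d)) + h * (p + 1) := by
      rw [he1, hh]; ring
    rw [this]; (clear * - hω1 hh0 hp; positivity)
  have he2p : 0 < e2 := by
    have : e2 = (q * (α - ((n : ℝ) - 2) / 2 - d) - (β - ((n : ℝ) - 2) / 2 + d)) + g * (q + 1) := by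
      rw [he2, hg]; ring
    rw [this]; (clear * - hω2 hg0 hq; positivity)
  obtain ⟨K1, hK1⟩ : ∃ K1, K1 = (n : ℝ) ^ 2 * (Gu * Gv) * S +
    (((g + 1) * Cu) * ((h + 1) * Cv) + l * (Cu * Cv)) * S := ⟨_, rfl⟩
  obtain ⟨K2, hK2⟩ : ∃ K2, K2 = Ca * Cv ^ (p + 1) / (p + 1) * S := ⟨_, rfl⟩
  obtain ⟨K3, hK3⟩ : ∃ K3, K3 = Ca * Cu ^ (q + 1) / (q + 1) * S := ⟨_, rfl⟩
  have key : ∀ t ≤ (0 : ℝ), |exp (-(α + β - ((n : ℝ) - 2)) * t) *
      HamW n p q d (scl (-A) t K) (scl (-B) t L) (scl α t u) (scl β t v)| ≤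
      K1 * exp ((g + h) * t) + K2 * exp (e1 * t) + K3 * exp (e2 * t) := by
    intro t ht
    have hct : Continuous fun θ : Sph n => ((t, θ) : ℝ × Sph n) := by fun_prop
    have hu := hs.sol.contDiffOn_u
    have hv := hs.sol.contDiffOn_v
    have wK' := hs.wK.scl t
    have wL' := hs.wL.scl t
    have c0u : Continuous fun θ => cy0 g u t θ := (continuous_cy0 hu g).comp hct
    have c0v : Continuous fun θ => cy0 h v t θ := (continuous_cy0 hv h).comp hct
    have c1u : Continuous fun θ => cy1 g u t θ := (continuous_cy1 hu g).comp hct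
    have c1v : Continuous fun θ => cy1 h v t θ := (continuous_cy1 hv h).comp hct
    have cSu : Continuous fun θ => cyS g u t θ := (continuous_cyS hu g).comp hct
    have hcs : Continuous fun θ : Sph n => exp t • (θ : E n) := by fun_prop
    have hsv : Continuous fun θ : Sph n =>
        scl (-A) t K (θ : E n) * (scl β t v (θ : E n)) ^ (p + 1) / (p + 1) := by
      apply Continuous.div_const
      apply wK'.sph_cont.mul
      apply Continuous.rpow_const
      · unfold scl
        exact continuous_const.mul (hs.sol.continuous_v.comp hcs)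
      · exact fun θ => Or.inr (by linarith only [hp])
    have hsu : Continuous fun θ : Sph n =>
        scl (-B) t L (θ : E n) * (scl α t u (θ : E n)) ^ (q + 1) / (q + 1) := by
      apply Continuous.div_const
      apply wL'.sph_cont.mul
      apply Continuous.rpow_const
      · unfold scl
        exact continuous_const.mul (hs.sol.continuous_u.comp hcs)
      · exact fun θ => Or.inr (by linarith only [hq])
    have hex : exp ((α - g) * t) * exp ((β - h) * t) =
        exp ((α + β - ((n : ℝ) - 2)) * t) := by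
      rw [← exp_add]
      congr 1
      rw [hg, hh]
      ring
    have hexx : exp (-(α + β - ((n : ℝ) - 2)) * t) * exp ((α + β - ((n : ℝ) - 2)) * t) = 1 := by
      rw [← exp_add, neg_mul, neg_add_cancel, exp_zero]
    have hHam : HamW n p q d (scl (-A) t K) (scl (-B) t L) (scl α t u) (scl β t v) =
        exp ((α + β - ((n : ℝ) - 2)) * t) * (∫ θ, cyS g u t θ * cy0 h v t θ ∂(sg n)) +
        (exp ((α + β - ((n : ℝ) - 2)) * t) *
          (∫ θ, (cy1 g u t θ * cy1 h v t θ -
            ((((n : ℝ) - 2) / 2) ^ 2 - d ^ 2) * (cy0 g u t θ * cy0 h v t θ)) ∂(sg n)) +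
        ∫ θ : Sph n, (scl (-A) t K (θ : E n) * (scl β t v (θ : E n)) ^ (p + 1) / (p + 1) +
          scl (-B) t L (θ : E n) * (scl α t u (θ : E n)) ^ (q + 1) / (q + 1)) ∂(sg n)) := by
      rw [← integral_const_mul, ← integral_const_mul, ← integral_add, ← integral_add]
      · unfold HamW
        congr 1
        ext θ
        obtain ⟨a0, a1, -, aS⟩ := cy_scl (α := α) hu g t 0 θ
        obtain ⟨b0, b1, -, -⟩ := cy_scl (α := β) hv h t 0 θ
        rw [zero_add] at a0 a1 aS b0 b1
        rw [← hg, ← hh, a0, a1, aS, b0, b1, ← hex]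
        ring
      · exact GrowL.integrable_cont (continuous_const.mul (cSu.mul c0v))
      · exact GrowL.integrable_cont ((continuous_const.mul ((c1u.mul c1v).sub
          (continuous_const.mul (c0u.mul c0v)))).add (hsv.add hsu))
      · exact GrowL.integrable_cont (continuous_const.mul ((c1u.mul c1v).sub
          (continuous_const.mul (c0u.mul c0v))))
      · exact GrowL.integrable_cont (hsv.add hsu)
    have hI2 : |∫ θ, cyS g u t θ * cy0 h v t θ ∂(sg n)| ≤
        (n : ℝ) ^ 2 * exp ((g + h) * t) * (Gu * Gv) * S := by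
      rw [hSe]
      have het : exp t ≤ 1 := Real.exp_le_one_iff.2 ht
      apply form_bound hu hv g h t (M0 := exp (h * t) * Cv)
      · intro x hx
        have hx0 : x ≠ 0 := by
          rintro rfl
          rw [norm_zero] at hx
          exact (exp_pos t).ne hx
        rw [← hx]
        exact hgu x hx0 (by rw [hx]; exact het)
      · intro x hx
        have hx0 : x ≠ 0 := by
          rintro rfl
          rw [norm_zero] at hx
          exact (exp_pos t).ne hx
        rw [← hx]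
        exact hgv x hx0 (by rw [hx]; exact het)
      · exact fun θ => (bd_cy hh0.le hbv ht θ).1
    have hI1 : |∫ θ, (cy1 g u t θ * cy1 h v t θ -
        ((((n : ℝ) - 2) / 2) ^ 2 - d ^ 2) * (cy0 g u t θ * cy0 h v t θ)) ∂(sg n)| ≤
        (exp ((g + h) * t) * (((g + 1) * Cu) * ((h + 1) * Cv) + l * (Cu * Cv))) * S := by
      rw [hSe, ← Real.norm_eq_abs]
      apply norm_integral_le_of_norm_le_const
      refine Filter.Eventually.of_forall fun θ => ?_
      obtain ⟨x0, x1⟩ := bd_cy (t := t) hg0.le hbu ht θ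
      obtain ⟨y0, y1⟩ := bd_cy (t := t) hh0.le hbv ht θ
      rw [Real.norm_eq_abs]
      refine (abs_sub _ _).trans ?_
      rw [abs_mul, abs_mul, abs_mul, ← hl, add_mul g h t, exp_add]
      have hc1 := mul_le_mul x1 y1 (abs_nonneg _) (by (clear * - hg0 hCu; positivity))
      have hc0 := mul_le_mul_of_nonneg_left (mul_le_mul x0 y0 (abs_nonneg _) (by (clear * - hCu; positivity))) hl0
      calc |cy1 g u t θ| * |cy1 h v t θ| + l * (|cy0 g u t θ| * |cy0 h v t θ|)
          ≤ (exp (g * t) * ((g + 1) * Cu)) * (exp (h * t) * ((h + 1) * Cv)) +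
            l * ((exp (g * t) * Cu) * (exp (h * t) * Cv)) := add_le_add hc1 hc0
        _ = _ := by ring
    have hI4 : |∫ θ : Sph n, (scl (-A) t K (θ : E n) * (scl β t v (θ : E n)) ^ (p + 1) / (p + 1) +
          scl (-B) t L (θ : E n) * (scl α t u (θ : E n)) ^ (q + 1) / (q + 1)) ∂(sg n)| ≤
        (exp (β * (p + 1) * t) * (Ca * Cv ^ (p + 1) / (p + 1)) +
          exp (α * (q + 1) * t) * (Ca * Cu ^ (q + 1) / (q + 1))) * S := by
      rw [hSe, ← Real.norm_eq_abs]
      apply norm_integral_le_of_norm_le_const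
      refine Filter.Eventually.of_forall fun θ => ?_
      have hx := expsmul_ne_zero t θ
      have hx1 : ‖exp t • (θ : E n)‖ ≤ 1 := by
        rw [norm_expsmul]
        exact Real.exp_le_one_iff.2 ht
      have hvb := (abs_le.1 (hbv _ hx hx1).1).2
      have hub := (abs_le.1 (hbu _ hx hx1).1).2
      have hv0 := (hs.sol.pos_v (exp t • (θ : E n))).le
      have hu0 := (hs.sol.pos_u (exp t • (θ : E n))).le
      have hpp : 0 < p + 1 := by linarith only [hp]
      have hqq : 0 < q + 1 := by linarith only [hq]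
      have hk0 := (wK'.pos (Wt.sph_ne θ)).le
      have hk1 : scl (-A) t K (θ : E n) ≤ Ca := by
        rw [hCa]; exact (wK'.sph_hi θ).trans (le_abs_self _)
      have hl0' := (wL'.pos (Wt.sph_ne θ)).le
      have hl1 : scl (-B) t L (θ : E n) ≤ Ca := by
        rw [hCa]; exact (wL'.sph_hi θ).trans (le_abs_self _)
      have hr1 : (scl β t v (θ : E n)) ^ (p + 1) ≤ exp (β * (p + 1) * t) * Cv ^ (p + 1) := by
        unfold scl
        rw [Real.mul_rpow (exp_pos _).le hv0, ← Real.exp_mul]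
        have : β * t * (p + 1) = β * (p + 1) * t := by ring
        rw [this]
        exact mul_le_mul_of_nonneg_left (Real.rpow_le_rpow hv0 hvb hpp.le) (exp_pos _).le
      have hr2 : (scl α t u (θ : E n)) ^ (q + 1) ≤ exp (α * (q + 1) * t) * Cu ^ (q + 1) := by
        unfold scl
        rw [Real.mul_rpow (exp_pos _).le hu0, ← Real.exp_mul]
        have : α * t * (q + 1) = α * (q + 1) * t := by ring
        rw [this]
        exact mul_le_mul_of_nonneg_left (Real.rpow_le_rpow hu0 hub hqq.le) (exp_pos _).le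
      have hn1 : 0 ≤ (scl β t v (θ : E n)) ^ (p + 1) := by
        apply Real.rpow_nonneg
        unfold scl
        exact mul_nonneg (exp_pos _).le hv0
      have hn2 : 0 ≤ (scl α t u (θ : E n)) ^ (q + 1) := by
        apply Real.rpow_nonneg
        unfold scl
        exact mul_nonneg (exp_pos _).le hu0
      have hs1 : scl (-A) t K (θ : E n) * (scl β t v (θ : E n)) ^ (p + 1) ≤
          Ca * (exp (β * (p + 1) * t) * Cv ^ (p + 1)) := mul_le_mul hk1 hr1 hn1 hCa0
      have hs2 : scl (-B) t L (θ : E n) * (scl α t u (θ : E n)) ^ (q + 1) ≤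
          Ca * (exp (α * (q + 1) * t) * Cu ^ (q + 1)) := mul_le_mul hl1 hr2 hn2 hCa0
      have hs1' := mul_nonneg hk0 hn1
      have hs2' := mul_nonneg hl0' hn2
      rw [Real.norm_eq_abs, abs_of_nonneg (add_nonneg (div_nonneg hs1' hpp.le)
        (div_nonneg hs2' hqq.le))]
      have f1 := div_le_div_of_nonneg_right hs1 hpp.le
      have f2 := div_le_div_of_nonneg_right hs2 hqq.le
      have g1 : Ca * (exp (β * (p + 1) * t) * Cv ^ (p + 1)) / (p + 1) =
        exp (β * (p + 1) * t) * (Ca * Cv ^ (p + 1) / (p + 1)) := by ring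
      have g2 : Ca * (exp (α * (q + 1) * t) * Cu ^ (q + 1)) / (q + 1) =
        exp (α * (q + 1) * t) * (Ca * Cu ^ (q + 1) / (q + 1)) := by ring
      rw [g1] at f1
      rw [g2] at f2
      exact add_le_add f1 f2
    rw [hHam, mul_add, mul_add, ← mul_assoc, ← mul_assoc, hexx, one_mul, one_mul]
    refine (abs_add_le _ _).trans ?_
    have hb2 : |(∫ θ, (cy1 g u t θ * cy1 h v t θ -
            ((((n : ℝ) - 2) / 2) ^ 2 - d ^ 2) * (cy0 g u t θ * cy0 h v t θ)) ∂(sg n)) +
        exp (-(α + β - ((n : ℝ) - 2)) * t) *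
        ∫ θ : Sph n, (scl (-A) t K (θ : E n) * (scl β t v (θ : E n)) ^ (p + 1) / (p + 1) +
          scl (-B) t L (θ : E n) * (scl α t u (θ : E n)) ^ (q + 1) / (q + 1)) ∂(sg n)| ≤
        (exp ((g + h) * t) * (((g + 1) * Cu) * ((h + 1) * Cv) + l * (Cu * Cv))) * S +
        exp (-(α + β - ((n : ℝ) - 2)) * t) *
          ((exp (β * (p + 1) * t) * (Ca * Cv ^ (p + 1) / (p + 1)) +
          exp (α * (q + 1) * t) * (Ca * Cu ^ (q + 1) / (q + 1))) * S) := by
      refine (abs_add_le _ _).trans (add_le_add hI1 ?_)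
      rw [abs_mul, abs_of_pos (exp_pos _)]
      exact mul_le_mul_of_nonneg_left hI4 (exp_pos _).le
    refine (add_le_add hI2 hb2).trans (le_of_eq ?_)
    have hx1 : exp (e1 * t) = exp (-(α + β - ((n : ℝ) - 2)) * t) * exp (β * (p + 1) * t) := by
      rw [← exp_add, he1]
      congr 1
      ring
    have hx2 : exp (e2 * t) = exp (-(α + β - ((n : ℝ) - 2)) * t) * exp (α * (q + 1) * t) := by
      rw [← exp_add, he2]
      congr 1
      ring
    rw [hK1, hK2, hK3, hx1, hx2]
    ring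
  have hlim : ∀ e : ℝ, 0 < e → Tendsto (fun t => exp (e * t)) atBot (𝓝 0) := by
    intro e he
    exact Real.tendsto_exp_atBot.comp (Tendsto.const_mul_atBot he tendsto_id)
  have hT : Tendsto (fun t => K1 * exp ((g + h) * t) + K2 * exp (e1 * t) + K3 * exp (e2 * t))
      atBot (𝓝 0) := by
    have := (((hlim (g + h) (by (clear * - hg0 hh0; positivity))).const_mul K1).add
      ((hlim e1 he1p).const_mul K2)).add ((hlim e2 he2p).const_mul K3)
    simpa only [mul_zero, add_zero] using this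
  apply squeeze_zero_norm' _ hT
  filter_upwards [eventually_le_atBot (0 : ℝ)] with t ht
  rw [Real.norm_eq_abs]
  exact key t ht

end

end Vale.Agent.P100.H20
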