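import Mathlib
import Vale.Agent.P100.H20.Core3

set_option linter.all false

/-!
The growth package for the Hamiltonian with weights.
-/

open MeasureTheory Set Filter Topology Real Function

namespace Vale.Agent.P100.H20

open Vale.Agent.P100.RM

noncomputable section

variable {n : ℕ}

/-- Abstract growth from an inequality. -/
lemma grow_absW {Hc J e : ℝ → ℝ} {δ c0 : ℝ} (hδ : 0 < δ) (hc0 : 0 < c0) (he : ∀ t, 0 < e t)
    (hec : Continuous e) (hJc : Continuous J) (hJ : ∀ t, c0 * e t ≤ J t)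
    (hg : ∀ t1 t2, t1 ≤ t2 → ∫ s in t1..t2, exp (-δ * s) * J s ≤
      exp (-δ * t2) * Hc t2 - exp (-δ * t1) * Hc t1)
    (hl : Tendsto (fun t => exp (-δ * t) * Hc t) atBot (𝓝 0)) :
    (∀ t1 t2, t1 ≤ t2 → Hc t1 + c0 * (∫ s in t1..t2, e s) ≤ Hc t2) ∧
      Tendsto Hc atTop atTop := by
  have hJ0 : ∀ t, 0 < J t := fun t => lt_of_lt_of_le (mul_pos hc0 (he t)) (hJ t)
  have hFc : Continuous fun s => exp (-δ * s) * J s := by fun_prop
  have hF0 : ∀ s, 0 < exp (-δ * s) * J s := fun s => mul_pos (exp_pos _) (hJ0 s)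
  have hmono : ∀ t1 t2, t1 ≤ t2 → exp (-δ * t1) * Hc t1 ≤ exp (-δ * t2) * Hc t2 := by
    intro t1 t2 h12
    have h3 : 0 ≤ ∫ s in t1..t2, exp (-δ * s) * J s :=
      intervalIntegral.integral_nonneg h12 fun s _ => (hF0 s).le
    linarith only [h3, hg t1 t2 h12]
  have hnn : ∀ t, 0 ≤ exp (-δ * t) * Hc t := by
    intro t
    refine le_of_tendsto hl ?_
    filter_upwards [Filter.eventually_le_atBot t] with s hs
    exact hmono s t hs
  have hH0 : ∀ t, 0 ≤ Hc t := by
    intro t
    have := hnn t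
    by_contra hc
    push Not at hc
    have := mul_neg_of_pos_of_neg (exp_pos (-δ * t)) hc
    (clear hδ hec hJc hFc; linarith)
  have hstrict : 0 < exp (-δ * 0) * Hc 0 := by
    have h1 : 0 < ∫ s in (-1 : ℝ)..0, exp (-δ * s) * J s := by
      apply intervalIntegral.intervalIntegral_pos_of_pos (hFc.intervalIntegrable _ _) hF0
      norm_num
    have h2 := hg (-1) 0 (by norm_num)
    have h3 := hnn (-1)
    linarith
  constructor
  · intro t1 t2 h12
    have h1 := hg t1 t2 h12
    have h2 : exp (δ * (t2 - t1)) * Hc t1 +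
        exp (δ * t2) * ∫ s in t1..t2, exp (-δ * s) * J s ≤ Hc t2 := by
      have h3 : exp (-δ * t1) * Hc t1 +
          ∫ s in t1..t2, exp (-δ * s) * J s ≤ exp (-δ * t2) * Hc t2 := by linarith only [h1]
      have h4 : Hc t2 = exp (δ * t2) * (exp (-δ * t2) * Hc t2) := by
        rw [← mul_assoc, ← Real.exp_add]
        have : δ * t2 + -δ * t2 = 0 := by ring
        rw [this, Real.exp_zero, one_mul]
      rw [h4]
      refine le_trans (le_of_eq ?_) (mul_le_mul_of_nonneg_left h3 (exp_pos (δ * t2)).le)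
      rw [mul_add, ← mul_assoc, ← Real.exp_add]
      congr 2
      congr 1
      ring
    have h5 : Hc t1 ≤ exp (δ * (t2 - t1)) * Hc t1 := by
      have : 1 ≤ exp (δ * (t2 - t1)) := Real.one_le_exp (mul_nonneg hδ.le (by linarith))
      nlinarith only [this, hH0 t1]
    have h6 : c0 * (∫ s in t1..t2, e s) ≤ exp (δ * t2) * ∫ s in t1..t2, exp (-δ * s) * J s := by
      rw [← intervalIntegral.integral_const_mul, ← intervalIntegral.integral_const_mul]
      apply intervalIntegral.integral_mono_on h12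
      · exact (hec.const_mul c0).intervalIntegrable _ _
      · exact (hFc.const_mul _).intervalIntegrable _ _
      · intro s hs
        rw [← mul_assoc, ← Real.exp_add]
        have h7 : 1 ≤ exp (δ * t2 + -δ * s) := by
          apply Real.one_le_exp
          nlinarith only [hδ, hs.2]
        nlinarith only [h7, hJ s, hJ0 s]
    linarith only [h2, h5, h6]
  · have h1 : ∀ t, 0 ≤ t → exp (δ * t) * Hc 0 ≤ Hc t := by
      intro t ht
      have h2 := hmono 0 t ht
      have h4 : Hc t = exp (δ * t) * (exp (-δ * t) * Hc t) := by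
        rw [← mul_assoc, ← Real.exp_add]
        have : δ * t + -δ * t = 0 := by ring
        rw [this, Real.exp_zero, one_mul]
      rw [h4]
      apply mul_le_mul_of_nonneg_left _ (exp_pos _).le
      simpa only [neg_mul, mul_zero, exp_zero, one_mul] using h2
    have hH00 : 0 < Hc 0 := by simpa using hstrict
    apply tendsto_atTop_mono' atTop (f₁ := fun t => exp (δ * t) * Hc 0)
    · filter_upwards [Filter.eventually_ge_atTop 0] with t ht
      exact h1 t ht
    · apply Tendsto.atTop_mul_const hH00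
      exact Real.tendsto_exp_atTop.comp (tendsto_id.const_mul_atTop hδ)

/-- Continuity in time of weighted energies. -/
lemma continuous_EnWW {p q α β A B : ℝ} (hp : 0 < p) (hq : 0 < q) (k1 k2 : ℝ)
    {K L u v : E n → ℝ} (hK : ContinuousOn K {0}ᶜ) (hL : ContinuousOn L {0}ᶜ)
    (hu : Continuous u) (hv : Continuous v) :
    Continuous (fun t => ∫ θ : Sph n,
      (k1 * (scl (-A) t K (θ : E n) * (scl β t v (θ : E n)) ^ (p + 1)) +
      k2 * (scl (-B) t L (θ : E n) * (scl α t u (θ : E n)) ^ (q + 1))) ∂(sg n)) := by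
  have hc : ∀ (a : ℝ) (w : E n → ℝ), ContinuousOn w {0}ᶜ →
      Continuous (fun x : ℝ × Sph n => scl a x.1 w (x.2 : E n)) := by
    intro a w hw
    unfold scl
    exact (by fun_prop : Continuous (fun x : ℝ × Sph n => exp (a * x.1))).mul
      (continuous_comp_expsmul hw)
  have hF : Continuous (fun x : ℝ × Sph n =>
      k1 * (scl (-A) x.1 K (x.2 : E n) * (scl β x.1 v (x.2 : E n)) ^ (p + 1)) +
      k2 * (scl (-B) x.1 L (x.2 : E n) * (scl α x.1 u (x.2 : E n)) ^ (q + 1))) :=
    (((hc (-A) K hK).mul ((hc β v hv.continuousOn).rpow_const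
      fun x => Or.inr (by linarith only [hp]))).const_mul k1).add
      (((hc (-B) L hL).mul ((hc α u hu.continuousOn).rpow_const
      fun x => Or.inr (by linarith only [hq]))).const_mul k2)
  have h := continuous_parametric_integral_of_continuous (μ := sg n) (s := (Set.univ : Set (Sph n)))
    (f := fun t (θ : Sph n) => k1 * (scl (-A) t K (θ : E n) * (scl β t v (θ : E n)) ^ (p + 1)) +
      k2 * (scl (-B) t L (θ : E n) * (scl α t u (θ : E n)) ^ (q + 1)))
    hF isCompact_univ
  simpa only [Measure.restrict_univ] using h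

/-- The growth package for the rescaled Hamiltonian. -/
lemma growth_packW (hn : 3 ≤ n) {p q A B c C M α β d : ℝ} (hp : 0 < p) (hq : 0 < q) (hA : -2 < A)
    (hB : -2 < B) (h1 : α + 2 + A = β * p) (h2 : β + 2 + B = α * q)
    (hδ : 0 < α + β - ((n : ℝ) - 2))
    (hd : |d| < ((n : ℝ) - 2) / 2)
    (hω1 : 0 < p * (β - ((n : ℝ) - 2) / 2 + d) - (α - ((n : ℝ) - 2) / 2 - d))
    (hω2 : 0 < q * (α - ((n : ℝ) - 2) / 2 - d) - (β - ((n : ℝ) - 2) / 2 + d))
    {K L u v : E n → ℝ} (hs : SW n p q A B c C M K L u v) :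
    ∃ c0 : ℝ, 0 < c0 ∧
      (∀ t1 t2, t1 ≤ t2 →
        HamW n p q d (scl (-A) t1 K) (scl (-B) t1 L) (scl α t1 u) (scl β t1 v) +
        c0 * (∫ s in t1..t2, En n p q (scl α s u) (scl β s v)) ≤
          HamW n p q d (scl (-A) t2 K) (scl (-B) t2 L) (scl α t2 u) (scl β t2 v)) ∧
      Tendsto (fun t => HamW n p q d (scl (-A) t K) (scl (-B) t L) (scl α t u) (scl β t v))
        atTop atTop := by
  set k1 : ℝ := (p * (β - ((n : ℝ) - 2) / 2 + d) - (α - ((n : ℝ) - 2) / 2 - d)) / (p + 1) with hk1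
  set k2 : ℝ := (q * (α - ((n : ℝ) - 2) / 2 - d) - (β - ((n : ℝ) - 2) / 2 + d)) / (q + 1) with hk2
  have hk1p : 0 < k1 := div_pos hω1 (by linarith only [hp])
  have hk2p : 0 < k2 := div_pos hω2 (by linarith only [hq])
  have hc := hs.wK.c0
  have hpos : ∀ s, (∀ x, 0 < scl α s u x) ∧ ∀ x, 0 < scl β s v x := fun s =>
    ⟨fun x => mul_pos (exp_pos _) (hs.sol.pos_u _), fun x => mul_pos (exp_pos _) (hs.sol.pos_v _)⟩
  have hcu : ∀ s, Continuous (scl α s u) := fun s =>
    continuous_const.mul (hs.sol.continuous_u.comp (continuous_const_smul _))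
  have hcv : ∀ s, Continuous (scl β s v) := fun s =>
    continuous_const.mul (hs.sol.continuous_v.comp (continuous_const_smul _))
  have hm : 0 < min k1 k2 * c := mul_pos (lt_min hk1p hk2p) hc
  refine ⟨min k1 k2 * c, hm, ?_⟩
  apply grow_absW (δ := α + β - ((n : ℝ) - 2)) hδ hm
    (e := fun s => En n p q (scl α s u) (scl β s v))
    (J := fun s => ∫ θ : Sph n,
      (k1 * (scl (-A) s K (θ : E n) * (scl β s v (θ : E n)) ^ (p + 1)) +
      k2 * (scl (-B) s L (θ : E n) * (scl α s u (θ : E n)) ^ (q + 1))) ∂(sg n))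
    (fun t => En_pos hn hp hq (hcu t) (hcv t) (hpos t).1 (hpos t).2)
    (continuous_En hp hq hs.sol.continuous_u hs.sol.continuous_v hs.sol.pos_u hs.sol.pos_v)
    (continuous_EnWW hp hq k1 k2 hs.wK.cont hs.wL.cont hs.sol.continuous_u hs.sol.continuous_v)
  · intro t
    unfold En
    rw [← integral_const_mul]
    have hcK := (hs.wK.scl t).sph_cont
    have hcL := (hs.wL.scl t).sph_cont
    have hc1 : Continuous fun θ : Sph n => (scl β t v (θ : E n)) ^ (p + 1) :=
      ((hcv t).comp continuous_subtype_val).rpow_const fun x => Or.inr (by linarith only [hp])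
    have hc2 : Continuous fun θ : Sph n => (scl α t u (θ : E n)) ^ (q + 1) :=
      ((hcu t).comp continuous_subtype_val).rpow_const fun x => Or.inr (by linarith only [hq])
    apply integral_mono
    · exact ((hc1.add hc2).const_mul _).integrable_of_hasCompactSupport
        (HasCompactSupport.of_compactSpace _)
    · exact (((hcK.mul hc1).const_mul k1).add
        ((hcL.mul hc2).const_mul k2)).integrable_of_hasCompactSupport
        (HasCompactSupport.of_compactSpace _)
    · intro θ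
      have e1 : 0 ≤ (scl β t v (θ : E n)) ^ (p + 1) := (rpow_pos_of_pos ((hpos t).2 _) _).le
      have e2 : 0 ≤ (scl α t u (θ : E n)) ^ (q + 1) := (rpow_pos_of_pos ((hpos t).1 _) _).le
      have f1 : min k1 k2 * c ≤ k1 * scl (-A) t K (θ : E n) :=
        mul_le_mul (min_le_left k1 k2) ((hs.wK.scl t).sph_lo θ) hc.le hk1p.le
      have f2 : min k1 k2 * c ≤ k2 * scl (-B) t L (θ : E n) :=
        mul_le_mul (min_le_right k1 k2) ((hs.wL.scl t).sph_lo θ) hc.le hk2p.le
      have e3 := mul_le_mul_of_nonneg_right f1 e1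
      have e4 := mul_le_mul_of_nonneg_right f2 e2
      simp only
      linarith only [e3, e4]
  · intro t1 t2 h12
    exact growW hp hq h1 h2 hs h12
  · exact grow_limW hn hp hq hA hB h1 h2 hd hω1 hω2 hs

lemma int_uv_leW {p q : ℝ} (hp : 0 < p) (hq : 0 < q) (hpq : 1 < p * q) {u v : E n → ℝ}
    (hu : Continuous u) (hv : Continuous v) (pu : ∀ x, 0 < u x) (pv : ∀ x, 0 < v x)
    {η : ℝ} (hη : 0 < η) :
    ∫ θ : Sph n, u (θ : E n) * v (θ : E n) ∂(sg n) ≤ η * En n p q u v +
      η ^ (-((1 / (p + 1) + 1 / (q + 1)) / (1 - (1 / (p + 1) + 1 / (q + 1))))) *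
        (sg n).real univ := by
  set k := (1 / (p + 1) + 1 / (q + 1)) / (1 - (1 / (p + 1) + 1 / (q + 1)))
  have cu := continuous_restrictL (n := n) hu
  have cv := continuous_restrictL (n := n) hv
  have cE : Continuous (fun θ : Sph n => (v (θ : E n)) ^ (p + 1) + (u (θ : E n)) ^ (q + 1)) := by
    apply Continuous.add
    · exact cv.rpow_const (fun θ => Or.inr (by linarith only [hp]))
    · exact cu.rpow_const (fun θ => Or.inr (by linarith only [hq]))
  have h1 : ∫ θ : Sph n, u (θ : E n) * v (θ : E n) ∂(sg n) ≤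
      ∫ θ : Sph n, (η * ((v (θ : E n)) ^ (p + 1) + (u (θ : E n)) ^ (q + 1)) + η ^ (-k)) ∂(sg n) := by
    apply integral_mono (integrable_sphL (cu.mul cv))
      (integrable_sphL ((continuous_const.mul cE).add continuous_const))
    intro θ
    exact young3w hp hq hpq (pu _) (pv _) hη
  refine h1.trans (le_of_eq ?_)
  have i1 : Integrable (fun θ : Sph n => η * ((v (θ : E n)) ^ (p + 1) + (u (θ : E n)) ^ (q + 1)))
      (sg n) := integrable_sphL (continuous_const.mul cE)
  rw [integral_add i1 (integrable_const _), integral_const_mul, integral_const]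
  unfold En
  rw [smul_eq_mul]
  ring

/-- Drift removal. -/
lemma Ham_driftW {p q d : ℝ} (hp : 0 < p) (hq : 0 < q) {K L u v : E n → ℝ}
    (cK : Continuous fun θ : Sph n => K (θ : E n)) (cL : Continuous fun θ : Sph n => L (θ : E n))
    (hu : ContDiffOn ℝ 2 u {0}ᶜ) (hv : ContDiffOn ℝ 2 v {0}ᶜ) (cu : Continuous u)
    (cv : Continuous v) :
    HamW n p q d K L u v = HamW n p q 0 K L u v + d *
      ∫ θ, (u (θ : E n) * cy1 (((n : ℝ) - 2) / 2) v 0 θ -
        cy1 (((n : ℝ) - 2) / 2) u 0 θ * v (θ : E n)) ∂(sg n) := by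
  have c0 : ∀ (g : ℝ) {w : E n → ℝ}, ContDiffOn ℝ 2 w {0}ᶜ → Continuous (fun θ : Sph n => cy0 g w 0 θ) :=
    fun g w hw => (continuous_cy0 hw g).comp (Continuous.prodMk continuous_const continuous_id)
  have c1 : ∀ (g : ℝ) {w : E n → ℝ}, ContDiffOn ℝ 2 w {0}ᶜ → Continuous (fun θ : Sph n => cy1 g w 0 θ) :=
    fun g w hw => (continuous_cy1 hw g).comp (Continuous.prodMk continuous_const continuous_id)
  have cS : ∀ (g : ℝ) {w : E n → ℝ}, ContDiffOn ℝ 2 w {0}ᶜ → Continuous (fun θ : Sph n => cyS g w 0 θ) :=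
    fun g w hw => (continuous_cyS hw g).comp (Continuous.prodMk continuous_const continuous_id)
  have cuS := continuous_restrictL (n := n) cu
  have cvS := continuous_restrictL (n := n) cv
  have cW : Continuous (fun θ : Sph n => (u (θ : E n) * cy1 (((n : ℝ) - 2) / 2) v 0 θ -
        cy1 (((n : ℝ) - 2) / 2) u 0 θ * v (θ : E n))) :=
    (cuS.mul (c1 _ hv)).sub ((c1 _ hu).mul cvS)
  have cP : Continuous (fun θ : Sph n => K (θ : E n) * (v (θ : E n)) ^ (p + 1) / (p + 1)) :=
    (cK.mul (cvS.rpow_const (fun θ => Or.inr (by linarith only [hp])))).div_const _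
  have cQ : Continuous (fun θ : Sph n => L (θ : E n) * (u (θ : E n)) ^ (q + 1) / (q + 1)) :=
    (cL.mul (cuS.rpow_const (fun θ => Or.inr (by linarith only [hq])))).div_const _
  unfold HamW
  rw [← integral_const_mul, ← integral_add]
  · apply integral_congr_ae
    filter_upwards with θ
    simp only [cy0, cy1, cyS, mul_zero, Real.exp_zero, one_mul, one_smul, add_zero, sub_zero]
    ring
  · apply integrable_sphL
    exact (((((c1 _ hu).mul (c1 _ hv)).add ((cS _ hu).mul (c0 _ hv))).sub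
      (continuous_const.mul ((c0 _ hu).mul (c0 _ hv)))).add cP).add cQ
  · exact integrable_sphL (continuous_const.mul cW)

theorem locW (hn : 3 ≤ n) {p q A B c C M : ℝ} (hp : 0 < p) (hq : 0 < q) (hpq : 1 < p * q)
    (α β d : ℝ) : ∃ C' k T0 : ℝ, 0 < C' ∧ 0 < k ∧ 0 < T0 ∧
    ∀ K L u v : E n → ℝ, SW n p q A B c C M K L u v → ∀ T : ℝ, 0 < T → T ≤ T0 →
      HamW n p q d K L u v ≤ C' * T * (En n p q u v +
        ∫ s in (-(2 * T))..(2 * T), En n p q (scl α s u) (scl β s v)) + C' * T ^ (-k) := by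
  obtain ⟨C1, T1, hC1, hT1, H1⟩ := lim_ineqW (n := n) hn hp hq hpq.le (A := A) (B := B)
    (c := c) (C := C) (M := M)
  obtain ⟨Cg, hCg, hgr⟩ := grad_boundW (n := n) hn C
  obtain ⟨C2, κ2, T2, hC2, hκ2, hT2, H2⟩ := line_boundG (n := n) hn hCg (A := A) hp hq α β
  obtain ⟨C3, κ3, T3, hC3, hκ3, hT3, H3⟩ := line_boundG (n := n) hn hCg (A := B) hq hp β α
  set κ := min κ2 κ3 with hκdef
  have hκ : 0 < κ := lt_min hκ2 hκ3
  set m : ℝ := max 1 (2 / κ) with hm
  have hm1 : 1 ≤ m := le_max_left _ _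
  have hmκ : 2 ≤ m * κ := by
    have : 2 / κ ≤ m := le_max_right _ _
    rwa [div_le_iff₀ hκ] at this
  set k1 : ℝ := (1 / (p + 1) + 1 / (q + 1)) / (1 - (1 / (p + 1) + 1 / (q + 1))) with hk1
  have hp1 : 0 < p + 1 := by linarith only [hp]
  have hq1 : 0 < q + 1 := by linarith only [hq]
  have hσ1 : (1 / (p + 1) + 1 / (q + 1)) < 1 := by
    rw [div_add_div _ _ hp1.ne' hq1.ne', div_lt_one (by positivity)]
    nlinarith only [hpq]
  have hk1pos : 0 < k1 := div_pos (by positivity) (by linarith only [hσ1])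
  set C0 : ℝ := C1 + C1 * C2 + |d| * (C2 + C3) with hC0
  have hC0pos : 0 < C0 := by (clear * - hC1 hC2 hC3; positivity)
  set V : ℝ := (sg n).real univ with hV
  have hV0 : 0 ≤ V := measureReal_nonneg
  refine ⟨4 * C0 * (1 + V), 1 + m + (m + 2) * k1, min (min T1 T2) (min T3 1), by (clear * - hC1 hC2 hC3; positivity),
    by positivity, by (clear * - hT1 hT2 hT3; positivity), ?_⟩
  intro K0 L0 u v hs T hT hTle
  have hTT1 : T ≤ T1 := hTle.trans ((min_le_left _ _).trans (min_le_left _ _))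
  have hTT2 : T ≤ T2 := hTle.trans ((min_le_left _ _).trans (min_le_right _ _))
  have hTT3 : T ≤ T3 := hTle.trans ((min_le_right _ _).trans (min_le_left _ _))
  have hTT4 : T ≤ 1 := hTle.trans ((min_le_right _ _).trans (min_le_right _ _))
  set l : ℝ := T ^ m with hl
  have hl0 : 0 < l := rpow_pos_of_pos hT _
  have hlT : l ≤ T := by
    calc l = T ^ m := rfl
      _ ≤ T ^ (1 : ℝ) := rpow_le_rpow_of_exponent_ge hT hTT4 hm1
      _ = T := rpow_one T
  have hlk : ∀ κ' : ℝ, κ ≤ κ' → l ^ κ' ≤ T ^ 2 := by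
    intro κ' hκ'
    calc l ^ κ' = T ^ (m * κ') := by rw [hl, ← rpow_mul hT.le]
      _ ≤ T ^ (2 : ℝ) := by
          apply rpow_le_rpow_of_exponent_ge hT hTT4
          exact hmκ.trans (mul_le_mul_of_nonneg_left hκ' (by linarith only [hm1]))
      _ = T ^ 2 := by norm_num
  obtain ⟨G, hG0, hGi, hGr, hGb⟩ := H2 u v hs.sol.continuous_u hs.sol.continuous_v hs.sol.pos_u
    hs.sol.pos_v (hgr p A K0 u v hs.sol.contDiffOn_u hs.sol.pos_u hs.sol.pos_v
      (fun x hx => ⟨(hs.wK.pos hx).le, hs.wK.hi x hx⟩) hs.sol.eq_u) T l hl0 hlT hTT2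
  obtain ⟨K, hK0, hKi, hKr, hKb⟩ := H3 v u hs.sol.continuous_v hs.sol.continuous_u hs.sol.pos_v
    hs.sol.pos_u (hgr q B L0 v u hs.sol.contDiffOn_v hs.sol.pos_v hs.sol.pos_u
      (fun x hx => ⟨(hs.wL.pos hx).le, hs.wL.hi x hx⟩) hs.sol.eq_v) T l hl0 hlT hTT3
  have hL := H1 K0 L0 u v hs T hT hTT1 G hG0 hGi hGr
  set a : ℝ := ∫ θ : Sph n, u (θ : E n) * v (θ : E n) ∂(sg n) with ha
  set e : ℝ := En n p q u v with he
  set I : ℝ := ∫ s in (-(2 * T))..(2 * T), En n p q (scl α s u) (scl β s v) with hI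
  set g : ℝ := ∫ θ, G θ * v (θ : E n) ∂(sg n) with hg
  set kk : ℝ := ∫ θ, K θ * u (θ : E n) ∂(sg n) with hkk
  have ha' : ∫ θ : Sph n, v (θ : E n) * u (θ : E n) ∂(sg n) = a := by
    rw [ha]; congr 1; ext θ; ring
  have hI' : ∫ s in (-(2 * T))..(2 * T), En n q p (scl β s v) (scl α s u) = I := by
    rw [hI]; congr 1; ext s; exact En_swapL _ _ _ _
  have he' : En n q p v u = e := En_swapL _ _ _ _
  rw [ha', hI', he'] at hKb
  have ha0 : 0 ≤ a := integral_nonneg fun θ => (mul_pos (hs.sol.pos_u _) (hs.sol.pos_v _)).le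
  have he0 : 0 ≤ e := integral_nonneg fun θ =>
    add_nonneg (rpow_nonneg (hs.sol.pos_v _).le _) (rpow_nonneg (hs.sol.pos_u _).le _)
  have hI0 : 0 ≤ I := by
    apply intervalIntegral.integral_nonneg (by linarith only [hT])
    intro s _
    apply integral_nonneg
    intro θ
    apply add_nonneg
    · apply rpow_nonneg
      unfold scl
      exact (mul_pos (exp_pos _) (hs.sol.pos_v _)).le
    · apply rpow_nonneg
      unfold scl
      exact (mul_pos (exp_pos _) (hs.sol.pos_u _)).le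
  -- the Wronskian
  have hW : |∫ θ, (u (θ : E n) * cy1 (((n : ℝ) - 2) / 2) v 0 θ -
        cy1 (((n : ℝ) - 2) / 2) u 0 θ * v (θ : E n)) ∂(sg n)| ≤ g + kk := by
    rw [hg, hkk, ← integral_add hGi hKi]
    refine (abs_integral_le_integral_abs).trans ?_
    apply integral_mono_of_nonneg
    · filter_upwards with θ using abs_nonneg _
    · exact hGi.add hKi
    · filter_upwards [hGr, hKr] with θ h1 h2
      have h1' := h1 0 (by rw [abs_zero]; exact hT.le) le_rfl
      have h2' := h2 0 (by rw [abs_zero]; exact hT.le) le_rfl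
      have hu := hs.sol.pos_u (θ : E n)
      have hv := hs.sol.pos_v (θ : E n)
      calc |u (θ : E n) * cy1 (((n : ℝ) - 2) / 2) v 0 θ -
            cy1 (((n : ℝ) - 2) / 2) u 0 θ * v (θ : E n)|
          ≤ |u (θ : E n) * cy1 (((n : ℝ) - 2) / 2) v 0 θ| +
            |cy1 (((n : ℝ) - 2) / 2) u 0 θ * v (θ : E n)| := abs_sub _ _
        _ = u (θ : E n) * |cy1 (((n : ℝ) - 2) / 2) v 0 θ| +
            |cy1 (((n : ℝ) - 2) / 2) u 0 θ| * v (θ : E n) := by
            rw [abs_mul, abs_mul, abs_of_pos hu, abs_of_pos hv]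
        _ ≤ G θ * v (θ : E n) + K θ * u (θ : E n) := by
            have f1 := mul_le_mul_of_nonneg_left h2' hu.le
            have f2 := mul_le_mul_of_nonneg_right h1' hv.le
            linarith only [f1, f2]
  have hdr := Ham_driftW (d := d) hp hq hs.wK.sph_cont hs.wL.sph_cont hs.sol.contDiffOn_u
    hs.sol.contDiffOn_v hs.sol.continuous_u hs.sol.continuous_v
  have hg0 : 0 ≤ g := integral_nonneg fun θ => mul_nonneg (hG0 θ) (hs.sol.pos_v _).le
  have hkk0 : 0 ≤ kk := integral_nonneg fun θ => mul_nonneg (hK0 θ) (hs.sol.pos_u _).le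
  have hH : HamW n p q d K0 L0 u v ≤
      C1 / T * g + C1 / T ^ 2 * a + C1 * T * e + |d| * (g + kk) := by
    rw [hdr]
    have := mul_le_mul_of_nonneg_left hW (abs_nonneg d)
    have h3 := le_abs_self (d * ∫ θ, (u (θ : E n) * cy1 (((n : ℝ) - 2) / 2) v 0 θ -
        cy1 (((n : ℝ) - 2) / 2) u 0 θ * v (θ : E n)) ∂(sg n))
    rw [abs_mul] at h3
    linarith only [hL, this, h3]
  have hT2' : 0 < T ^ 2 := by (clear * - hT; positivity)
  have hg1 : g ≤ C2 / l * a + C2 * T ^ 2 * (e + I) := by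
    refine hGb.trans (add_le_add le_rfl ?_)
    exact mul_le_mul_of_nonneg_right (mul_le_mul_of_nonneg_left (hlk κ2 (min_le_left _ _)) hC2.le)
      (add_nonneg he0 hI0)
  have hk1' : kk ≤ C3 / l * a + C3 * T ^ 2 * (e + I) := by
    refine hKb.trans (add_le_add le_rfl ?_)
    exact mul_le_mul_of_nonneg_right (mul_le_mul_of_nonneg_left (hlk κ3 (min_le_right _ _)) hC3.le)
      (add_nonneg he0 hI0)
  have hH2 := loc_alg hT hTT4 hl0 hlT ha0 he0 hI0 hC1 hC2 hC3 (abs_nonneg d) hH hg1 hk1'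
  rw [← hC0] at hH2
  have hη0 : 0 < T ^ (m + 2) := rpow_pos_of_pos hT _
  have hY := int_uv_leW (n := n) hp hq hpq hs.sol.continuous_u hs.sol.continuous_v hs.sol.pos_u
    hs.sol.pos_v hη0
  rw [← hk1, ← ha, ← he, ← hV] at hY
  exact loc_alg2 hT hl rfl he0 hI0 hV0 hC0pos hH2 hY

theorem no_solution_rmW (hn : 3 ≤ n) {p q A B c C M : ℝ} (hp : 0 < p) (hq : 0 < q)
    (hpq : 1 < p * q) (hA : -2 < A) (hB : -2 < B)
    (hw : (n : ℝ) - 2 < ((n : ℝ) + A) / (p + 1) + ((n : ℝ) + B) / (q + 1))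
    {K L u v : E n → ℝ} (hs : SW n p q A B c C M K L u v) : False := by
  have hpq1 : 0 < p * q - 1 := by linarith only [hpq]
  set α : ℝ := (2 + A + p * (2 + B)) / (p * q - 1) with hα
  set β : ℝ := (2 + B + q * (2 + A)) / (p * q - 1) with hβ
  have e3 : α * (p * q - 1) = 2 + A + p * (2 + B) := by
    rw [hα]
    exact div_mul_cancel₀ _ hpq1.ne'
  have e4 : β * (p * q - 1) = 2 + B + q * (2 + A) := by
    rw [hβ]
    exact div_mul_cancel₀ _ hpq1.ne'
  have h1 : α + 2 + A = β * p := by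
    apply mul_right_cancel₀ hpq1.ne'
    linear_combination e3 - p * e4
  have h2 : β + 2 + B = α * q := by
    apply mul_right_cancel₀ hpq1.ne'
    linear_combination e4 - q * e3
  have hn3 : (3 : ℝ) ≤ n := by exact_mod_cast hn
  have hδ : 0 < α + β - ((n : ℝ) - 2) := by
    have e1 : α + β = (2 + A + p * (2 + B) + (2 + B + q * (2 + A))) / (p * q - 1) := by
      rw [hα, hβ]
      ring
    have e2 : ((n : ℝ) + A) / (p + 1) + ((n : ℝ) + B) / (q + 1) =
        (((n : ℝ) + A) * (q + 1) + ((n : ℝ) + B) * (p + 1)) / ((p + 1) * (q + 1)) := by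
      (clear * - hq hp; field_simp)
    rw [e2, lt_div_iff₀ (by positivity)] at hw
    rw [e1, sub_pos, lt_div_iff₀ hpq1]
    nlinarith only [hw]
  obtain ⟨d, hd, hω1, hω2⟩ := exists_drift hn3 hp hq hA hB h1 h2 hw
  obtain ⟨c0, hc0, hgrow, hlim⟩ := growth_packW hn hp hq hA hB h1 h2 hδ hd hω1 hω2 hs
  obtain ⟨C', k, T0, hC, hk, hT0, hloc⟩ := locW (n := n) hn (A := A) (B := B) (c := c) (C := C)
    (M := M) hp hq hpq α β d
  refine iter (H := fun t => HamW n p q d (scl (-A) t K) (scl (-B) t L) (scl α t u) (scl β t v))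
    (e := fun t => En n p q (scl α t u) (scl β t v)) ?_ ?_ hc0 hC hk hT0 hgrow hlim ?_
  · intro t
    exact (En_pos hn hp hq (continuous_const.mul (hs.sol.continuous_u.comp (continuous_const_smul _)))
      (continuous_const.mul (hs.sol.continuous_v.comp (continuous_const_smul _)))
      (fun x => mul_pos (exp_pos _) (hs.sol.pos_u _))
      (fun x => mul_pos (exp_pos _) (hs.sol.pos_v _))).le
  · exact continuous_En hp hq hs.sol.continuous_u hs.sol.continuous_v hs.sol.pos_u hs.sol.pos_v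
  · intro t T hT hT1
    have h3 := hloc _ _ _ _ (hs.scl h1 h2 t) T hT hT1
    have h4 : (∫ s in (-(2 * T))..(2 * T), En n p q (scl α s (scl α t u)) (scl β s (scl β t v))) =
        ∫ s in (t - 2 * T)..(t + 2 * T), En n p q (scl α s u) (scl β s v) := by
      have h5 : (fun s => En n p q (scl α s (scl α t u)) (scl β s (scl β t v))) =
          fun s => (fun r => En n p q (scl α r u) (scl β r v)) (s + t) := by
        funext s
        rw [scl_scl, scl_scl]
      rw [h5, intervalIntegral.integral_comp_add_right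
        (fun r => En n p q (scl α r u) (scl β r v)) t]
      congr 1 <;> ring
    rw [h4] at h3
    exact h3

end

end Vale.Agent.P100.H20
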