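import Mathlib
import Vale.Agent.P100.Bdl.B1
import Vale.Agent.P100.H20.Defs

set_option linter.all false

/-!
Elementary cases of the weighted system: supersolutions on the cylinder.
-/

open Set Filter Topology

namespace Vale.Agent.P100

variable {K : Type*} [TopologicalSpace K]

/-- Positive entire supersolutions in cylinder form (`N = n - 2`). -/
structure SolI (K : Type*) [TopologicalSpace K] (N p q A B k : ℝ) where
  u : Cyl K
  v : Cyl K
  hk : 0 < k
  hu : ∀ t θ, 0 < u.f t θ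
  hv : ∀ t θ, 0 < v.f t θ
  eu : ∀ t θ, u.f2 t θ + N * u.f1 t θ + u.S t θ ≤
    -(k * (Real.exp ((2 + A) * t) * v.f t θ ^ p))
  ev : ∀ t θ, v.f2 t θ + N * v.f1 t θ + v.S t θ ≤
    -(k * (Real.exp ((2 + B) * t) * u.f t θ ^ q))
  u0 : ℝ
  v0 : ℝ
  hu0 : 0 < u0
  hv0 : 0 < v0
  lu : ∀ ε > 0, ∃ T, ∀ t ≤ T, ∀ θ, |u.f t θ - u0| ≤ ε
  lv : ∀ ε > 0, ∃ T, ∀ t ≤ T, ∀ θ, |v.f t θ - v0| ≤ ε

namespace SolI

variable {N p q A B k : ℝ}

/-- Exchange the roles of `u` and `v`. -/
def swap (s : SolI K N p q A B k) : SolI K N q p B A k where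
  u := s.v
  v := s.u
  hk := s.hk
  hu := s.hv
  hv := s.hu
  eu := s.ev
  ev := s.eu
  u0 := s.v0
  v0 := s.u0
  hu0 := s.hv0
  hv0 := s.hu0
  lu := s.lv
  lv := s.lu

lemma sup_u (s : SolI K N p q A B k) (t : ℝ) (θ : K) :
    s.u.f2 t θ + N * s.u.f1 t θ + s.u.S t θ < 0 := by
  have h0 := s.eu t θ
  have h1 := Real.exp_pos ((2 + A) * t)
  have h2 := Real.rpow_pos_of_pos (s.hv t θ) p
  have h3 : 0 < k * (Real.exp ((2 + A) * t) * s.v.f t θ ^ p) := mul_pos s.hk (mul_pos h1 h2)
  linarith only [h0, h3]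

/-- `m_u(τ) ≥ C e^{(2+A)τ} m_v(τ)^p`. -/
lemma star [CompactSpace K] (s : SolI K N p q A B k) (hN : 0 < N) (hp : 0 < p) {τ c : ℝ}
    (hc : 0 < c) (h : ∀ θ, c ≤ s.v.f τ θ) : ∀ θ,
    k * Real.exp (-|2 + A| - N * p) / (4 * (1 + N)) * (Real.exp ((2 + A) * τ) * c ^ p) ≤
      s.u.f τ θ := by
  have hk := s.hk
  have hl := s.v.lower_left hN s.swap.sup_u s.hv hc.le h
  have hr := s.v.lower_right hN s.swap.sup_u s.hv hc.le h
  have hv : ∀ t ∈ Ioo (τ - 1) (τ + 1), ∀ θ, c * Real.exp (-N) ≤ s.v.f t θ := by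
    intro t ht θ
    rcases le_total t τ with h1 | h1
    · refine le_trans ?_ (hl t h1 θ)
      have : Real.exp (-N) ≤ 1 := Real.exp_le_one_iff.mpr (by linarith only [hN])
      nlinarith only [hc, this]
    · refine le_trans ?_ (hr t h1 θ)
      apply mul_le_mul_of_nonneg_left _ hc.le
      rw [Real.exp_le_exp]
      nlinarith only [hN, ht.2]
  intro θ
  have := s.u.local_lower hN.le (τ := τ)
    (M := k * (Real.exp (-|2 + A| - N * p) * (Real.exp ((2 + A) * τ) * c ^ p))) (by positivity) ?_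
      s.hu θ
  · calc _ = k * (Real.exp (-|2 + A| - N * p) * (Real.exp ((2 + A) * τ) * c ^ p)) /
          (4 * (1 + N)) := by
          ring
      _ ≤ _ := this
  · intro t ht θ
    refine (s.eu t θ).trans ?_
    rw [neg_le_neg_iff]
    apply mul_le_mul_of_nonneg_left _ hk.le
    have h1 : (c * Real.exp (-N)) ^ p ≤ s.v.f t θ ^ p :=
      Real.rpow_le_rpow (by positivity) (hv t ht θ) hp.le
    have h2 : (c * Real.exp (-N)) ^ p = c ^ p * Real.exp (-N * p) := by
      rw [Real.mul_rpow hc.le (Real.exp_pos _).le, ← Real.exp_mul]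
    have h3 : Real.exp ((2 + A) * τ - |2 + A|) ≤ Real.exp ((2 + A) * t) := by
      rw [Real.exp_le_exp]
      have h4 : (2 + A) * (τ - t) ≤ |2 + A| * |τ - t| := by
        rw [← abs_mul]; exact le_abs_self _
      have h5 : |τ - t| ≤ 1 := by
        rw [abs_le]; constructor <;> linarith [ht.1, ht.2]
      nlinarith only [h4, h5, abs_nonneg (2 + A)]
    calc Real.exp (-|2 + A| - N * p) * (Real.exp ((2 + A) * τ) * c ^ p)
        = Real.exp ((2 + A) * τ - |2 + A|) * (c ^ p * Real.exp (-N * p)) := by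
          rw [show Real.exp (-|2 + A| - N * p) * (Real.exp ((2 + A) * τ) * c ^ p)
            = (Real.exp (-|2 + A| - N * p) * Real.exp ((2 + A) * τ)) * c ^ p by ring,
            show Real.exp ((2 + A) * τ - |2 + A|) * (c ^ p * Real.exp (-N * p))
            = (Real.exp ((2 + A) * τ - |2 + A|) * Real.exp (-N * p)) * c ^ p by ring,
            ← Real.exp_add, ← Real.exp_add]
          congr 2
          ring
      _ ≤ Real.exp ((2 + A) * t) * s.v.f t θ ^ p := by
          rw [← h2]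
          exact mul_le_mul h3 h1 (by positivity) (Real.exp_pos _).le

/-- Existence of the minimum on a slice, in exponential form. -/
lemma exists_min [CompactSpace K] [Nonempty K] (s : SolI K N p q A B k) (τ : ℝ) :
    ∃ x : ℝ, (∀ θ, Real.exp x ≤ s.u.f τ θ) ∧ ∃ θ, s.u.f τ θ = Real.exp x := by
  have cs : Continuous (fun θ : K => s.u.f τ θ) :=
    s.u.cf.comp (Continuous.prodMk continuous_const continuous_id)
  obtain ⟨θ0, -, hθ0⟩ := isCompact_univ.exists_isMinOn (univ_nonempty (α := K)) cs.continuousOn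
  refine ⟨Real.log (s.u.f τ θ0), ?_, θ0, ?_⟩
  · intro θ
    rw [Real.exp_log (s.hu τ θ0)]
    exact hθ0 (mem_univ θ)
  · rw [Real.exp_log (s.hu τ θ0)]

/-- The scaling inequality for the logarithm of the minimum. -/
lemma scaling [CompactSpace K] [Nonempty K] (s : SolI K N p q A B k) (hN : 0 < N) (hp : 0 < p)
    (hq : 0 < q) : ∃ C : ℝ, ∀ τ : ℝ, ∃ x : ℝ, (∀ θ, Real.exp x ≤ s.u.f τ θ) ∧
      (∃ θ, s.u.f τ θ = Real.exp x) ∧ C + (2 + A + p * (2 + B)) * τ ≤ (1 - p * q) * x := by
  have hk := s.hk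
  set L1 := Real.log (k * Real.exp (-|2 + A| - N * p) / (4 * (1 + N))) with hL1
  set L2 := Real.log (k * Real.exp (-|2 + B| - N * q) / (4 * (1 + N))) with hL2
  have e1 : Real.exp L1 = k * Real.exp (-|2 + A| - N * p) / (4 * (1 + N)) :=
    Real.exp_log (by positivity)
  have e2 : Real.exp L2 = k * Real.exp (-|2 + B| - N * q) / (4 * (1 + N)) :=
    Real.exp_log (by positivity)
  refine ⟨L1 + p * L2, ?_⟩
  intro τ
  obtain ⟨x, hx1, θx, hx2⟩ := s.exists_min τ
  obtain ⟨y, hy1, θy, hy2⟩ := s.swap.exists_min τ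
  refine ⟨x, hx1, ⟨θx, hx2⟩, ?_⟩
  have h1 := s.star hN hp (Real.exp_pos y) hy1 θx
  have h2 := s.swap.star hN hq (Real.exp_pos x) hx1 θy
  rw [hx2, ← e1, ← Real.exp_mul, ← Real.exp_add, ← Real.exp_add, Real.exp_le_exp] at h1
  have hy2' : s.swap.u.f τ θy = Real.exp y := hy2
  rw [hy2', ← e2, ← Real.exp_mul, ← Real.exp_add, ← Real.exp_add, Real.exp_le_exp] at h2
  have h3 : p * (L2 + ((2 + B) * τ + x * q)) ≤ p * y := mul_le_mul_of_nonneg_left h2 hp.le
  nlinarith only [h1, h3]

/-- No solution if `p q ≤ 1` (and the weights are not too singular). -/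
theorem false_of_sublinear [CompactSpace K] [Nonempty K] (s : SolI K N p q A B k) (hN : 0 < N)
    (hp : 0 < p) (hq : 0 < q) (hpq : p * q ≤ 1) (hA : 0 < 2 + A + p * (2 + B)) : False := by
  obtain ⟨C, hC⟩ := s.scaling hN hp hq
  obtain ⟨θ0⟩ := ‹Nonempty K›
  set X := Real.log (s.u.f 0 θ0) with hX
  have key : ∀ τ, 0 ≤ τ → C + (2 + A + p * (2 + B)) * τ ≤ (1 - p * q) * X := by
    intro τ hτ
    obtain ⟨x, hx1, -, hx3⟩ := hC τ
    have h1 := s.u.lower_left hN s.sup_u s.hu (Real.exp_pos x).le hx1 0 hτ θ0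
    have h2 : x ≤ X := by
      rw [hX, Real.le_log_iff_exp_le (s.hu 0 θ0)]
      exact h1
    refine hx3.trans (mul_le_mul_of_nonneg_left h2 (by linarith only [hpq]))
  have h0 := key ((|(1 - p * q) * X - C| + 1) / (2 + A + p * (2 + B))) (by (clear * - hA; positivity))
  rw [mul_div_cancel₀ _ hA.ne'] at h0
  linarith only [h0, le_abs_self ((1 - p * q) * X - C)]

/-- No solution if the weight in front of `v^p` is too singular at the origin. -/
theorem false_of_singular [CompactSpace K] [Nonempty K] (s : SolI K N p q A B k) (hN : 0 ≤ N)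
    (hp : 0 < p) (hA : 2 + A ≤ 0) : False := by
  have hkk := s.hk
  have hv0 := s.hv0
  obtain ⟨T1, hT1⟩ := s.lv (s.v0 / 2) (by linarith only [hv0])
  set c := k * (s.v0 / 2) ^ p with hc
  have hc0 : 0 < c := mul_pos hkk (Real.rpow_pos_of_pos (by linarith only [hv0]) p)
  set r := c / (4 * (1 + N)) with hr
  have hk0 : 0 < r := by positivity
  obtain ⟨T2, hT2⟩ := s.lu (r / 4) (by linarith only [hk0])
  set T := min (min T1 T2) 0 with hT
  have hTT1 : T ≤ T1 := (min_le_left _ _).trans (min_le_left _ _)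
  have hTT2 : T ≤ T2 := (min_le_left _ _).trans (min_le_right _ _)
  have hTT3 : T ≤ 0 := min_le_right _ _
  obtain ⟨θ0⟩ := ‹Nonempty K›
  have hval : ∀ t ≤ T, ∀ θ, |s.u.f t θ - s.u0| ≤ r / 4 := fun t ht θ => hT2 t (ht.trans hTT2) θ
  have key := (s.u.subConst (s.u0 - r / 2)).local_lower' hN (τ := T - 1) hc0 ?_ ?_ ?_ θ0
  · have h1 := (abs_le.mp (hval (T - 1) (by linarith only []) θ0)).2
    have h2 : (s.u.subConst (s.u0 - r / 2)).f (T - 1) θ0 = s.u.f (T - 1) θ0 - (s.u0 - r / 2) := rfl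
    rw [h2] at key
    linarith only [hk0, key, h1]
  · intro t ht θ
    show s.u.f2 t θ + N * s.u.f1 t θ + s.u.S t θ ≤ -c
    refine (s.eu t θ).trans ?_
    rw [neg_le_neg_iff]
    have ht' : t ≤ T := by linarith only [ht.2]
    have h1 := (abs_le.mp (hT1 t (ht'.trans hTT1) θ)).1
    have h2 : (s.v0 / 2) ^ p ≤ s.v.f t θ ^ p :=
      Real.rpow_le_rpow (by linarith only [hv0]) (by linarith only [h1]) hp.le
    have h3 : 1 ≤ Real.exp ((2 + A) * t) := by
      rw [Real.one_le_exp_iff]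
      exact mul_nonneg_of_nonpos_of_nonpos hA (ht'.trans hTT3)
    have h4 : 0 < (s.v0 / 2) ^ p := Real.rpow_pos_of_pos (by linarith only [hv0]) p
    rw [hc]
    apply mul_le_mul_of_nonneg_left _ hkk.le
    nlinarith only [h2, h4, h3]
  · intro θ
    have h1 := (abs_le.mp (hval (T - 1 - 1) (by linarith only []) θ)).1
    show 0 ≤ s.u.f (T - 1 - 1) θ - (s.u0 - r / 2)
    linarith only [hk0, h1]
  · intro θ
    have h1 := (abs_le.mp (hval (T - 1 + 1) (by linarith only []) θ)).1
    show 0 ≤ s.u.f (T - 1 + 1) θ - (s.u0 - r / 2)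
    linarith only [hk0, h1]

/-- No solution in dimension two (`N = 0`). -/
theorem false_of_N_zero [CompactSpace K] [Nonempty K] (s : SolI K 0 p q A B k) : False := by
  obtain ⟨x, hx1, θ0, hx2⟩ := s.exists_min 0
  set m := Real.exp x with hm
  have hm0 : 0 < m := Real.exp_pos x
  have hL : ∀ t θ, s.u.f2 t θ + s.u.S t θ < 0 := by
    intro t θ
    have := s.sup_u t θ
    linarith only [this]
  have right : ∀ t, 0 ≤ t → ∀ θ, m ≤ s.u.f t θ := by
    intro t ht θ
    have main : ∀ T > t, m - m / T * t ≤ s.u.f t θ := by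
      intro T hT
      have hT0 : 0 < T := by linarith
      refine comparison (w := s.u.f) (w1 := s.u.f1) (w2 := s.u.f2)
        (h := fun r => m - m / T * r) (h1 := fun _ => -(m / T * 1)) (h2 := fun _ => 0)
        (a := 0) (b := T) ?_ ?_ ?_ ?_ ?_ ?_ ?_ ?_ t ⟨ht, hT.le⟩ θ
      · exact (s.u.cf.sub (by fun_prop)).continuousOn
      · intro t _ θ; exact s.u.hf t θ
      · intro t _ θ; exact s.u.hf1 t θ
      · intro t _
        exact ((hasDerivAt_id t).const_mul (m / T)).const_sub m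
      · intro t _; exact hasDerivAt_const t _
      · intro θ; simpa only [mul_zero, sub_zero] using hx1 θ
      · intro θ
        have : m - m / T * T = 0 := by field_simp; ring
        rw [this]; exact (s.hu T θ).le
      · intro t _ θ _ h1 h2 hφ
        have h3 := s.u.hS1 t θ hφ
        have h4 := hL t θ
        linarith only [h2, h3, h4]
    have hlim : Tendsto (fun T : ℝ => m - m / T * t) atTop (𝓝 (m - 0 * t)) := by
      refine tendsto_const_nhds.sub (Tendsto.mul_const t ?_)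
      exact tendsto_const_nhds.div_atTop tendsto_id
    rw [zero_mul, sub_zero] at hlim
    refine le_of_tendsto hlim ?_
    filter_upwards [eventually_gt_atTop t] with T hT
    exact main T hT
  have left : ∀ t, t ≤ 0 → ∀ θ, m ≤ s.u.f t θ := by
    intro t ht θ
    have main : ∀ T > -t, m - m / T * (-t) ≤ s.u.f t θ := by
      intro T hT
      have hT0 : 0 < T := by linarith only [ht, hT]
      refine comparison (w := s.u.f) (w1 := s.u.f1) (w2 := s.u.f2)
        (h := fun r => m - m / T * (-r)) (h1 := fun _ => -(m / T * (-1))) (h2 := fun _ => 0)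
        (a := -T) (b := 0) ?_ ?_ ?_ ?_ ?_ ?_ ?_ ?_ t ⟨by linarith, ht⟩ θ
      · exact (s.u.cf.sub (by fun_prop)).continuousOn
      · intro t _ θ; exact s.u.hf t θ
      · intro t _ θ; exact s.u.hf1 t θ
      · intro t _
        exact ((hasDerivAt_id t).neg.const_mul (m / T)).const_sub m
      · intro t _; exact hasDerivAt_const t _
      · intro θ
        have : m - m / T * (- -T) = 0 := by rw [neg_neg]; field_simp; ring
        rw [this]; exact (s.hu (-T) θ).le
      · intro θ; simpa only [neg_zero, mul_zero, sub_zero] using hx1 θ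
      · intro t _ θ _ h1 h2 hφ
        have h3 := s.u.hS1 t θ hφ
        have h4 := hL t θ
        linarith only [h2, h3, h4]
    have hlim : Tendsto (fun T : ℝ => m - m / T * (-t)) atTop (𝓝 (m - 0 * (-t))) := by
      refine tendsto_const_nhds.sub (Tendsto.mul_const (-t) ?_)
      exact tendsto_const_nhds.div_atTop tendsto_id
    rw [zero_mul, sub_zero] at hlim
    refine le_of_tendsto hlim ?_
    filter_upwards [eventually_gt_atTop (-t)] with T hT
    exact main T hT
  have hmin : IsLocalMin (fun r => s.u.f r θ0) 0 := by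
    apply Filter.Eventually.of_forall
    intro r
    show s.u.f 0 θ0 ≤ s.u.f r θ0
    rw [hx2]
    rcases le_total 0 r with h | h
    · exact right r h θ0
    · exact left r h θ0
  have h2 := (second_deriv_nonneg (f := fun r => s.u.f r θ0) (f1 := fun r => s.u.f1 r θ0)
    (Filter.Eventually.of_forall (fun r => s.u.hf r θ0)) (s.u.hf1 0 θ0) hmin).2
  have h3 := s.u.hS1 0 θ0 (by intro φ; rw [hx2]; exact hx1 φ)
  have h4 := hL 0 θ0
  linarith only [h2, h3, h4]

end SolI

lemma toSolI_aux {n : ℕ} {p A c c' : ℝ} (hc' : c' ≤ c)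
    {K u v : EuclideanSpace ℝ (Fin n) → ℝ} (hu : ContDiffOn ℝ 2 u {0}ᶜ) (hv : ∀ x, 0 < v x)
    (hK : ∀ x, x ≠ 0 → c * ‖x‖ ^ A ≤ K x)
    (he : ∀ x, x ≠ 0 → -(Laplacian.laplacian u x) = K x * v x ^ p)
    (t : ℝ) (θ : Metric.sphere (0 : EuclideanSpace ℝ (Fin n)) 1) :
    (toCyl u hu).f2 t θ + ((n : ℝ) - 2) * (toCyl u hu).f1 t θ + (toCyl u hu).S t θ ≤
      -(c' * (Real.exp ((2 + A) * t) * v (Real.exp t • (θ : EuclideanSpace ℝ (Fin n))) ^ p)) := by
  have h1 := toCyl_eq u hu t θ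
  rw [finrank_euclideanSpace_fin] at h1
  rw [h1]
  have hx := expsmul_ne_zero t θ
  have h2 := he (Real.exp t • (θ : EuclideanSpace ℝ (Fin n))) hx
  have h3 := hK (Real.exp t • (θ : EuclideanSpace ℝ (Fin n))) hx
  rw [norm_expsmul, ← Real.exp_mul] at h3
  have h4 : 0 < v (Real.exp t • (θ : EuclideanSpace ℝ (Fin n))) ^ p :=
    Real.rpow_pos_of_pos (hv _) p
  have h5 : c' * Real.exp (t * A) ≤ K (Real.exp t • (θ : EuclideanSpace ℝ (Fin n))) :=
    (mul_le_mul_of_nonneg_right hc' (Real.exp_pos _).le).trans h3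
  have h6 := mul_le_mul_of_nonneg_right h5 h4.le
  have h7 : Real.exp ((2 + A) * t) = Real.exp (2 * t) * Real.exp (t * A) := by
    rw [← Real.exp_add]; congr 1; ring
  have h8 := mul_le_mul_of_nonneg_left h6 (Real.exp_pos (2 * t)).le
  rw [h7]
  show Real.exp (2 * t) * _ ≤ _
  linarith only [h8, h2, congrArg (fun z => Real.exp (2 * t) * z) h2]

/-- A positive entire solution on `ℝ^n` gives a supersolution on the cylinder. -/
theorem toSolI {n : ℕ} {p q A B : ℝ} {K L u v : EuclideanSpace ℝ (Fin n) → ℝ}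
    (hK : IsWeight n A K) (hL : IsWeight n B L) (h : IsPositiveEntireSolutionW n p q K L u v) :
    ∃ k : ℝ, Nonempty
      (SolI (Metric.sphere (0 : EuclideanSpace ℝ (Fin n)) 1) ((n : ℝ) - 2) p q A B k) := by
  obtain ⟨c1, C1, hc1, h1⟩ := hK.comparable
  obtain ⟨c2, C2, hc2, h2⟩ := hL.comparable
  have lim : ∀ {w : EuclideanSpace ℝ (Fin n) → ℝ}, Continuous w → ∀ ε > 0, ∃ T, ∀ t ≤ T,
      ∀ θ : Metric.sphere (0 : EuclideanSpace ℝ (Fin n)) 1,
      |w (Real.exp t • (θ : EuclideanSpace ℝ (Fin n))) - w 0| ≤ ε := by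
    intro w hw ε hε
    obtain ⟨δ, hδ, hd⟩ := Metric.continuousAt_iff.mp (hw.continuousAt (x := 0)) ε hε
    refine ⟨Real.log (δ / 2), fun t ht θ => ?_⟩
    have h1 : dist (Real.exp t • (θ : EuclideanSpace ℝ (Fin n))) 0 < δ := by
      rw [dist_zero_right, norm_expsmul]
      have : Real.exp t ≤ δ / 2 := by
        rw [← Real.le_log_iff_exp_le (by positivity)]; exact ht
      linarith
    exact (hd h1).le
  refine ⟨min c1 c2, ⟨{
    u := toCyl u h.contDiffOn_u
    v := toCyl v h.contDiffOn_v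
    hk := lt_min hc1 hc2
    hu := fun t θ => h.pos_u _
    hv := fun t θ => h.pos_v _
    eu := fun t θ => toSolI_aux (min_le_left _ _) h.contDiffOn_u h.pos_v (fun x hx => (h1 x hx).1)
      h.eq_u t θ
    ev := fun t θ => toSolI_aux (min_le_right _ _) h.contDiffOn_v h.pos_u (fun x hx => (h2 x hx).1)
      h.eq_v t θ
    u0 := u 0
    v0 := v 0
    hu0 := h.pos_u 0
    hv0 := h.pos_v 0
    lu := fun ε hε => lim h.continuous_u ε hε
    lv := fun ε hε => lim h.continuous_v ε hε }⟩⟩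

/-- Elementary cases of nonexistence with weights. -/
theorem no_solutionW_elem {n : ℕ} (hn : 2 ≤ n) {p q A B : ℝ} (hp : 0 < p) (hq : 0 < q)
    {K L : EuclideanSpace ℝ (Fin n) → ℝ} (hK : IsWeight n A K) (hL : IsWeight n B L)
    (h : A ≤ -2 ∨ B ≤ -2 ∨ n = 2 ∨ p * q ≤ 1) :
    ¬ ∃ u v : EuclideanSpace ℝ (Fin n) → ℝ, IsPositiveEntireSolutionW n p q K L u v := by
  rintro ⟨u, v, hs⟩
  have := sphere_nonempty (n := n) (by omega)
  obtain ⟨k, ⟨s⟩⟩ := toSolI hK hL hs
  have hn2 : (2 : ℝ) ≤ n := by exact_mod_cast hn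
  rcases le_or_gt A (-2) with hA | hA
  · exact s.false_of_singular (by linarith only [hn2]) hp (by linarith only [hA])
  rcases le_or_gt B (-2) with hB | hB
  · exact s.swap.false_of_singular (by linarith only [hn2]) hq (by linarith only [hB])
  rcases eq_or_lt_of_le hn2 with h2 | h2
  · rw [← h2, sub_self] at s
    exact s.false_of_N_zero
  rcases h with h | h | h | h
  · linarith only [hA, h]
  · linarith only [hB, h]
  · subst h
    norm_num at h2
  · have : 0 < p * (2 + B) := mul_pos hp (by linarith only [hB])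
    exact s.false_of_sublinear (by linarith only [h2]) hp hq h (by linarith only [hA, this])

end Vale.Agent.P100
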