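import Mathlib
import Vale.Agent.P100.H20.Core4
import Vale.Agent.P100.H20.Cyl

set_option linter.all false

/-!
The nonexistence theorem for the system with general weights.
-/

open MeasureTheory Set Filter Topology Real Function

namespace Vale.Agent.P100.H20

open Vale.Agent.P100.RM

noncomputable section

variable {n : ℕ}

/-- Common explicit constants. -/
lemma exists_wt {A B : ℝ} {K L : E n → ℝ} (hK : IsWeight n A K) (hL : IsWeight n B L) :
    ∃ c C M : ℝ, Wt n A c C M K ∧ Wt n B c C M L := by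
  obtain ⟨c1, C1, hc1, h1⟩ := hK.comparable
  obtain ⟨M1, g1⟩ := hK.growth
  obtain ⟨c2, C2, hc2, h2⟩ := hL.comparable
  obtain ⟨M2, g2⟩ := hL.growth
  have w1 : Wt n A c1 C1 M1 K := ⟨hc1, hK.continuousOn, fun x hx => (h1 x hx).1,
    fun x hx => (h1 x hx).2, fun x hx t ht => (g1 x hx t ht).1, fun x hx t ht => (g1 x hx t ht).2⟩
  have w2 : Wt n B c2 C2 M2 L := ⟨hc2, hL.continuousOn, fun x hx => (h2 x hx).1,
    fun x hx => (h2 x hx).2, fun x hx t ht => (g2 x hx t ht).1, fun x hx t ht => (g2 x hx t ht).2⟩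
  exact ⟨min c1 c2, max C1 C2, max M1 M2,
    w1.mono (lt_min hc1 hc2) (min_le_left _ _) (le_max_left _ _) (le_max_left _ _),
    w2.mono (lt_min hc1 hc2) (min_le_right _ _) (le_max_right _ _) (le_max_right _ _)⟩

/-- **Nonexistence for general weights.** -/
theorem no_solutionW_all (hn : 2 ≤ n) {p q A B : ℝ} (hp : 0 < p) (hq : 0 < q)
    (h : (n : ℝ) - 2 < ((n : ℝ) + A) / (p + 1) + ((n : ℝ) + B) / (q + 1) ∨ A ≤ -2 ∨ B ≤ -2)
    {K L : EuclideanSpace ℝ (Fin n) → ℝ} (hK : IsWeight n A K) (hL : IsWeight n B L) :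
    ¬ ∃ u v : EuclideanSpace ℝ (Fin n) → ℝ, IsPositiveEntireSolutionW n p q K L u v := by
  by_cases he : A ≤ -2 ∨ B ≤ -2 ∨ n = 2 ∨ p * q ≤ 1
  · exact no_solutionW_elem hn hp hq hK hL he
  push Not at he
  obtain ⟨hA, hB, hn2, hpq⟩ := he
  rintro ⟨u, v, hs⟩
  obtain ⟨c, C, M, wK, wL⟩ := exists_wt hK hL
  have hn3 : 3 ≤ n := by omega
  rcases h with h | h | h
  · exact no_solution_rmW hn3 hp hq hpq hA hB h (⟨wK, wL, hs⟩ : SW n p q A B c C M K L u v)
  · linarith only [hA, h]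
  · linarith only [hB, h]

/-- Positive continuous homogeneous functions are weights. -/
theorem isWeight_of_homogeneous {A : ℝ} {K : E n → ℝ} (hc : ContinuousOn K {0}ᶜ)
    (hpos : ∀ x, x ≠ 0 → 0 < K x)
    (hom : ∀ x, x ≠ 0 → ∀ t : ℝ, 0 < t → K (t • x) = t ^ A * K x) : IsWeight n A K := by
  refine ⟨hc, ?_, A, fun x hx t ht => ?_⟩
  · rcases isEmpty_or_nonempty (Sph n) with hE | hE
    · refine ⟨1, 1, one_pos, fun x hx => ?_⟩
      have hx0 : ‖x‖ ≠ 0 := norm_ne_zero_iff.2 hx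
      exact (hE.false ⟨‖x‖⁻¹ • x, by
        rw [mem_sphere_zero_iff_norm, norm_smul, norm_inv, norm_norm, inv_mul_cancel₀ hx0]⟩).elim
    · have cS : Continuous fun θ : Sph n => K (θ : E n) :=
        hc.comp_continuous continuous_subtype_val fun θ => Wt.sph_ne θ
      obtain ⟨θ1, -, h1⟩ := (isCompact_univ (X := Sph n)).exists_isMinOn univ_nonempty
        cS.continuousOn
      obtain ⟨θ2, -, h2⟩ := (isCompact_univ (X := Sph n)).exists_isMaxOn univ_nonempty
        cS.continuousOn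
      refine ⟨K (θ1 : E n), K (θ2 : E n), hpos _ (Wt.sph_ne θ1), fun x hx => ?_⟩
      have hx0 : 0 < ‖x‖ := norm_pos_iff.2 hx
      have hy : ‖‖x‖⁻¹ • x‖ = 1 := by
        rw [norm_smul, norm_inv, norm_norm, inv_mul_cancel₀ hx0.ne']
      have hyS : ‖x‖⁻¹ • x ∈ Metric.sphere (0 : E n) 1 := by
        rw [mem_sphere_zero_iff_norm, hy]
      have hy0 : ‖x‖⁻¹ • x ≠ 0 := smul_ne_zero (inv_ne_zero hx0.ne') hx
      have e : K x = ‖x‖ ^ A * K (‖x‖⁻¹ • x) := by
        have := hom _ hy0 ‖x‖ hx0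
        rwa [smul_smul, mul_inv_cancel₀ hx0.ne', one_smul] at this
      have f1 : K (θ1 : E n) ≤ K (‖x‖⁻¹ • x) := h1 (mem_univ (⟨_, hyS⟩ : Sph n))
      have f2 : K (‖x‖⁻¹ • x) ≤ K (θ2 : E n) := h2 (mem_univ (⟨_, hyS⟩ : Sph n))
      have hA : 0 ≤ ‖x‖ ^ A := (rpow_pos_of_pos hx0 _).le
      rw [e]
      exact ⟨by rw [mul_comm]; exact mul_le_mul_of_nonneg_left f1 hA,
        by rw [mul_comm (K (θ2 : E n))]; exact mul_le_mul_of_nonneg_left f2 hA⟩
  · have := hom x hx t (lt_of_lt_of_le one_pos ht)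
    rw [this]
    exact ⟨le_rfl, le_rfl⟩

/-- The power `|x|^A` is a weight. -/
theorem isWeight_rpow (A : ℝ) : IsWeight n A (fun x => ‖x‖ ^ A) := by
  apply isWeight_of_homogeneous
  · exact continuous_norm.continuousOn.rpow_const fun x hx => Or.inl (norm_ne_zero_iff.2 hx)
  · exact fun x hx => rpow_pos_of_pos (norm_pos_iff.2 hx) _
  · intro x hx t ht
    rw [norm_smul, Real.norm_of_nonneg ht.le, mul_rpow ht.le (norm_nonneg _)]

end

end Vale.Agent.P100.H20
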