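import Mathlib
import Vale.Agent.P100.H20.G1

set_option linter.all false

/-!
The limit inequality and the local estimate in normalized form.
-/

open MeasureTheory Set Filter Topology Real

namespace Vale.Agent.P100.H20

open Vale.Agent.P100.RM

noncomputable section

variable {n : ℕ}

/-- The inequality with the weight frozen. -/
theorem cy_subL {p A c C M T : ℝ} {K u v : E n → ℝ} (w : Wl n A c C M K)
    (hu : ContDiffOn ℝ 2 u {0}ᶜ) (pv : ∀ x, 0 < v x)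
    (he : ∀ x, x ≠ 0 → -(Laplacian.laplacian u x) = K x * v x ^ p)
    (s : ℝ) (hsT : |s| ≤ T) (θ : Sph n) :
    cy2 (((n : ℝ) - 2) / 2) u s θ + cyS (((n : ℝ) - 2) / 2) u s θ
      - ((((n : ℝ) - 2) / 2) ^ 2) * cy0 (((n : ℝ) - 2) / 2) u s θ
      + (exp (-((|((n : ℝ) - 2) / 2 + 2 - p * (((n : ℝ) - 2) / 2)| + (|A| + |M|)) * T)) *
        K (θ : E n)) * (cy0 (((n : ℝ) - 2) / 2) v s θ) ^ p ≤ 0 := by
  have h := cy_eqW hu pv he (((n : ℝ) - 2) / 2) (((n : ℝ) - 2) / 2) s θ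
  set k : ℝ := ((n : ℝ) - 2) / 2 + 2 - p * (((n : ℝ) - 2) / 2) with hk
  have hAM : 0 ≤ |A| + |M| := add_nonneg (abs_nonneg _) (abs_nonneg _)
  have h1 : exp (-((|k| + (|A| + |M|)) * T)) ≤ exp (k * s) * exp (-((|A| + |M|) * |s|)) := by
    rw [← exp_add]
    apply exp_le_exp.2
    have h2 : |k * s| ≤ |k| * T := by
      rw [abs_mul]; exact mul_le_mul_of_nonneg_left hsT (abs_nonneg _)
    have h3 := (abs_le.1 h2).1
    have h4 := mul_le_mul_of_nonneg_left hsT hAM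
    linarith only [h3, h4]
  have hK := (w.pos (Wt.sph_ne θ)).le
  have h2 : exp (-((|k| + (|A| + |M|)) * T)) * K (θ : E n) ≤
      exp (k * s) * K (exp s • (θ : E n)) := by
    calc exp (-((|k| + (|A| + |M|)) * T)) * K (θ : E n)
        ≤ (exp (k * s) * exp (-((|A| + |M|) * |s|))) * K (θ : E n) :=
          mul_le_mul_of_nonneg_right h1 hK
      _ = exp (k * s) * (exp (-((|A| + |M|) * |s|)) * K (θ : E n)) := by ring
      _ ≤ _ := mul_le_mul_of_nonneg_left (w.low θ s) (exp_pos _).le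
  have h3 : 0 ≤ (cy0 (((n : ℝ) - 2) / 2) v s θ) ^ p :=
    (rpow_pos_of_pos (cy0_pos pv _ _ _) _).le
  have h4 := mul_le_mul_of_nonneg_right h2 h3
  have h5 : (n : ℝ) - 2 - 2 * (((n : ℝ) - 2) / 2) = 0 := by ring
  have h6 : ((n : ℝ) - 2) / 2 * ((n : ℝ) - 2 - ((n : ℝ) - 2) / 2) = (((n : ℝ) - 2) / 2) ^ 2 := by
    ring
  rw [h5, h6, zero_mul, add_zero] at h
  linarith only [h, h4]

theorem lim_ineqL (hn : 3 ≤ n) {p q A B c C M : ℝ} (hp : 0 < p) (hq : 0 < q) (hpq : 1 ≤ p * q) :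
    ∃ C0 T0 : ℝ, 0 < C0 ∧ 0 < T0 ∧
    ∀ K L u v : E n → ℝ, SL n p q A B c C M K L u v → ∀ T : ℝ, 0 < T → T ≤ T0 →
    ∀ G : Sph n → ℝ, (∀ θ, 0 ≤ G θ) → Integrable (fun θ => G θ * v (θ : E n)) (sg n) →
      (∀ᵐ θ ∂(sg n), ∀ s, |s| ≤ T → cy0 (((n : ℝ) - 2) / 2) u s θ ≤ cy0 (((n : ℝ) - 2) / 2) u 0 θ →
        |cy1 (((n : ℝ) - 2) / 2) u s θ| ≤ G θ) →
      HamW n p q 0 K L u v ≤ C0 / T * ∫ θ, G θ * v (θ : E n) ∂(sg n) +
        C0 / T ^ 2 * ∫ θ : Sph n, u (θ : E n) * v (θ : E n) ∂(sg n) + C0 * T * En n p q u v := by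
  set c' : ℝ := ((n : ℝ) - 2) / 2 with hc
  set k1 : ℝ := |c' + 2 - p * c'| + (|A| + |M|) with hk1
  set k2 : ℝ := |c' + 2 - q * c'| + (|B| + |M|) with hk2
  have hk1' : 0 ≤ k1 := by rw [hk1]; positivity
  have hk2' : 0 ≤ k2 := by rw [hk2]; positivity
  have hCa : 0 ≤ |C| := abs_nonneg C
  have hp1 : 0 < p + 1 := by linarith only [hp]
  have hq1 : 0 < q + 1 := by linarith only [hq]
  refine ⟨4 + (k1 + k2) * |C|, 1, by (clear * - hk1' hk2' hCa; positivity), one_pos, ?_⟩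
  intro K L u v hs T hT hT1 G hG0 hGv hG
  have hsig : 1 / (p + 1) + 1 / (q + 1) ≤ 1 := by
    rw [div_add_div _ _ hp1.ne' hq1.ne', div_le_one (by positivity)]
    nlinarith only [hpq]
  have hu := hs.sol.contDiffOn_u
  have hv := hs.sol.contDiffOn_v
  have pu := hs.sol.pos_u
  have pv := hs.sol.pos_v
  -- `G` is integrable
  have cu : Continuous fun θ : Sph n => u (θ : E n) := hs.sol.continuous_u.comp continuous_subtype_val
  have cv : Continuous fun θ : Sph n => v (θ : E n) := hs.sol.continuous_v.comp continuous_subtype_val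
  have cK := hs.wK.sph_cont
  have cL := hs.wL.sph_cont
  have hGi : Integrable G (sg n) := by
    have cinv : Continuous fun θ : Sph n => (v (θ : E n))⁻¹ := cv.inv₀ fun θ => (pv _).ne'
    obtain ⟨M, hM⟩ := (isCompact_univ (X := Sph n)).bddAbove_image cinv.abs.continuousOn
    have h1 := hGv.bdd_mul (c := M) cinv.aestronglyMeasurable
      (Eventually.of_forall fun θ => by
        rw [Real.norm_eq_abs]; exact hM ⟨θ, mem_univ _, rfl⟩)
    refine h1.congr (Eventually.of_forall fun θ => ?_)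
    have := (pv (θ : E n)).ne'
    field_simp
  have hle1 : ∀ {k x : ℝ}, 0 ≤ k → 0 ≤ x → x ≤ C → exp (-(k * T)) * x ≤ |C| := by
    intro k x hk hx hxC
    have h1 : exp (-(k * T)) ≤ 1 := exp_le_one_iff.2 (by
      have := mul_nonneg hk hT.le
      linarith only [this])
    calc exp (-(k * T)) * x ≤ 1 * x := mul_le_mul_of_nonneg_right h1 hx
      _ = x := one_mul x
      _ ≤ |C| := hxC.trans (le_abs_self _)
  have key := lim_absW (σ := sg n) (lam := c' ^ 2) (abar := |C|)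
    (a := ⟨fun θ => exp (-(k1 * T)) * K (θ : E n), continuous_const.mul cK⟩)
    (b := ⟨fun θ => exp (-(k2 * T)) * L (θ : E n), continuous_const.mul cL⟩)
    (p := p) (q := q) (T := T) hT (by (clear * -; positivity))
    (fun θ => mul_nonneg (exp_pos _).le (hs.wK.pos (Wt.sph_ne θ)).le)
    (fun θ => mul_nonneg (exp_pos _).le (hs.wL.pos (Wt.sph_ne θ)).le)
    (fun θ => hle1 hk1' (hs.wK.pos (Wt.sph_ne θ)).le (hs.wK.sph_hi θ))
    (fun θ => hle1 hk2' (hs.wL.pos (Wt.sph_ne θ)).le (hs.wL.sph_hi θ)) hCa hp hq hsig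
    (R := rotS n) (fun ε k => continuous_rotS ε k) (fun c ε F G hF hG => Lsym c ε hF hG)
    (X := cy0 c' u) (X1 := cy1 c' u) (X2 := cy2 c' u) (SX := cyS c' u)
    (Y := cy0 c' v) (Y1 := cy1 c' v) (Y2 := cy2 c' v) (SY := cyS c' v)
    (continuous_cy0 hu c') (continuous_cy1 hu c') (continuous_cy2 hu c') (continuous_cyS hu c')
    (continuous_cy0 hv c') (continuous_cy1 hv c') (continuous_cy2 hv c') (continuous_cyS hv c')
    (fun s θ => hasDerivAt_cy0 hu c' s θ) (fun s θ => hasDerivAt_cy1 hu c' s θ)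
    (fun s θ => hasDerivAt_cy0 hv c' s θ) (fun s θ => hasDerivAt_cy1 hv c' s θ)
    (fun s θ => cy0_pos pu c' s θ) (fun s θ => cy0_pos pv c' s θ)
    (Lop_unif hu c' T) (Lop_unif hv c' T)
    (fun s θ hsT => cy_subL hs.wK hu pv hs.sol.eq_u s hsT θ)
    (fun s θ hsT => cy_subL hs.wL hv pu hs.sol.eq_v s hsT θ)
    hG0 hGi hG
  simp only [cy0_zero, ContinuousMap.coe_mk] at key
  -- the Hamiltonian
  have i1 : Integrable (fun θ : Sph n => cy1 c' u 0 θ * cy1 c' v 0 θ) (sg n) :=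
    int_cont _ (((continuous_cy1 hu c').comp (Continuous.prodMk_right _)).mul
      ((continuous_cy1 hv c').comp (Continuous.prodMk_right _)))
  have i2 : Integrable (fun θ : Sph n => cyS c' u 0 θ * v (θ : E n)) (sg n) :=
    int_cont _ (((continuous_cyS hu c').comp (Continuous.prodMk_right _)).mul cv)
  have i3 : Integrable (fun θ : Sph n => u (θ : E n) * v (θ : E n)) (sg n) :=
    int_cont _ (cu.mul cv)
  have i4 : Integrable (fun θ : Sph n => v (θ : E n) ^ (p + 1)) (sg n) :=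
    int_cont _ (cv.rpow_const fun _ => Or.inr hp1.le)
  have i5 : Integrable (fun θ : Sph n => u (θ : E n) ^ (q + 1)) (sg n) :=
    int_cont _ (cu.rpow_const fun _ => Or.inr hq1.le)
  have i6 : Integrable (fun θ : Sph n => K (θ : E n) * v (θ : E n) ^ (p + 1)) (sg n) :=
    int_cont _ (cK.mul (cv.rpow_const fun _ => Or.inr hp1.le))
  have i7 : Integrable (fun θ : Sph n => L (θ : E n) * u (θ : E n) ^ (q + 1)) (sg n) :=
    int_cont _ (cL.mul (cu.rpow_const fun _ => Or.inr hq1.le))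
  have hHam : HamW n p q 0 K L u v = ∫ θ, cy1 c' u 0 θ * cy1 c' v 0 θ ∂(sg n)
      + ∫ θ : Sph n, cyS c' u 0 θ * v (θ : E n) ∂(sg n)
      - c' ^ 2 * ∫ θ : Sph n, u (θ : E n) * v (θ : E n) ∂(sg n)
      + 1 / (p + 1) * ∫ θ : Sph n, K (θ : E n) * v (θ : E n) ^ (p + 1) ∂(sg n)
      + 1 / (q + 1) * ∫ θ : Sph n, L (θ : E n) * u (θ : E n) ^ (q + 1) ∂(sg n) := by
    rw [← int5 (c' ^ 2) (1 / (p + 1)) (1 / (q + 1)) i1 i2 i3 i6 i7]
    unfold HamW
    refine integral_congr_ae (Eventually.of_forall fun θ => ?_)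
    simp only [add_zero, sub_zero, cy0_zero, ← hc]
    ring
  have hEn : En n p q u v = ∫ θ : Sph n, v (θ : E n) ^ (p + 1) ∂(sg n)
      + ∫ θ : Sph n, u (θ : E n) ^ (q + 1) ∂(sg n) := by
    rw [En, integral_add i4 i5]
  have j4 : 0 ≤ ∫ θ : Sph n, v (θ : E n) ^ (p + 1) ∂(sg n) :=
    integral_nonneg fun θ => (rpow_pos_of_pos (pv _) _).le
  have j5 : 0 ≤ ∫ θ : Sph n, u (θ : E n) ^ (q + 1) ∂(sg n) :=
    integral_nonneg fun θ => (rpow_pos_of_pos (pu _) _).le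
  have j6 : 0 ≤ ∫ θ : Sph n, K (θ : E n) * v (θ : E n) ^ (p + 1) ∂(sg n) :=
    integral_nonneg fun θ => mul_nonneg (hs.wK.pos (Wt.sph_ne θ)).le (rpow_pos_of_pos (pv _) _).le
  have j7 : 0 ≤ ∫ θ : Sph n, L (θ : E n) * u (θ : E n) ^ (q + 1) ∂(sg n) :=
    integral_nonneg fun θ => mul_nonneg (hs.wL.pos (Wt.sph_ne θ)).le (rpow_pos_of_pos (pu _) _).le
  have l6 : ∫ θ : Sph n, K (θ : E n) * v (θ : E n) ^ (p + 1) ∂(sg n) ≤
      |C| * ∫ θ : Sph n, v (θ : E n) ^ (p + 1) ∂(sg n) := by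
    rw [← integral_const_mul]
    exact integral_mono i6 (i4.const_mul _) fun θ => mul_le_mul_of_nonneg_right
      ((hs.wK.sph_hi θ).trans (le_abs_self _)) (rpow_pos_of_pos (pv _) _).le
  have l7 : ∫ θ : Sph n, L (θ : E n) * u (θ : E n) ^ (q + 1) ∂(sg n) ≤
      |C| * ∫ θ : Sph n, u (θ : E n) ^ (q + 1) ∂(sg n) := by
    rw [← integral_const_mul]
    exact integral_mono i7 (i5.const_mul _) fun θ => mul_le_mul_of_nonneg_right
      ((hs.wL.sph_hi θ).trans (le_abs_self _)) (rpow_pos_of_pos (pu _) _).le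
  have j3 : 0 ≤ ∫ θ : Sph n, u (θ : E n) * v (θ : E n) ∂(sg n) :=
    integral_nonneg fun θ => mul_nonneg (pu _).le (pv _).le
  have j0 : 0 ≤ ∫ θ : Sph n, G θ * v (θ : E n) ∂(sg n) :=
    integral_nonneg fun θ => mul_nonneg (hG0 θ) (pv _).le
  have hcomm : ∫ θ : Sph n, v (θ : E n) * u (θ : E n) ∂(sg n) =
      ∫ θ : Sph n, u (θ : E n) * v (θ : E n) ∂(sg n) := by
    simp_rw [mul_comm]
  have hpull1 : ∫ θ : Sph n, exp (-(k1 * T)) * K (θ : E n) * v (θ : E n) ^ (p + 1) ∂(sg n) =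
      exp (-(k1 * T)) * ∫ θ : Sph n, K (θ : E n) * v (θ : E n) ^ (p + 1) ∂(sg n) := by
    rw [← integral_const_mul]
    exact integral_congr_ae (Eventually.of_forall fun θ => by ring)
  have hpull2 : ∫ θ : Sph n, exp (-(k2 * T)) * L (θ : E n) * u (θ : E n) ^ (q + 1) ∂(sg n) =
      exp (-(k2 * T)) * ∫ θ : Sph n, L (θ : E n) * u (θ : E n) ^ (q + 1) ∂(sg n) := by
    rw [← integral_const_mul]
    exact integral_congr_ae (Eventually.of_forall fun θ => by ring)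
  rw [hcomm, hpull1, hpull2] at key
  rw [hHam, hEn]
  generalize ∫ θ, cy1 c' u 0 θ * cy1 c' v 0 θ ∂(sg n) = I1 at key ⊢
  generalize ∫ θ : Sph n, cyS c' u 0 θ * v (θ : E n) ∂(sg n) = I2 at key ⊢
  generalize ∫ θ : Sph n, u (θ : E n) * v (θ : E n) ∂(sg n) = I3 at key j3 ⊢
  generalize ∫ θ : Sph n, K (θ : E n) * v (θ : E n) ^ (p + 1) ∂(sg n) = I6 at key j6 l6 ⊢
  generalize ∫ θ : Sph n, L (θ : E n) * u (θ : E n) ^ (q + 1) ∂(sg n) = I7 at key j7 l7 ⊢
  generalize ∫ θ : Sph n, v (θ : E n) ^ (p + 1) ∂(sg n) = I4 at j4 l6 ⊢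
  generalize ∫ θ : Sph n, u (θ : E n) ^ (q + 1) ∂(sg n) = I5 at j5 l7 ⊢
  generalize ∫ θ : Sph n, G θ * v (θ : E n) ∂(sg n) = I0 at key j0 ⊢
  have ex : ∀ k : ℝ, 1 - exp (-(k * T)) ≤ k * T := fun k => by
    have := add_one_le_exp (-(k * T)); linarith only [this]
  have fr : ∀ {r k I : ℝ}, 0 < r → 0 ≤ k → 0 ≤ I → 1 / (r + 1) * I ≤
      1 / (r + 1) * (exp (-(k * T)) * I) + k * T * I := by
    intro r k I hr hk hI
    have h1 : (1 - exp (-(k * T))) / (r + 1) ≤ k * T := by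
      rw [div_le_iff₀ (by linarith only [hr])]
      have h2 := ex k
      have h3 : 0 ≤ k * T := mul_nonneg hk hT.le
      nlinarith only [h2, hr, h3]
    have h4 := mul_le_mul_of_nonneg_right h1 hI
    have h5 : (1 - exp (-(k * T))) / (r + 1) * I =
      1 / (r + 1) * I - 1 / (r + 1) * (exp (-(k * T)) * I) := by ring
    linarith only [h4, h5]
  have f4 := fr (k := k1) hp hk1' j6
  have f5 := fr (k := k2) hq hk2' j7
  have key2 : I1 + I2 - c' ^ 2 * I3 + 1 / (p + 1) * (exp (-(k1 * T)) * I6)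
      + 1 / (q + 1) * (exp (-(k2 * T)) * I7) ≤ 4 / T * I0 + 2 / T ^ 2 * I3 := by
    have h2T : 0 < T / 2 := by positivity
    have h1 : T / 2 * (4 / T * I0 + 2 / T ^ 2 * I3) = 2 * I0 + 1 / T * I3 := by
      field_simp
      ring
    rw [← h1] at key
    exact le_of_mul_le_mul_left key h2T
  have hkk : 0 ≤ (k1 + k2) * |C| := mul_nonneg (add_nonneg hk1' hk2') hCa
  have g0 : 4 / T * I0 ≤ (4 + (k1 + k2) * |C|) / T * I0 := by gcongr; linarith only [hkk]
  have g3 : 2 / T ^ 2 * I3 ≤ (4 + (k1 + k2) * |C|) / T ^ 2 * I3 := by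
    gcongr; linarith only [hkk]
  have g4 : k1 * T * I6 + k2 * T * I7 ≤ (4 + (k1 + k2) * |C|) * T * (I4 + I5) := by
    have a1 : k1 * T * I6 ≤ k1 * T * (|C| * I4) :=
      mul_le_mul_of_nonneg_left l6 (mul_nonneg hk1' hT.le)
    have a2 : k2 * T * I7 ≤ k2 * T * (|C| * I5) :=
      mul_le_mul_of_nonneg_left l7 (mul_nonneg hk2' hT.le)
    have b1 : 0 ≤ k1 * T * (|C| * I5) := by positivity
    have b2 : 0 ≤ k2 * T * (|C| * I4) := by positivity
    have b3 : 0 ≤ 4 * T * (I4 + I5) := by positivity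
    linarith only [a1, a2, b1, b2, b3]
  linarith only [f4, f5, key2, g0, g3, g4]

theorem locL (hn : 3 ≤ n) {p q A B c C M : ℝ} (hp : 0 < p) (hq : 0 < q) (hpq : 1 < p * q)
    (α β d : ℝ) : ∃ C' k T0 : ℝ, 0 < C' ∧ 0 < k ∧ 0 < T0 ∧
    ∀ K L u v : E n → ℝ, SL n p q A B c C M K L u v → ∀ T : ℝ, 0 < T → T ≤ T0 →
      HamW n p q d K L u v ≤ C' * T * (En n p q u v +
        ∫ s in (-(2 * T))..(2 * T), En n p q (scl α s u) (scl β s v)) + C' * T ^ (-k) := by
  obtain ⟨C1, T1, hC1, hT1, H1⟩ := lim_ineqL (n := n) hn hp hq hpq.le (A := A) (B := B)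
    (c := c) (C := C) (M := M)
  obtain ⟨CgA, hCgA, hgrA⟩ := grad_boundL (n := n) hn (|C| * 2 ^ (|A| + |M|))
  obtain ⟨CgB, hCgB, hgrB⟩ := grad_boundL (n := n) hn (|C| * 2 ^ (|B| + |M|))
  obtain ⟨C2, κ2, T2, hC2, hκ2, hT2, H2⟩ := line_boundL (n := n) hn hCgA (A := A) hp hq α β
  obtain ⟨C3, κ3, T3, hC3, hκ3, hT3, H3⟩ := line_boundL (n := n) hn hCgB (A := B) hq hp β α
  set κ := min κ2 κ3 with hκdef
  have hκ : 0 < κ := lt_min hκ2 hκ3
  set m : ℝ := max 1 (2 / κ) with hm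
  have hm1 : 1 ≤ m := le_max_left _ _
  have hmκ : 2 ≤ m * κ := by
    have : 2 / κ ≤ m := le_max_right _ _
    rwa [div_le_iff₀ hκ] at this
  set k1 : ℝ := (1 / (p + 1) + 1 / (q + 1)) / (1 - (1 / (p + 1) + 1 / (q + 1))) with hk1
  have hp1 : 0 < p + 1 := by linarith only [hp]
  have hq1 : 0 < q + 1 := by linarith only [hq]
  have hσ1 : (1 / (p + 1) + 1 / (q + 1)) < 1 := by
    rw [div_add_div _ _ hp1.ne' hq1.ne', div_lt_one (by positivity)]
    nlinarith only [hpq]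
  have hk1pos : 0 < k1 := div_pos (by positivity) (by linarith only [hσ1])
  set C0 : ℝ := C1 + C1 * C2 + |d| * (C2 + C3) with hC0
  have hC0pos : 0 < C0 := by (clear * - hC1 hC2 hC3; positivity)
  set V : ℝ := (sg n).real univ with hV
  have hV0 : 0 ≤ V := measureReal_nonneg
  refine ⟨4 * C0 * (1 + V), 1 + m + (m + 2) * k1, min (min T1 T2) (min T3 1), by (clear * - hC1 hC2 hC3; positivity),
    by positivity, by (clear * - hT1 hT2 hT3; positivity), ?_⟩
  intro K0 L0 u v hs T hT hTle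
  have hTT1 : T ≤ T1 := hTle.trans ((min_le_left _ _).trans (min_le_left _ _))
  have hTT2 : T ≤ T2 := hTle.trans ((min_le_left _ _).trans (min_le_right _ _))
  have hTT3 : T ≤ T3 := hTle.trans ((min_le_right _ _).trans (min_le_left _ _))
  have hTT4 : T ≤ 1 := hTle.trans ((min_le_right _ _).trans (min_le_right _ _))
  set l : ℝ := T ^ m with hl
  have hl0 : 0 < l := rpow_pos_of_pos hT _
  have hlT : l ≤ T := by
    calc l = T ^ m := rfl
      _ ≤ T ^ (1 : ℝ) := rpow_le_rpow_of_exponent_ge hT hTT4 hm1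
      _ = T := rpow_one T
  have hlk : ∀ κ' : ℝ, κ ≤ κ' → l ^ κ' ≤ T ^ 2 := by
    intro κ' hκ'
    calc l ^ κ' = T ^ (m * κ') := by rw [hl, ← rpow_mul hT.le]
      _ ≤ T ^ (2 : ℝ) := by
          apply rpow_le_rpow_of_exponent_ge hT hTT4
          exact hmκ.trans (mul_le_mul_of_nonneg_left hκ' (by linarith only [hm1]))
      _ = T ^ 2 := by norm_num
  obtain ⟨G, hG0, hGi, hGr, hGb⟩ := H2 u v hs.sol.continuous_u hs.sol.continuous_v hs.sol.pos_u
    hs.sol.pos_v (hgrA p A K0 u v hs.sol.contDiffOn_u hs.sol.pos_u hs.sol.pos_v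
      (fun x hx hx2 => ⟨(hs.wK.pos hx).le, hs.wK.up2 hx hx2⟩) hs.sol.eq_u) T l hl0 hlT hTT2
  obtain ⟨K, hK0, hKi, hKr, hKb⟩ := H3 v u hs.sol.continuous_v hs.sol.continuous_u hs.sol.pos_v
    hs.sol.pos_u (hgrB q B L0 v u hs.sol.contDiffOn_v hs.sol.pos_v hs.sol.pos_u
      (fun x hx hx2 => ⟨(hs.wL.pos hx).le, hs.wL.up2 hx hx2⟩) hs.sol.eq_v) T l hl0 hlT hTT3
  have hL := H1 K0 L0 u v hs T hT hTT1 G hG0 hGi hGr
  set a : ℝ := ∫ θ : Sph n, u (θ : E n) * v (θ : E n) ∂(sg n) with ha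
  set e : ℝ := En n p q u v with he
  set I : ℝ := ∫ s in (-(2 * T))..(2 * T), En n p q (scl α s u) (scl β s v) with hI
  set g : ℝ := ∫ θ, G θ * v (θ : E n) ∂(sg n) with hg
  set kk : ℝ := ∫ θ, K θ * u (θ : E n) ∂(sg n) with hkk
  have ha' : ∫ θ : Sph n, v (θ : E n) * u (θ : E n) ∂(sg n) = a := by
    rw [ha]; congr 1; ext θ; ring
  have hI' : ∫ s in (-(2 * T))..(2 * T), En n q p (scl β s v) (scl α s u) = I := by
    rw [hI]; congr 1; ext s; exact En_swapL _ _ _ _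
  have he' : En n q p v u = e := En_swapL _ _ _ _
  rw [ha', hI', he'] at hKb
  have ha0 : 0 ≤ a := integral_nonneg fun θ => (mul_pos (hs.sol.pos_u _) (hs.sol.pos_v _)).le
  have he0 : 0 ≤ e := integral_nonneg fun θ =>
    add_nonneg (rpow_nonneg (hs.sol.pos_v _).le _) (rpow_nonneg (hs.sol.pos_u _).le _)
  have hI0 : 0 ≤ I := by
    apply intervalIntegral.integral_nonneg (by linarith only [hT])
    intro s _
    apply integral_nonneg
    intro θ
    apply add_nonneg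
    · apply rpow_nonneg
      unfold scl
      exact (mul_pos (exp_pos _) (hs.sol.pos_v _)).le
    · apply rpow_nonneg
      unfold scl
      exact (mul_pos (exp_pos _) (hs.sol.pos_u _)).le
  -- the Wronskian
  have hW : |∫ θ, (u (θ : E n) * cy1 (((n : ℝ) - 2) / 2) v 0 θ -
        cy1 (((n : ℝ) - 2) / 2) u 0 θ * v (θ : E n)) ∂(sg n)| ≤ g + kk := by
    rw [hg, hkk, ← integral_add hGi hKi]
    refine (abs_integral_le_integral_abs).trans ?_
    apply integral_mono_of_nonneg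
    · filter_upwards with θ using abs_nonneg _
    · exact hGi.add hKi
    · filter_upwards [hGr, hKr] with θ h1 h2
      have h1' := h1 0 (by rw [abs_zero]; exact hT.le) le_rfl
      have h2' := h2 0 (by rw [abs_zero]; exact hT.le) le_rfl
      have hu := hs.sol.pos_u (θ : E n)
      have hv := hs.sol.pos_v (θ : E n)
      calc |u (θ : E n) * cy1 (((n : ℝ) - 2) / 2) v 0 θ -
            cy1 (((n : ℝ) - 2) / 2) u 0 θ * v (θ : E n)|
          ≤ |u (θ : E n) * cy1 (((n : ℝ) - 2) / 2) v 0 θ| +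
            |cy1 (((n : ℝ) - 2) / 2) u 0 θ * v (θ : E n)| := abs_sub _ _
        _ = u (θ : E n) * |cy1 (((n : ℝ) - 2) / 2) v 0 θ| +
            |cy1 (((n : ℝ) - 2) / 2) u 0 θ| * v (θ : E n) := by
            rw [abs_mul, abs_mul, abs_of_pos hu, abs_of_pos hv]
        _ ≤ G θ * v (θ : E n) + K θ * u (θ : E n) := by
            have f1 := mul_le_mul_of_nonneg_left h2' hu.le
            have f2 := mul_le_mul_of_nonneg_right h1' hv.le
            linarith only [f1, f2]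
  have hdr := Ham_driftW (d := d) hp hq hs.wK.sph_cont hs.wL.sph_cont hs.sol.contDiffOn_u
    hs.sol.contDiffOn_v hs.sol.continuous_u hs.sol.continuous_v
  have hg0 : 0 ≤ g := integral_nonneg fun θ => mul_nonneg (hG0 θ) (hs.sol.pos_v _).le
  have hkk0 : 0 ≤ kk := integral_nonneg fun θ => mul_nonneg (hK0 θ) (hs.sol.pos_u _).le
  have hH : HamW n p q d K0 L0 u v ≤
      C1 / T * g + C1 / T ^ 2 * a + C1 * T * e + |d| * (g + kk) := by
    rw [hdr]
    have := mul_le_mul_of_nonneg_left hW (abs_nonneg d)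
    have h3 := le_abs_self (d * ∫ θ, (u (θ : E n) * cy1 (((n : ℝ) - 2) / 2) v 0 θ -
        cy1 (((n : ℝ) - 2) / 2) u 0 θ * v (θ : E n)) ∂(sg n))
    rw [abs_mul] at h3
    linarith only [hL, this, h3]
  have hT2' : 0 < T ^ 2 := by (clear * - hT; positivity)
  have hg1 : g ≤ C2 / l * a + C2 * T ^ 2 * (e + I) := by
    refine hGb.trans (add_le_add le_rfl ?_)
    exact mul_le_mul_of_nonneg_right (mul_le_mul_of_nonneg_left (hlk κ2 (min_le_left _ _)) hC2.le)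
      (add_nonneg he0 hI0)
  have hk1' : kk ≤ C3 / l * a + C3 * T ^ 2 * (e + I) := by
    refine hKb.trans (add_le_add le_rfl ?_)
    exact mul_le_mul_of_nonneg_right (mul_le_mul_of_nonneg_left (hlk κ3 (min_le_right _ _)) hC3.le)
      (add_nonneg he0 hI0)
  have hH2 := loc_alg hT hTT4 hl0 hlT ha0 he0 hI0 hC1 hC2 hC3 (abs_nonneg d) hH hg1 hk1'
  rw [← hC0] at hH2
  have hη0 : 0 < T ^ (m + 2) := rpow_pos_of_pos hT _
  have hY := int_uv_leW (n := n) hp hq hpq hs.sol.continuous_u hs.sol.continuous_v hs.sol.pos_u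
    hs.sol.pos_v hη0
  rw [← hk1, ← ha, ← he, ← hV] at hY
  exact loc_alg2 hT hl rfl he0 hI0 hV0 hC0pos hH2 hY

end

end Vale.Agent.P100.H20
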