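import Mathlib
import Vale.Agent.P100.H20.G2

set_option linter.all false

/-!
Weights that grow radially at least like a power and are comparable on spheres: the growth
inequality.
-/

open MeasureTheory Set Filter Topology Real Function

namespace Vale.Agent.P100.H20

open Vale.Agent.P100.RM

noncomputable section

variable {n : ℕ}

/-- General weights with explicit constants. -/
structure Wg (n : ℕ) (A M Ch : ℝ) (K : E n → ℝ) : Prop where
  cont : ContinuousOn K {0}ᶜ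
  pos : ∀ {x : E n}, x ≠ 0 → 0 < K x
  g1 : ∀ x, x ≠ 0 → ∀ t : ℝ, 1 ≤ t → t ^ A * K x ≤ K (t • x)
  g2 : ∀ x, x ≠ 0 → ∀ t : ℝ, 1 ≤ t → K (t • x) ≤ t ^ M * K x
  har : ∀ x y, x ≠ 0 → ‖x‖ = ‖y‖ → K x ≤ Ch * K y

namespace Wg

variable {A M Ch : ℝ} {K : E n → ℝ}

lemma sph_cont (w : Wg n A M Ch K) : Continuous fun θ : Sph n => K (θ : E n) :=
  w.cont.comp_continuous continuous_subtype_val fun θ => Wt.sph_ne θ

lemma sph_har (w : Wg n A M Ch K) (θ θ' : Sph n) : K (θ : E n) ≤ Ch * K (θ' : E n) :=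
  w.har _ _ (Wt.sph_ne θ) (by simp)

lemma Ch_pos (w : Wg n A M Ch K) (θ : Sph n) : 0 < Ch := by
  have h1 := w.sph_har θ θ
  have h2 := w.pos (Wt.sph_ne θ)
  by_contra h
  push Not at h
  have h3 := mul_nonpos_of_nonpos_of_nonneg h h2.le
  linarith only [h1, h2, h3]

/-- The weight as a weight with constants on the sphere. -/
lemma wl (w : Wg n A M Ch K) (θ0 : Sph n) :
    Wl n A (Ch⁻¹ * K (θ0 : E n)) (Ch * K (θ0 : E n)) M K where
  c0 := mul_pos (inv_pos.2 (w.Ch_pos θ0)) (w.pos (Wt.sph_ne θ0))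
  cont := w.cont
  pos := fun {x} hx => w.pos hx
  lo θ := by
    have h1 := w.sph_har θ0 θ
    rw [inv_mul_le_iff₀ (w.Ch_pos θ0)]
    exact h1
  hi θ := w.sph_har θ θ0
  g1 := w.g1
  g2 := w.g2

/-- The normalized weight. -/
lemma wln (w : Wg n A M Ch K) (θ0 : Sph n) :
    Wl n A Ch⁻¹ Ch M (fun x => K x / K (θ0 : E n)) where
  c0 := inv_pos.2 (w.Ch_pos θ0)
  cont := w.cont.div_const _
  pos := fun {x} hx => div_pos (w.pos hx) (w.pos (Wt.sph_ne θ0))
  lo θ := by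
    rw [le_div_iff₀ (w.pos (Wt.sph_ne θ0)), inv_mul_le_iff₀ (w.Ch_pos θ0)]
    exact w.sph_har θ0 θ
  hi θ := by
    rw [div_le_iff₀ (w.pos (Wt.sph_ne θ0))]
    exact w.sph_har θ θ0
  g1 x hx t ht := by
    rw [← mul_div_assoc]
    exact div_le_div_of_nonneg_right (w.g1 x hx t ht) (w.pos (Wt.sph_ne θ0)).le
  g2 x hx t ht := by
    rw [← mul_div_assoc]
    exact div_le_div_of_nonneg_right (w.g2 x hx t ht) (w.pos (Wt.sph_ne θ0)).le

lemma ray (w : Wg n A M Ch K) (θ : Sph n) {s t : ℝ} (h : s ≤ t) :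
    exp (A * (t - s)) * K (exp s • (θ : E n)) ≤ K (exp t • (θ : E n)) := (w.wl θ).ray θ h

lemma ray' (w : Wg n A M Ch K) (θ : Sph n) {s t : ℝ} (h : s ≤ t) :
    K (exp t • (θ : E n)) ≤ exp (M * (t - s)) * K (exp s • (θ : E n)) := (w.wl θ).ray' θ h

lemma low (w : Wg n A M Ch K) (θ : Sph n) (s : ℝ) :
    exp (-((|A| + |M|) * |s|)) * K (θ : E n) ≤ K (exp s • (θ : E n)) := (w.wl θ).low θ s

lemma A_le_M (w : Wg n A M Ch K) (θ : Sph n) : A ≤ M := by
  have h1 := w.ray θ (s := 0) (t := 1) zero_le_one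
  have h2 := w.ray' θ (s := 0) (t := 1) zero_le_one
  have h3 := h1.trans h2
  have h4 := le_of_mul_le_mul_right h3 (w.pos (expsmul_ne_zero 0 θ))
  rw [exp_le_exp] at h4
  linarith only [h4]

/-- Scaling of weights. -/
lemma scl (w : Wg n A M Ch K) (t : ℝ) : Wg n A M Ch (scl (-A) t K) := by
  have hR : 0 < exp t := exp_pos t
  have hE : 0 < exp (-A * t) := exp_pos _
  have hsm : Continuous fun x : E n => exp t • x := continuous_const_smul _
  refine ⟨?_, ?_, ?_, ?_, ?_⟩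
  · exact continuousOn_const.mul (w.cont.comp hsm.continuousOn fun x hx => smul_ne_zero hR.ne' hx)
  · exact fun {x} hx => mul_pos hE (w.pos (smul_ne_zero hR.ne' hx))
  · intro x hx s hs
    have h1 := mul_le_mul_of_nonneg_left (w.g1 _ (smul_ne_zero hR.ne' hx) s hs) hE.le
    rw [smul_comm s (exp t) x] at h1
    show s ^ A * (exp (-A * t) * K (exp t • x)) ≤ exp (-A * t) * K (exp t • (s • x))
    linarith only [h1]
  · intro x hx s hs
    have h1 := mul_le_mul_of_nonneg_left (w.g2 _ (smul_ne_zero hR.ne' hx) s hs) hE.le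
    rw [smul_comm s (exp t) x] at h1
    show exp (-A * t) * K (exp t • (s • x)) ≤ s ^ M * (exp (-A * t) * K (exp t • x))
    linarith only [h1]
  · intro x y hx hxy
    have h1 := mul_le_mul_of_nonneg_left (w.har (exp t • x) (exp t • y)
      (smul_ne_zero hR.ne' hx) (by rw [norm_smul, norm_smul, hxy])) hE.le
    show exp (-A * t) * K (exp t • x) ≤ Ch * (exp (-A * t) * K (exp t • y))
    linarith only [h1]

/-- The scaled weight is nondecreasing in time. -/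
lemma scl_mono (w : Wg n A M Ch K) (θ : Sph n) {s t : ℝ} (h : s ≤ t) :
    RM.scl (-A) s K (θ : E n) ≤ RM.scl (-A) t K (θ : E n) := by
  have h1 := mul_le_mul_of_nonneg_left (w.ray θ h) (exp_pos (-A * t)).le
  rw [← mul_assoc, ← exp_add] at h1
  have e : -A * t + A * (t - s) = -A * s := by ring
  rw [e] at h1
  exact h1

/-- Global upper bound. -/
lemma up (w : Wg n A M Ch K) (θ0 : Sph n) {x : E n} (hx : x ≠ 0) :
    K x ≤ (Ch * K (θ0 : E n)) * (‖x‖ ^ A + ‖x‖ ^ M) := by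
  have hx0 : 0 < ‖x‖ := norm_pos_iff.2 hx
  obtain ⟨θ, hθ⟩ := Wl.polar hx
  set s := Real.log ‖x‖ with hs
  have hes : exp s = ‖x‖ := exp_log hx0
  have hC := w.sph_har θ θ0
  have hK := (w.pos (Wt.sph_ne θ)).le
  have hC0 : 0 ≤ Ch * K (θ0 : E n) := hK.trans hC
  have hA : 0 < ‖x‖ ^ A := rpow_pos_of_pos hx0 _
  have hM : 0 < ‖x‖ ^ M := rpow_pos_of_pos hx0 _
  rcases le_total s 0 with h | h
  · have h1 := w.ray θ h
    rw [hθ, exp_zero, one_smul, zero_sub] at h1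
    have e1 : ‖x‖ ^ A * exp (A * -s) = 1 := by
      rw [← hes, ← exp_mul, ← exp_add, exp_eq_one_iff]; ring
    have h3 := mul_le_mul_of_nonneg_left (h1.trans hC) hA.le
    rw [← mul_assoc, e1, one_mul] at h3
    have h4 := mul_nonneg hC0 hM.le
    linarith only [h3, h4]
  · have h1 := w.ray' θ h
    rw [hθ, exp_zero, one_smul, sub_zero] at h1
    have e1 : exp (M * s) = ‖x‖ ^ M := by
      rw [← hes, ← exp_mul, mul_comm]
    rw [e1] at h1
    have h3 := h1.trans (mul_le_mul_of_nonneg_left hC hM.le)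
    have h4 := mul_nonneg hC0 hA.le
    linarith only [h3, h4]

end Wg

/-- A solution together with its general weights. -/
structure SG (n : ℕ) (p q A B M Ch : ℝ) (K L u v : E n → ℝ) : Prop where
  wK : Wg n A M Ch K
  wL : Wg n B M Ch L
  sol : IsPositiveEntireSolutionW n p q K L u v

/-- Scaling of solutions. -/
lemma SG.scl {p q A B M Ch α β : ℝ} {K L u v : E n → ℝ} (hs : SG n p q A B M Ch K L u v)
    (h1 : α + 2 + A = β * p) (h2 : β + 2 + B = α * q) (t : ℝ) :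
    SG n p q A B M Ch (scl (-A) t K) (scl (-B) t L) (scl α t u) (scl β t v) := by
  have hR : 0 < exp t := exp_pos t
  have hsm : ContDiff ℝ 2 fun x : E n => exp t • x := contDiff_const_smul _
  have hmaps : MapsTo (fun x : E n => exp t • x) {0}ᶜ {0}ᶜ := fun x hx =>
    smul_ne_zero hR.ne' hx
  have key : ∀ (w z k : E n → ℝ) (P A' a b : ℝ), (∀ x, 0 < z x) →
      (∀ x, x ≠ 0 → -(Laplacian.laplacian w x) = k x * z x ^ P) → a + 2 + A' = b * P →
      ∀ x, x ≠ 0 →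
      -(Laplacian.laplacian (fun x => exp (a * t) * w (exp t • x)) x) =
        (exp (-A' * t) * k (exp t • x)) * (exp (b * t) * z (exp t • x)) ^ P := by
    intro w z k P A' a b hz he hab x hx
    rw [laplacian_scale, ← mul_neg, he _ (smul_ne_zero hR.ne' hx),
      Real.mul_rpow (exp_pos _).le (hz _).le, ← Real.exp_mul]
    have e1 : exp (-A' * t) * exp (b * t * P) = exp (a * t) * exp t ^ 2 := by
      rw [← Real.exp_nat_mul, ← Real.exp_add, ← Real.exp_add]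
      congr 1
      have : b * t * P = b * P * t := by ring
      rw [this, ← hab]
      push_cast
      ring
    calc exp (a * t) * exp t ^ 2 * (k (exp t • x) * z (exp t • x) ^ P)
        = (exp (-A' * t) * exp (b * t * P)) * (k (exp t • x) * z (exp t • x) ^ P) := by rw [e1]
      _ = _ := by ring
  exact ⟨hs.wK.scl t, hs.wL.scl t,
    ⟨contDiffOn_const.mul (hs.sol.contDiffOn_u.comp hsm.contDiffOn hmaps),
    contDiffOn_const.mul (hs.sol.contDiffOn_v.comp hsm.contDiffOn hmaps),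
    continuous_const.mul (hs.sol.continuous_u.comp (continuous_const_smul _)),
    continuous_const.mul (hs.sol.continuous_v.comp (continuous_const_smul _)),
    fun x => mul_pos (exp_pos _) (hs.sol.pos_u _), fun x => mul_pos (exp_pos _) (hs.sol.pos_v _),
    key u v K p A α β hs.sol.pos_v hs.sol.eq_u h1,
    key v u L q B β α hs.sol.pos_u hs.sol.eq_v h2⟩⟩

lemma mW_auxG {A M Ch k : ℝ} {K : E n → ℝ} (w : Wg n A M Ch K) (θ : Sph n) {s t : ℝ}
    (h : s ≤ t) : exp ((k + A) * (t - s)) * (exp (k * s) * K (exp s • (θ : E n))) ≤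
      exp (k * t) * K (exp t • (θ : E n)) := by
  have h1 := mul_le_mul_of_nonneg_left (w.ray θ h) (exp_pos (k * t)).le
  refine le_trans (le_of_eq ?_) h1
  rw [← mul_assoc, ← mul_assoc, ← exp_add, ← exp_add]
  congr 2
  ring

lemma cW_auxG {A M Ch : ℝ} (k : ℝ) {K : E n → ℝ} (w : Wg n A M Ch K) :
    Continuous (uncurry fun (t : ℝ) (θ : Sph n) => exp (k * t) * K (exp t • (θ : E n))) :=
  (by fun_prop : Continuous (fun x : ℝ × Sph n => exp (k * x.1))).mul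
    (continuous_comp_expsmul w.cont)

/-- The cylinder data of a solution, exponents `c + d` and `c - d`, `c = (n-2)/2`. -/
def datG {p q A B M Ch : ℝ} {K L u v : E n → ℝ} (hs : SG n p q A B M Ch K L u v) (d : ℝ) :
    DatW (Sph n) p q d ((((n : ℝ) - 2) / 2) ^ 2 - d ^ 2)
      ((((n : ℝ) - 2) / 2 + d) + 2 - p * (((n : ℝ) - 2) / 2 - d) + A)
      ((((n : ℝ) - 2) / 2 - d) + 2 - q * (((n : ℝ) - 2) / 2 + d) + B) where
  X := cy0 (((n : ℝ) - 2) / 2 + d) u
  X1 := cy1 (((n : ℝ) - 2) / 2 + d) u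
  X2 := cy2 (((n : ℝ) - 2) / 2 + d) u
  SX := cyS (((n : ℝ) - 2) / 2 + d) u
  Y := cy0 (((n : ℝ) - 2) / 2 - d) v
  Y1 := cy1 (((n : ℝ) - 2) / 2 - d) v
  Y2 := cy2 (((n : ℝ) - 2) / 2 - d) v
  SY := cyS (((n : ℝ) - 2) / 2 - d) v
  W1 t θ := exp (((((n : ℝ) - 2) / 2 + d) + 2 - p * (((n : ℝ) - 2) / 2 - d)) * t) *
    K (exp t • (θ : E n))
  W2 t θ := exp (((((n : ℝ) - 2) / 2 - d) + 2 - q * (((n : ℝ) - 2) / 2 + d)) * t) *
    L (exp t • (θ : E n))
  hX t θ := hasDerivAt_cy0 hs.sol.contDiffOn_u _ t θ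
  hX1 t θ := hasDerivAt_cy1 hs.sol.contDiffOn_u _ t θ
  hY t θ := hasDerivAt_cy0 hs.sol.contDiffOn_v _ t θ
  hY1 t θ := hasDerivAt_cy1 hs.sol.contDiffOn_v _ t θ
  cX := continuous_cy0 hs.sol.contDiffOn_u _
  cX1 := continuous_cy1 hs.sol.contDiffOn_u _
  cX2 := continuous_cy2 hs.sol.contDiffOn_u _
  cSX := continuous_cyS hs.sol.contDiffOn_u _
  cY := continuous_cy0 hs.sol.contDiffOn_v _
  cY1 := continuous_cy1 hs.sol.contDiffOn_v _
  cY2 := continuous_cy2 hs.sol.contDiffOn_v _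
  cSY := continuous_cyS hs.sol.contDiffOn_v _
  cW1 := cW_auxG _ hs.wK
  cW2 := cW_auxG _ hs.wL
  mW1 θ s t h := mW_auxG hs.wK θ h
  mW2 θ s t h := mW_auxG hs.wL θ h
  pX t θ := mul_pos (exp_pos _) (hs.sol.pos_u _)
  pY t θ := mul_pos (exp_pos _) (hs.sol.pos_v _)
  eX t θ := by
    have := cy_eqW hs.sol.contDiffOn_u hs.sol.pos_v hs.sol.eq_u (((n : ℝ) - 2) / 2 + d)
      (((n : ℝ) - 2) / 2 - d) t θ
    linear_combination this
  eY t θ := by
    have := cy_eqW hs.sol.contDiffOn_v hs.sol.pos_u hs.sol.eq_v (((n : ℝ) - 2) / 2 - d)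
      (((n : ℝ) - 2) / 2 + d) t θ
    linear_combination this

/-- The weight identity for the potential terms. -/
lemma pot_eqG {p A α β δ c d t y k : ℝ} (hy : 0 < y) (h1 : α + 2 + A = β * p)
    (hδ : δ = α + β - 2 * c) :
    exp (-δ * t) * ((exp (-A * t) * k) * (exp (β * t) * y) ^ (p + 1)) =
      (exp ((c + d + 2 - p * (c - d)) * t) * k) * (exp ((c - d) * t) * y) ^ (p + 1) := by
  have h := pot_eq (d := d) (t := t) hy h1 hδ
  have e : exp ((c + d + 2 - p * (c - d)) * t) =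
      exp (-A * t) * exp ((c + d + 2 + A - p * (c - d)) * t) := by
    rw [← exp_add]; congr 1; ring
  rw [e]
  linear_combination (exp (-A * t) * k) * h

/-- The rescaled Hamiltonian is the Hamiltonian of the cylinder data. -/
lemma ham_eqG {p q A B M Ch α β d : ℝ} (h1 : α + 2 + A = β * p) (h2 : β + 2 + B = α * q)
    {K L u v : E n → ℝ} (hs : SG n p q A B M Ch K L u v) (t : ℝ) :
    exp (-(α + β - ((n : ℝ) - 2)) * t) *
      HamW n p q d (scl (-A) t K) (scl (-B) t L) (scl α t u) (scl β t v) =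
      (datG hs d).H (sg n) t := by
  unfold HamW DatW.H
  rw [← integral_const_mul]
  congr 1
  ext θ
  obtain ⟨a0, a1, a2, aS⟩ := cy_scl hs.sol.contDiffOn_u α (((n : ℝ) - 2) / 2 + d) t 0 θ
  obtain ⟨b0, b1, b2, bS⟩ := cy_scl hs.sol.contDiffOn_v β (((n : ℝ) - 2) / 2 - d) t 0 θ
  rw [a0, a1, aS, b0, b1]
  rw [zero_add]
  have hc : exp (-(α + β - ((n : ℝ) - 2)) * t) * (exp ((α - (((n : ℝ) - 2) / 2 + d)) * t) *
      exp ((β - (((n : ℝ) - 2) / 2 - d)) * t)) = 1 := by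
    rw [← exp_add, ← exp_add, exp_eq_one_iff]
    ring
  have p1 := pot_eqG (p := p) (A := A) (d := d) (t := t) (k := K (exp t • (θ : E n)))
    (hs.sol.pos_v (exp t • (θ : E n))) h1
    (δ := α + β - ((n : ℝ) - 2)) (c := ((n : ℝ) - 2) / 2) (by ring)
  have p2 := pot_eqG (p := q) (A := B) (d := -d) (t := t) (k := L (exp t • (θ : E n)))
    (hs.sol.pos_u (exp t • (θ : E n))) h2
    (δ := α + β - ((n : ℝ) - 2)) (c := ((n : ℝ) - 2) / 2) (by ring)
  have p2' : exp (-(α + β - ((n : ℝ) - 2)) * t) *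
      ((exp (-B * t) * L (exp t • (θ : E n))) *
        (exp (α * t) * u (exp t • (θ : E n))) ^ (q + 1)) =
      (exp (((((n : ℝ) - 2) / 2 - d) + 2 - q * (((n : ℝ) - 2) / 2 + d)) * t) *
        L (exp t • (θ : E n))) *
        (exp ((((n : ℝ) - 2) / 2 + d) * t) * u (exp t • (θ : E n))) ^ (q + 1) := by
    rw [p2, sub_neg_eq_add, ← sub_eq_add_neg]
  have dP : (datG hs d).P t θ = (exp (((((n : ℝ) - 2) / 2 + d) + 2 -
      p * (((n : ℝ) - 2) / 2 - d)) * t) * K (exp t • (θ : E n))) *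
      (exp ((((n : ℝ) - 2) / 2 - d) * t) * v (exp t • (θ : E n))) ^ (p + 1) / (p + 1) := rfl
  have dQ : (datG hs d).Q t θ = (exp (((((n : ℝ) - 2) / 2 - d) + 2 -
      q * (((n : ℝ) - 2) / 2 + d)) * t) * L (exp t • (θ : E n))) *
      (exp ((((n : ℝ) - 2) / 2 + d) * t) * u (exp t • (θ : E n))) ^ (q + 1) / (q + 1) := rfl
  have dd : (datG hs d).dens t θ = cy1 (((n : ℝ) - 2) / 2 + d) u t θ *
      cy1 (((n : ℝ) - 2) / 2 - d) v t θ + cyS (((n : ℝ) - 2) / 2 + d) u t θ *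
      cy0 (((n : ℝ) - 2) / 2 - d) v t θ - ((((n : ℝ) - 2) / 2) ^ 2 - d ^ 2) *
      (cy0 (((n : ℝ) - 2) / 2 + d) u t θ * cy0 (((n : ℝ) - 2) / 2 - d) v t θ) +
      (datG hs d).P t θ + (datG hs d).Q t θ := rfl
  rw [dd, dP, dQ, ← p1, ← p2', scl_one_exp, scl_one_exp, scl_one_exp, scl_one_exp]
  set e0 := exp (-(α + β - ((n : ℝ) - 2)) * t)
  set e1 := exp ((α - (((n : ℝ) - 2) / 2 + d)) * t)
  set e2 := exp ((β - (((n : ℝ) - 2) / 2 - d)) * t)
  linear_combination (cy1 (((n : ℝ) - 2) / 2 + d) u t θ * cy1 (((n : ℝ) - 2) / 2 - d) v t θ +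
    cyS (((n : ℝ) - 2) / 2 + d) u t θ * cy0 (((n : ℝ) - 2) / 2 - d) v t θ -
    ((((n : ℝ) - 2) / 2) ^ 2 - d ^ 2) *
    (cy0 (((n : ℝ) - 2) / 2 + d) u t θ * cy0 (((n : ℝ) - 2) / 2 - d) v t θ)) * hc

/-- The growth inequality for the cylinder data. -/
lemma dat_growthG {p q A B M Ch d : ℝ} (hp : 0 < p) (hq : 0 < q) {K L u v : E n → ℝ}
    (hs : SG n p q A B M Ch K L u v) {a b : ℝ} (hab : a ≤ b) :
    ∫ s in a..b, (∫ θ, (datG hs d).G s θ ∂(sg n)) ≤
      (datG hs d).H (sg n) b - (datG hs d).H (sg n) a := by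
  have hunif : ∀ {w : E n → ℝ}, ContDiffOn ℝ 2 w {0}ᶜ → ∀ g : ℝ, ∀ L : ℝ, ∀ e > 0,
      ∀ᶠ k in atTop, ∀ s, |s| ≤ L → ∀ θ,
      |Lop ((eps k ^ 2)⁻¹) (rotS n (eps k)) (cy0 g w s) θ - cyS g w s θ| ≤ e := by
    intro w hw g L e he
    obtain ⟨ε0, h0, h1⟩ := Lop_unif hw g L e he
    filter_upwards [eps_tendsto.eventually_lt_const h0] with k hk
    exact h1 (eps k) (eps_pos k) hk
  exact (datG hs d).growthW hp hq (fun k => (eps k ^ 2)⁻¹) (fun k => rotS n (eps k))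
    (fun k i => continuous_rotS _ _) (fun k F G hF hG => Lsym _ _ hF hG)
    (fun L e he => hunif hs.sol.contDiffOn_u _ L e he)
    (fun L e he => hunif hs.sol.contDiffOn_v _ L e he) hab

theorem growG {p q A B M Ch α β d : ℝ} (hp : 0 < p) (hq : 0 < q)
    (h1 : α + 2 + A = β * p) (h2 : β + 2 + B = α * q)
    {K L u v : E n → ℝ} (hs : SG n p q A B M Ch K L u v) {t1 t2 : ℝ} (ht : t1 ≤ t2) :
    ∫ s in t1..t2, exp (-(α + β - ((n : ℝ) - 2)) * s) *
        ∫ θ : Sph n, ((p * (β - ((n : ℝ) - 2) / 2 + d) - (α - ((n : ℝ) - 2) / 2 - d)) / (p + 1) *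
            (scl (-A) s K (θ : E n) * (scl β s v (θ : E n)) ^ (p + 1))
          + (q * (α - ((n : ℝ) - 2) / 2 - d) - (β - ((n : ℝ) - 2) / 2 + d)) / (q + 1) *
            (scl (-B) s L (θ : E n) * (scl α s u (θ : E n)) ^ (q + 1))) ∂(sg n) ≤
    exp (-(α + β - ((n : ℝ) - 2)) * t2) *
      HamW n p q d (scl (-A) t2 K) (scl (-B) t2 L) (scl α t2 u) (scl β t2 v)
      - exp (-(α + β - ((n : ℝ) - 2)) * t1) *
      HamW n p q d (scl (-A) t1 K) (scl (-B) t1 L) (scl α t1 u) (scl β t1 v) := by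
  rw [ham_eqG h1 h2 hs, ham_eqG h1 h2 hs]
  refine le_trans (le_of_eq ?_) (dat_growthG hp hq hs ht)
  congr 1
  ext s
  rw [← integral_const_mul]
  congr 1
  ext θ
  have p1 := pot_eqG (p := p) (A := A) (d := d) (t := s) (k := K (exp s • (θ : E n)))
    (hs.sol.pos_v (exp s • (θ : E n))) h1
    (δ := α + β - ((n : ℝ) - 2)) (c := ((n : ℝ) - 2) / 2) (by ring)
  have p2 := pot_eqG (p := q) (A := B) (d := -d) (t := s) (k := L (exp s • (θ : E n)))
    (hs.sol.pos_u (exp s • (θ : E n))) h2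
    (δ := α + β - ((n : ℝ) - 2)) (c := ((n : ℝ) - 2) / 2) (by ring)
  have p2' : exp (-(α + β - ((n : ℝ) - 2)) * s) *
      ((exp (-B * s) * L (exp s • (θ : E n))) *
        (exp (α * s) * u (exp s • (θ : E n))) ^ (q + 1)) =
      (exp (((((n : ℝ) - 2) / 2 - d) + 2 - q * (((n : ℝ) - 2) / 2 + d)) * s) *
        L (exp s • (θ : E n))) *
        (exp ((((n : ℝ) - 2) / 2 + d) * s) * u (exp s • (θ : E n))) ^ (q + 1) := by
    rw [p2, sub_neg_eq_add, ← sub_eq_add_neg]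
  have dG : (datG hs d).G s θ =
      ((((n : ℝ) - 2) / 2 + d) + 2 - p * (((n : ℝ) - 2) / 2 - d) + A) *
      ((exp (((((n : ℝ) - 2) / 2 + d) + 2 - p * (((n : ℝ) - 2) / 2 - d)) * s) *
        K (exp s • (θ : E n))) *
      (exp ((((n : ℝ) - 2) / 2 - d) * s) * v (exp s • (θ : E n))) ^ (p + 1) / (p + 1)) +
      ((((n : ℝ) - 2) / 2 - d) + 2 - q * (((n : ℝ) - 2) / 2 + d) + B) *
      ((exp (((((n : ℝ) - 2) / 2 - d) + 2 - q * (((n : ℝ) - 2) / 2 + d)) * s) *
        L (exp s • (θ : E n))) *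
      (exp ((((n : ℝ) - 2) / 2 + d) * s) * u (exp s • (θ : E n))) ^ (q + 1) / (q + 1)) := rfl
  rw [dG, ← p1, ← p2', scl_one_exp, scl_one_exp, scl_one_exp, scl_one_exp]
  have w1 : (((n : ℝ) - 2) / 2 + d) + 2 - p * (((n : ℝ) - 2) / 2 - d) + A =
      p * (β - ((n : ℝ) - 2) / 2 + d) - (α - ((n : ℝ) - 2) / 2 - d) := by
    linear_combination h1
  have w2 : (((n : ℝ) - 2) / 2 - d) + 2 - q * (((n : ℝ) - 2) / 2 + d) + B =
      q * (α - ((n : ℝ) - 2) / 2 - d) - (β - ((n : ℝ) - 2) / 2 + d) := by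
    linear_combination h2
  rw [w1, w2]
  ring

end

end Vale.Agent.P100.H20
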