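import Mathlib
import Vale.Agent.P100.H20.G4

set_option linter.all false

/-!
The growth package and the local estimate for general weights.
-/

open MeasureTheory Set Filter Topology Real

namespace Vale.Agent.P100.H20

open Vale.Agent.P100.RM

noncomputable section

variable {n : ℕ}

/-- The weighted energy on the unit sphere. -/
def EnG (n : ℕ) (p q : ℝ) (K L u v : E n → ℝ) : ℝ :=
  ∫ θ : Sph n, (K (θ : E n) * (v (θ : E n)) ^ (p + 1) +
    L (θ : E n) * (u (θ : E n)) ^ (q + 1)) ∂(sg n)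

lemma EnG_pos (hn : 3 ≤ n) {p q : ℝ} (hp : 0 < p) (hq : 0 < q) {K L u v : E n → ℝ}
    (hK : Continuous fun θ : Sph n => K (θ : E n)) (hL : Continuous fun θ : Sph n => L (θ : E n))
    (pK : ∀ θ : Sph n, 0 < K (θ : E n)) (pL : ∀ θ : Sph n, 0 < L (θ : E n))
    (hu : Continuous u) (hv : Continuous v) (pu : ∀ x, 0 < u x) (pv : ∀ x, 0 < v x) :
    0 < EnG n p q K L u v := by
  unfold EnG
  have hcont : Continuous fun θ : Sph n => K (θ : E n) * (v (θ : E n)) ^ (p + 1) +
      L (θ : E n) * (u (θ : E n)) ^ (q + 1) :=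
    (hK.mul ((hv.comp continuous_subtype_val).rpow_const fun x => Or.inr (by linarith only [hp]))).add
      (hL.mul ((hu.comp continuous_subtype_val).rpow_const fun x => Or.inr (by linarith only [hq])))
  have hpos : ∀ θ : Sph n, 0 < K (θ : E n) * (v (θ : E n)) ^ (p + 1) +
      L (θ : E n) * (u (θ : E n)) ^ (q + 1) := fun θ =>
    add_pos (mul_pos (pK θ) (rpow_pos_of_pos (pv _) _)) (mul_pos (pL θ) (rpow_pos_of_pos (pu _) _))
  have hint := GrowL.integrable_cont hcont
  rw [integral_pos_iff_support_of_nonneg (fun θ => (hpos θ).le) hint]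
  have : Function.support (fun θ : Sph n => K (θ : E n) * (v (θ : E n)) ^ (p + 1) +
      L (θ : E n) * (u (θ : E n)) ^ (q + 1)) = univ := by
    ext θ
    simp [(hpos θ).ne']
  rw [this]
  exact sg_univ_pos hn

lemma continuous_EnG {p q α β A B : ℝ} (hp : 0 < p) (hq : 0 < q)
    {K L u v : E n → ℝ} (hK : ContinuousOn K {0}ᶜ) (hL : ContinuousOn L {0}ᶜ)
    (hu : Continuous u) (hv : Continuous v) :
    Continuous (fun t => EnG n p q (scl (-A) t K) (scl (-B) t L) (scl α t u) (scl β t v)) := by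
  have h := continuous_EnWW (α := α) (β := β) (A := A) (B := B) hp hq 1 1 hK hL hu hv
  simp only [one_mul] at h
  exact h

/-- The growth package for the rescaled Hamiltonian. -/
lemma growth_packG (hn : 3 ≤ n) {p q A B M Ch α β d : ℝ} (hp : 0 < p) (hq : 0 < q) (hA : -2 < A)
    (hB : -2 < B) (h1 : α + 2 + A = β * p) (h2 : β + 2 + B = α * q)
    (hδ : 0 < α + β - ((n : ℝ) - 2))
    (hd : |d| < ((n : ℝ) - 2) / 2)
    (hω1 : 0 < p * (β - ((n : ℝ) - 2) / 2 + d) - (α - ((n : ℝ) - 2) / 2 - d))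
    (hω2 : 0 < q * (α - ((n : ℝ) - 2) / 2 - d) - (β - ((n : ℝ) - 2) / 2 + d))
    {K L u v : E n → ℝ} (hs : SG n p q A B M Ch K L u v) :
    ∃ c0 : ℝ, 0 < c0 ∧
      (∀ t1 t2, t1 ≤ t2 →
        HamW n p q d (scl (-A) t1 K) (scl (-B) t1 L) (scl α t1 u) (scl β t1 v) +
        c0 * (∫ s in t1..t2, EnG n p q (scl (-A) s K) (scl (-B) s L) (scl α s u) (scl β s v)) ≤
          HamW n p q d (scl (-A) t2 K) (scl (-B) t2 L) (scl α t2 u) (scl β t2 v)) ∧
      Tendsto (fun t => HamW n p q d (scl (-A) t K) (scl (-B) t L) (scl α t u) (scl β t v))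
        atTop atTop := by
  set k1 : ℝ := (p * (β - ((n : ℝ) - 2) / 2 + d) - (α - ((n : ℝ) - 2) / 2 - d)) / (p + 1) with hk1
  set k2 : ℝ := (q * (α - ((n : ℝ) - 2) / 2 - d) - (β - ((n : ℝ) - 2) / 2 + d)) / (q + 1) with hk2
  have hk1p : 0 < k1 := div_pos hω1 (by linarith only [hp])
  have hk2p : 0 < k2 := div_pos hω2 (by linarith only [hq])
  have hpos : ∀ s, (∀ x, 0 < scl α s u x) ∧ ∀ x, 0 < scl β s v x := fun s =>
    ⟨fun x => mul_pos (exp_pos _) (hs.sol.pos_u _), fun x => mul_pos (exp_pos _) (hs.sol.pos_v _)⟩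
  have hcu : ∀ s, Continuous (scl α s u) := fun s =>
    continuous_const.mul (hs.sol.continuous_u.comp (continuous_const_smul _))
  have hcv : ∀ s, Continuous (scl β s v) := fun s =>
    continuous_const.mul (hs.sol.continuous_v.comp (continuous_const_smul _))
  have hm : 0 < min k1 k2 := lt_min hk1p hk2p
  refine ⟨min k1 k2, hm, ?_⟩
  apply grow_absW (δ := α + β - ((n : ℝ) - 2)) hδ hm
    (e := fun s => EnG n p q (scl (-A) s K) (scl (-B) s L) (scl α s u) (scl β s v))
    (J := fun s => ∫ θ : Sph n,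
      (k1 * (scl (-A) s K (θ : E n) * (scl β s v (θ : E n)) ^ (p + 1)) +
      k2 * (scl (-B) s L (θ : E n) * (scl α s u (θ : E n)) ^ (q + 1))) ∂(sg n))
    (fun t => EnG_pos hn hp hq (hs.wK.scl t).sph_cont (hs.wL.scl t).sph_cont
      (fun θ => (hs.wK.scl t).pos (Wt.sph_ne θ)) (fun θ => (hs.wL.scl t).pos (Wt.sph_ne θ))
      (hcu t) (hcv t) (hpos t).1 (hpos t).2)
    (continuous_EnG hp hq hs.wK.cont hs.wL.cont hs.sol.continuous_u hs.sol.continuous_v)
    (continuous_EnWW hp hq k1 k2 hs.wK.cont hs.wL.cont hs.sol.continuous_u hs.sol.continuous_v)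
  · intro t
    unfold EnG
    rw [← integral_const_mul]
    have hcK := (hs.wK.scl t).sph_cont
    have hcL := (hs.wL.scl t).sph_cont
    have hc1 : Continuous fun θ : Sph n => (scl β t v (θ : E n)) ^ (p + 1) :=
      ((hcv t).comp continuous_subtype_val).rpow_const fun x => Or.inr (by linarith only [hp])
    have hc2 : Continuous fun θ : Sph n => (scl α t u (θ : E n)) ^ (q + 1) :=
      ((hcu t).comp continuous_subtype_val).rpow_const fun x => Or.inr (by linarith only [hq])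
    apply integral_mono
    · exact (((hcK.mul hc1).add (hcL.mul hc2)).const_mul _).integrable_of_hasCompactSupport
        (HasCompactSupport.of_compactSpace _)
    · exact (((hcK.mul hc1).const_mul k1).add
        ((hcL.mul hc2).const_mul k2)).integrable_of_hasCompactSupport
        (HasCompactSupport.of_compactSpace _)
    · intro θ
      have e1 : 0 ≤ scl (-A) t K (θ : E n) * (scl β t v (θ : E n)) ^ (p + 1) :=
        mul_nonneg ((hs.wK.scl t).pos (Wt.sph_ne θ)).le (rpow_pos_of_pos ((hpos t).2 _) _).le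
      have e2 : 0 ≤ scl (-B) t L (θ : E n) * (scl α t u (θ : E n)) ^ (q + 1) :=
        mul_nonneg ((hs.wL.scl t).pos (Wt.sph_ne θ)).le (rpow_pos_of_pos ((hpos t).1 _) _).le
      have e3 := mul_le_mul_of_nonneg_right (min_le_left k1 k2) e1
      have e4 := mul_le_mul_of_nonneg_right (min_le_right k1 k2) e2
      simp only
      linarith only [e3, e4]
  · intro t1 t2 h12
    exact growG hp hq h1 h2 hs h12
  · exact grow_limG hn hp hq hA hB h1 h2 hd hω1 hω2 hs

/-- Constant multiples of cylinder functions. -/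
lemma cy_cm (r g : ℝ) (u : E n → ℝ) (s : ℝ) (θ : Sph n) :
    cy0 g (fun x => r * u x) s θ = r * cy0 g u s θ ∧
    cy1 g (fun x => r * u x) s θ = r * cy1 g u s θ ∧
    cyS g (fun x => r * u x) s θ = r * cyS g u s θ := by
  have e : (fun x : E n => r * u x) = fun x => r * u ((1 : ℝ) • x) := by
    funext x; rw [one_smul]
  refine ⟨?_, ?_, ?_⟩
  · unfold cy0; ring
  · unfold cy1
    rw [e]
    rw [fderiv_scale_apply]
    simp only [one_smul]
    ring
  · unfold cyS
    rw [e, sph_scale _ _ zero_le_one, one_smul]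
    ring

/-- The first normalizing constant. -/
def na (p q k l : ℝ) : ℝ := exp (-(p * Real.log l + Real.log k) / (p * q - 1))

/-- The second normalizing constant. -/
def nb (p q k l : ℝ) : ℝ := exp (-(q * Real.log k + Real.log l) / (p * q - 1))

lemma na_pos (p q k l : ℝ) : 0 < na p q k l := exp_pos _

lemma nb_pos (p q k l : ℝ) : 0 < nb p q k l := exp_pos _

lemma nb_rpow {p q k l : ℝ} (hpq : 1 < p * q) (hk : 0 < k) :
    (nb p q k l) ^ p * k = na p q k l := by
  have h : p * q - 1 ≠ 0 := by linarith only [hpq]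
  unfold na nb
  rw [← exp_mul]
  nth_rewrite 2 [← exp_log hk]
  rw [← exp_add]
  congr 1
  rw [div_mul_eq_mul_div, div_add' _ _ _ h, div_left_inj' h]
  ring

lemma na_rpow {p q k l : ℝ} (hpq : 1 < p * q) (hl : 0 < l) :
    (na p q k l) ^ q * l = nb p q k l := by
  have h : p * q - 1 ≠ 0 := by linarith only [hpq]
  unfold na nb
  rw [← exp_mul]
  nth_rewrite 2 [← exp_log hl]
  rw [← exp_add]
  congr 1
  rw [div_mul_eq_mul_div, div_add' _ _ _ h, div_left_inj' h]
  ring

lemma nab_mono {p q k l k' l' : ℝ} (hp : 0 < p) (hq : 0 < q) (hpq : 1 < p * q) (hk : 0 < k)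
    (hl : 0 < l) (hkk : k ≤ k') (hll : l ≤ l') :
    na p q k' l' * nb p q k' l' ≤ na p q k l * nb p q k l := by
  have h : 0 < p * q - 1 := by linarith only [hpq]
  have h1 : Real.log k ≤ Real.log k' := Real.log_le_log hk hkk
  have h2 : Real.log l ≤ Real.log l' := Real.log_le_log hl hll
  have h3 := mul_le_mul_of_nonneg_left h1 hq.le
  have h4 := mul_le_mul_of_nonneg_left h2 hp.le
  apply mul_le_mul
  · exact exp_le_exp.2 (div_le_div_of_nonneg_right (by linarith only [h1, h4]) h.le)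
  · exact exp_le_exp.2 (div_le_div_of_nonneg_right (by linarith only [h2, h3]) h.le)
  · exact (nb_pos _ _ _ _).le
  · exact (na_pos _ _ _ _).le

/-- Normalization of a solution. -/
lemma SG.normalize {p q A B M Ch : ℝ} (hpq : 1 < p * q) {K L u v : E n → ℝ}
    (hs : SG n p q A B M Ch K L u v) (θ0 : Sph n) :
    SL n p q A B Ch⁻¹ Ch M (fun x => K x / K (θ0 : E n)) (fun x => L x / L (θ0 : E n))
      (fun x => (na p q (K (θ0 : E n)) (L (θ0 : E n)))⁻¹ * u x)
      (fun x => (nb p q (K (θ0 : E n)) (L (θ0 : E n)))⁻¹ * v x) := by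
  have hk : 0 < K (θ0 : E n) := hs.wK.pos (Wt.sph_ne θ0)
  have hl : 0 < L (θ0 : E n) := hs.wL.pos (Wt.sph_ne θ0)
  set k := K (θ0 : E n)
  set l := L (θ0 : E n)
  have ha : 0 < na p q k l := na_pos _ _ _ _
  have hb : 0 < nb p q k l := nb_pos _ _ _ _
  have e1 := nb_rpow (l := l) hpq hk
  have e2 := na_rpow (k := k) hpq hl
  set a := na p q k l
  set b := nb p q k l
  have hlap : ∀ (r : ℝ) (w : E n → ℝ) (x : E n),
      Laplacian.laplacian (fun x => r * w x) x = r * Laplacian.laplacian w x := by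
    intro r w x
    have e : (fun x : E n => r * w x) = fun x => r * w ((1 : ℝ) • x) := by
      funext x; rw [one_smul]
    rw [e, laplacian_scale, one_smul]
    ring
  refine ⟨hs.wK.wln θ0, hs.wL.wln θ0, ⟨contDiffOn_const.mul hs.sol.contDiffOn_u,
    contDiffOn_const.mul hs.sol.contDiffOn_v, continuous_const.mul hs.sol.continuous_u,
    continuous_const.mul hs.sol.continuous_v,
    fun x => mul_pos (inv_pos.2 ha) (hs.sol.pos_u x),
    fun x => mul_pos (inv_pos.2 hb) (hs.sol.pos_v x), ?_, ?_⟩⟩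
  · intro x hx
    rw [hlap, ← mul_neg, hs.sol.eq_u x hx, mul_rpow (inv_pos.2 hb).le (hs.sol.pos_v x).le,
      inv_rpow hb.le, ← e1]
    have hbp : b ^ p ≠ 0 := (rpow_pos_of_pos hb _).ne'
    field_simp
  · intro x hx
    rw [hlap, ← mul_neg, hs.sol.eq_v x hx, mul_rpow (inv_pos.2 ha).le (hs.sol.pos_u x).le,
      inv_rpow ha.le, ← e2]
    have hbp : a ^ q ≠ 0 := (rpow_pos_of_pos ha _).ne'
    field_simp

/-- Normalization of the Hamiltonian. -/
lemma HamW_norm {p q d k l a b : ℝ} {K L u v : E n → ℝ} (hk : 0 < k) (hl : 0 < l) (ha : 0 < a)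
    (hb : 0 < b) (e1 : b ^ p * k = a) (e2 : a ^ q * l = b) (pu : ∀ x, 0 < u x)
    (pv : ∀ x, 0 < v x) :
    HamW n p q d K L u v = a * b * HamW n p q d (fun x => K x / k) (fun x => L x / l)
      (fun x => a⁻¹ * u x) (fun x => b⁻¹ * v x) := by
  unfold HamW
  rw [← integral_const_mul]
  congr 1
  ext θ
  obtain ⟨a0, a1, aS⟩ := cy_cm a⁻¹ (((n : ℝ) - 2) / 2 + d) u 0 θ
  obtain ⟨b0, b1, bS⟩ := cy_cm b⁻¹ (((n : ℝ) - 2) / 2 - d) v 0 θ
  rw [a0, a1, aS, b0, b1]
  have hv := (pv (θ : E n)).le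
  have hu := (pu (θ : E n)).le
  have f1 : a * b * (K (θ : E n) / k * (b⁻¹ * v (θ : E n)) ^ (p + 1)) =
      K (θ : E n) * v (θ : E n) ^ (p + 1) := by
    rw [mul_rpow (inv_pos.2 hb).le hv, inv_rpow hb.le, rpow_add hb, rpow_one, ← e1]
    have hbp : b ^ p ≠ 0 := (rpow_pos_of_pos hb _).ne'
    field_simp
  have f2 : a * b * (L (θ : E n) / l * (a⁻¹ * u (θ : E n)) ^ (q + 1)) =
      L (θ : E n) * u (θ : E n) ^ (q + 1) := by
    rw [mul_rpow (inv_pos.2 ha).le hu, inv_rpow ha.le, rpow_add ha, rpow_one]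
    rw [← e2]
    have hap : a ^ q ≠ 0 := (rpow_pos_of_pos ha _).ne'
    field_simp
  have f3 : a * b * (a⁻¹ * b⁻¹) = 1 := by
    field_simp
  rw [← f1, ← f2]
  linear_combination (-(cy1 (((n : ℝ) - 2) / 2 + d) u 0 θ * cy1 (((n : ℝ) - 2) / 2 - d) v 0 θ +
    cyS (((n : ℝ) - 2) / 2 + d) u 0 θ * cy0 (((n : ℝ) - 2) / 2 - d) v 0 θ
    - ((((n : ℝ) - 2) / 2) ^ 2 - d ^ 2) *
      (cy0 (((n : ℝ) - 2) / 2 + d) u 0 θ * cy0 (((n : ℝ) - 2) / 2 - d) v 0 θ))) * f3

/-- Normalization of the energy. -/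
lemma En_norm_le {p q k l a b R : ℝ} {K L u v : E n → ℝ} (hp : 0 < p) (hq : 0 < q)
    (hk : 0 < k) (hl : 0 < l) (ha : 0 < a)
    (hb : 0 < b) (e1 : b ^ p * k = a) (e2 : a ^ q * l = b) (pu : ∀ x, 0 < u x)
    (pv : ∀ x, 0 < v x) (hu : Continuous u) (hv : Continuous v)
    (cK : Continuous fun θ : Sph n => K (θ : E n)) (cL : Continuous fun θ : Sph n => L (θ : E n))
    (hK : ∀ θ : Sph n, k ≤ R * K (θ : E n)) (hL : ∀ θ : Sph n, l ≤ R * L (θ : E n)) :
    a * b * En n p q (fun x => a⁻¹ * u x) (fun x => b⁻¹ * v x) ≤ R * EnG n p q K L u v := by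
  unfold En EnG
  rw [← integral_const_mul, ← integral_const_mul]
  have cv : Continuous fun θ : Sph n => v (θ : E n) ^ (p + 1) :=
    (hv.comp continuous_subtype_val).rpow_const fun x => Or.inr (by linarith only [hp])
  have cu : Continuous fun θ : Sph n => u (θ : E n) ^ (q + 1) :=
    (hu.comp continuous_subtype_val).rpow_const fun x => Or.inr (by linarith only [hq])
  have cv' : Continuous fun θ : Sph n => (b⁻¹ * v (θ : E n)) ^ (p + 1) :=
    (continuous_const.mul (hv.comp continuous_subtype_val)).rpow_const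
      fun x => Or.inr (by linarith only [hp])
  have cu' : Continuous fun θ : Sph n => (a⁻¹ * u (θ : E n)) ^ (q + 1) :=
    (continuous_const.mul (hu.comp continuous_subtype_val)).rpow_const
      fun x => Or.inr (by linarith only [hq])
  apply integral_mono
  · exact GrowL.integrable_cont (continuous_const.mul (cv'.add cu'))
  · exact GrowL.integrable_cont (continuous_const.mul ((cK.mul cv).add (cL.mul cu)))
  · intro θ
    have hv0 := (pv (θ : E n)).le
    have hu0 := (pu (θ : E n)).le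
    have f1 : a * b * (b⁻¹ * v (θ : E n)) ^ (p + 1) = k * v (θ : E n) ^ (p + 1) := by
      rw [mul_rpow (inv_pos.2 hb).le hv0, inv_rpow hb.le, rpow_add hb, rpow_one, ← e1]
      have hbp : b ^ p ≠ 0 := (rpow_pos_of_pos hb _).ne'
      field_simp
    have f2 : a * b * (a⁻¹ * u (θ : E n)) ^ (q + 1) = l * u (θ : E n) ^ (q + 1) := by
      rw [mul_rpow (inv_pos.2 ha).le hu0, inv_rpow ha.le, rpow_add ha, rpow_one]
      rw [← e2]
      have hap : a ^ q ≠ 0 := (rpow_pos_of_pos ha _).ne'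
      field_simp
    have g1 := mul_le_mul_of_nonneg_right (hK θ) (rpow_pos_of_pos (pv (θ : E n)) (p + 1)).le
    have g2 := mul_le_mul_of_nonneg_right (hL θ) (rpow_pos_of_pos (pu (θ : E n)) (q + 1)).le
    show a * b * ((b⁻¹ * v (θ : E n)) ^ (p + 1) + (a⁻¹ * u (θ : E n)) ^ (q + 1)) ≤
      R * (K (θ : E n) * v (θ : E n) ^ (p + 1) + L (θ : E n) * u (θ : E n) ^ (q + 1))
    rw [mul_add, f1, f2]
    linarith only [g1, g2]

end

end Vale.Agent.P100.H20
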