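import Mathlib
import Vale.Agent.P100.H20.G5

set_option linter.all false

/-!
The local estimate and the nonexistence theorem for general weights, `n ≥ 3`, `p q > 1`.
-/

open MeasureTheory Set Filter Topology Real

namespace Vale.Agent.P100.H20

open Vale.Agent.P100.RM

noncomputable section

variable {n : ℕ}

/-- Comparison of the weight at the base point with the scaled weight. -/
lemma Wg.base_le {A M Ch : ℝ} {K : E n → ℝ} (w : Wg n A M Ch K) (θ0 θ : Sph n) {s : ℝ}
    (hs : |s| ≤ 1) {R : ℝ} (hR : Ch * exp (2 * |A| + |M|) ≤ R) :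
    K (θ0 : E n) ≤ R * RM.scl (-A) s K (θ : E n) := by
  have h1 := w.sph_har θ0 θ
  have h2 := w.low θ s
  have hK := w.pos (Wt.sph_ne θ)
  have hKs : 0 < K (exp s • (θ : E n)) := w.pos (expsmul_ne_zero s θ)
  have hCh := w.Ch_pos θ
  have hA := abs_nonneg A
  have hM := abs_nonneg M
  have hs0 := abs_nonneg s
  have h3 : K (θ : E n) ≤ exp ((|A| + |M|) * |s|) * K (exp s • (θ : E n)) := by
    have h4 := mul_le_mul_of_nonneg_left h2 (exp_pos ((|A| + |M|) * |s|)).le
    rw [← mul_assoc, ← exp_add, add_neg_cancel, exp_zero, one_mul] at h4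
    exact h4
  have h5 : K (exp s • (θ : E n)) = exp (A * s) * RM.scl (-A) s K (θ : E n) := by
    unfold RM.scl
    rw [← mul_assoc, ← exp_add]
    have : A * s + -A * s = 0 := by ring
    rw [this, exp_zero, one_mul]
  have hS : 0 < RM.scl (-A) s K (θ : E n) := (w.scl s).pos (Wt.sph_ne θ)
  rw [h5, ← mul_assoc, ← exp_add] at h3
  have h6 : exp ((|A| + |M|) * |s| + A * s) ≤ exp (2 * |A| + |M|) := by
    apply exp_le_exp.2
    have h7 : A * s ≤ |A| * |s| := by rw [← abs_mul]; exact le_abs_self _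
    have h8 := mul_le_mul_of_nonneg_left hs hA
    have h9 := mul_le_mul_of_nonneg_left hs hM
    linarith only [h7, h8, h9]
  calc K (θ0 : E n) ≤ Ch * K (θ : E n) := h1
    _ ≤ Ch * (exp (2 * |A| + |M|) * RM.scl (-A) s K (θ : E n)) :=
        mul_le_mul_of_nonneg_left (h3.trans (mul_le_mul_of_nonneg_right h6 hS.le)) hCh.le
    _ = (Ch * exp (2 * |A| + |M|)) * RM.scl (-A) s K (θ : E n) := by ring
    _ ≤ _ := mul_le_mul_of_nonneg_right hR hS.le

lemma scl_zero (α : ℝ) (u : E n → ℝ) : scl α 0 u = u := by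
  funext x
  unfold scl
  rw [mul_zero, exp_zero, one_smul, one_mul]

/-- The local estimate. -/
theorem locG (hn : 3 ≤ n) {p q A B M Ch : ℝ} (hp : 0 < p) (hq : 0 < q) (hpq : 1 < p * q)
    (α β d : ℝ) : ∃ C' k T0 : ℝ, 0 < C' ∧ 0 < k ∧ 0 < T0 ∧ T0 ≤ 1 / 2 ∧
    ∀ K L u v : E n → ℝ, SG n p q A B M Ch K L u v → ∀ θ0 : Sph n, ∀ T : ℝ, 0 < T → T ≤ T0 →
      HamW n p q d K L u v ≤ C' * T * (EnG n p q K L u v +
        ∫ s in (-(2 * T))..(2 * T),
          EnG n p q (scl (-A) s K) (scl (-B) s L) (scl α s u) (scl β s v)) +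
      C' * (na p q (K (θ0 : E n)) (L (θ0 : E n)) * nb p q (K (θ0 : E n)) (L (θ0 : E n))) *
        T ^ (-k) := by
  obtain ⟨C', k, T0, hC', hk, hT0, H⟩ := locL (n := n) hn (A := A) (B := B) (c := Ch⁻¹) (C := Ch)
    (M := M) hp hq hpq α β d
  obtain ⟨θ1⟩ := sph_nonempty (n := n) (by omega)
  set R : ℝ := max (Ch * exp (2 * |A| + |M|)) (Ch * exp (2 * |B| + |M|)) with hR
  refine ⟨C' * max R 1, k, min T0 (1 / 2), by positivity, hk, by positivity, min_le_right _ _, ?_⟩
  intro K L u v hs θ0 T hT hTle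
  have hTT0 : T ≤ T0 := hTle.trans (min_le_left _ _)
  have hT2 : T ≤ 1 / 2 := hTle.trans (min_le_right _ _)
  have hk0 : 0 < K (θ0 : E n) := hs.wK.pos (Wt.sph_ne θ0)
  have hl0 : 0 < L (θ0 : E n) := hs.wL.pos (Wt.sph_ne θ0)
  have e1 := nb_rpow (l := L (θ0 : E n)) hpq hk0
  have e2 := na_rpow (k := K (θ0 : E n)) hpq hl0
  have ha := na_pos p q (K (θ0 : E n)) (L (θ0 : E n))
  have hb := nb_pos p q (K (θ0 : E n)) (L (θ0 : E n))
  have key := H _ _ _ _ (hs.normalize hpq θ0) T hT hTT0
  have hHn := HamW_norm (p := p) (q := q) (d := d) (K := K) (L := L) hk0 hl0 ha hb e1 e2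
    hs.sol.pos_u hs.sol.pos_v
  generalize na p q (K (θ0 : E n)) (L (θ0 : E n)) = a at *
  generalize nb p q (K (θ0 : E n)) (L (θ0 : E n)) = b at *
  have hR0 : 0 < R := lt_of_lt_of_le (mul_pos (hs.wK.Ch_pos θ0) (exp_pos _)) (le_max_left _ _)
  -- the energies
  have hEs : ∀ s, |s| ≤ 1 → a * b * En n p q (scl α s fun x => a⁻¹ * u x)
      (scl β s fun x => b⁻¹ * v x) ≤
      R * EnG n p q (scl (-A) s K) (scl (-B) s L) (scl α s u) (scl β s v) := by
    intro s hs1
    have f1 : (scl α s fun x => a⁻¹ * u x) = fun x => a⁻¹ * scl α s u x := by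
      funext x; unfold scl; ring
    have f2 : (scl β s fun x => b⁻¹ * v x) = fun x => b⁻¹ * scl β s v x := by
      funext x; unfold scl; ring
    rw [f1, f2]
    exact En_norm_le hp hq hk0 hl0 ha hb e1 e2
      (fun x => mul_pos (exp_pos _) (hs.sol.pos_u _)) (fun x => mul_pos (exp_pos _) (hs.sol.pos_v _))
      (continuous_const.mul (hs.sol.continuous_u.comp (continuous_const_smul _)))
      (continuous_const.mul (hs.sol.continuous_v.comp (continuous_const_smul _)))
      (hs.wK.scl s).sph_cont (hs.wL.scl s).sph_cont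
      (fun θ => hs.wK.base_le θ0 θ hs1 (le_max_left _ _))
      (fun θ => hs.wL.base_le θ0 θ hs1 (le_max_right _ _))
  have hE0 : a * b * En n p q (fun x => a⁻¹ * u x) (fun x => b⁻¹ * v x) ≤
      R * EnG n p q K L u v := by
    have := hEs 0 (by rw [abs_zero]; exact zero_le_one)
    rwa [scl_zero, scl_zero, scl_zero, scl_zero, scl_zero, scl_zero] at this
  have hEi : a * b * (∫ s in (-(2 * T))..(2 * T), En n p q (scl α s fun x => a⁻¹ * u x)
      (scl β s fun x => b⁻¹ * v x)) ≤
      R * ∫ s in (-(2 * T))..(2 * T),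
        EnG n p q (scl (-A) s K) (scl (-B) s L) (scl α s u) (scl β s v) := by
    rw [← intervalIntegral.integral_const_mul, ← intervalIntegral.integral_const_mul]
    apply intervalIntegral.integral_mono_on (by linarith only [hT])
    · exact (continuous_const.mul (continuous_En hp hq (continuous_const.mul hs.sol.continuous_u)
        (continuous_const.mul hs.sol.continuous_v)
        (fun x => mul_pos (inv_pos.2 ha) (hs.sol.pos_u x))
        (fun x => mul_pos (inv_pos.2 hb) (hs.sol.pos_v x)))).intervalIntegrable _ _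
    · exact (continuous_const.mul (continuous_EnG hp hq hs.wK.cont hs.wL.cont
        hs.sol.continuous_u hs.sol.continuous_v)).intervalIntegrable _ _
    · intro s hsI
      apply hEs
      rw [abs_le]
      constructor <;> linarith only [hsI.1, hsI.2, hT2]
  have hEG0 : 0 ≤ EnG n p q K L u v :=
    (EnG_pos hn hp hq hs.wK.sph_cont hs.wL.sph_cont (fun θ => hs.wK.pos (Wt.sph_ne θ))
      (fun θ => hs.wL.pos (Wt.sph_ne θ)) hs.sol.continuous_u hs.sol.continuous_v hs.sol.pos_u
      hs.sol.pos_v).le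
  have hEGi : 0 ≤ ∫ s in (-(2 * T))..(2 * T),
        EnG n p q (scl (-A) s K) (scl (-B) s L) (scl α s u) (scl β s v) := by
    apply intervalIntegral.integral_nonneg (by linarith only [hT])
    intro s _
    exact (EnG_pos hn hp hq (hs.wK.scl s).sph_cont (hs.wL.scl s).sph_cont
      (fun θ => (hs.wK.scl s).pos (Wt.sph_ne θ)) (fun θ => (hs.wL.scl s).pos (Wt.sph_ne θ))
      (continuous_const.mul (hs.sol.continuous_u.comp (continuous_const_smul _)))
      (continuous_const.mul (hs.sol.continuous_v.comp (continuous_const_smul _)))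
      (fun x => mul_pos (exp_pos _) (hs.sol.pos_u _))
      (fun x => mul_pos (exp_pos _) (hs.sol.pos_v _))).le
  have hab : 0 < a * b := mul_pos ha hb
  have hTk : 0 < T ^ (-k) := rpow_pos_of_pos hT _
  have hm1 : R ≤ max R 1 := le_max_left _ _
  have hm2 : 1 ≤ max R 1 := le_max_right _ _
  rw [hHn]
  have key2 := mul_le_mul_of_nonneg_left key hab.le
  refine key2.trans ?_
  generalize max R 1 = m at *
  generalize EnG n p q K L u v = X at *
  generalize (∫ s in (-(2 * T))..(2 * T),
        EnG n p q (scl (-A) s K) (scl (-B) s L) (scl α s u) (scl β s v)) = Y at *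
  generalize En n p q (fun x => a⁻¹ * u x) (fun x => b⁻¹ * v x) = x at *
  generalize (∫ s in (-(2 * T))..(2 * T), En n p q (scl α s fun x => a⁻¹ * u x)
      (scl β s fun x => b⁻¹ * v x)) = y at *
  generalize T ^ (-k) = z at *
  have hCT : 0 ≤ C' * T := (mul_pos hC' hT).le
  have q1 : a * b * x + a * b * y ≤ m * (X + Y) := by
    have t1 := mul_le_mul_of_nonneg_right hm1 (add_nonneg hEG0 hEGi)
    linarith only [hE0, hEi, t1]
  have q2 := mul_le_mul_of_nonneg_left q1 hCT
  have q3 : C' * (a * b) * z ≤ C' * m * (a * b) * z := by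
    have t1 : 0 ≤ C' * (a * b) * z := by positivity
    have t2 := mul_le_mul_of_nonneg_right hm2 t1
    linarith only [t2]
  calc a * b * (C' * T * (x + y) + C' * z) = C' * T * (a * b * x + a * b * y) +
        C' * (a * b) * z := by ring
    _ ≤ C' * T * (m * (X + Y)) + C' * m * (a * b) * z := add_le_add q2 q3
    _ = _ := by ring

/-- **Nonexistence for general weights, `n ≥ 3`, `p q > 1`.** -/
theorem no_solution_rmG (hn : 3 ≤ n) {p q A B M Ch : ℝ} (hp : 0 < p) (hq : 0 < q)
    (hpq : 1 < p * q) (hA : -2 < A) (hB : -2 < B)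
    (hw : (n : ℝ) - 2 < ((n : ℝ) + A) / (p + 1) + ((n : ℝ) + B) / (q + 1))
    {K L u v : E n → ℝ} (hs : SG n p q A B M Ch K L u v) : False := by
  have hpq1 : 0 < p * q - 1 := by linarith only [hpq]
  set α : ℝ := (2 + A + p * (2 + B)) / (p * q - 1) with hα
  set β : ℝ := (2 + B + q * (2 + A)) / (p * q - 1) with hβ
  have e3 : α * (p * q - 1) = 2 + A + p * (2 + B) := by
    rw [hα]
    exact div_mul_cancel₀ _ hpq1.ne'
  have e4 : β * (p * q - 1) = 2 + B + q * (2 + A) := by
    rw [hβ]
    exact div_mul_cancel₀ _ hpq1.ne'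
  have h1 : α + 2 + A = β * p := by
    apply mul_right_cancel₀ hpq1.ne'
    linear_combination e3 - p * e4
  have h2 : β + 2 + B = α * q := by
    apply mul_right_cancel₀ hpq1.ne'
    linear_combination e4 - q * e3
  have hn3 : (3 : ℝ) ≤ n := by exact_mod_cast hn
  have hδ : 0 < α + β - ((n : ℝ) - 2) := by
    have e1 : α + β = (2 + A + p * (2 + B) + (2 + B + q * (2 + A))) / (p * q - 1) := by
      rw [hα, hβ]
      ring
    have e2 : ((n : ℝ) + A) / (p + 1) + ((n : ℝ) + B) / (q + 1) =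
        (((n : ℝ) + A) * (q + 1) + ((n : ℝ) + B) * (p + 1)) / ((p + 1) * (q + 1)) := by
      (clear * - hq hp; field_simp)
    rw [e2, lt_div_iff₀ (by positivity)] at hw
    rw [e1, sub_pos, lt_div_iff₀ hpq1]
    nlinarith only [hw]
  obtain ⟨θ0⟩ := sph_nonempty (n := n) (by omega)
  obtain ⟨d, hd, hω1, hω2⟩ := exists_drift hn3 hp hq hA hB h1 h2 hw
  obtain ⟨c0, hc0, hgrow, hlim⟩ := growth_packG hn hp hq hA hB h1 h2 hδ hd hω1 hω2 hs
  obtain ⟨C', k, T0, hC, hk, hT0, hT01, hloc⟩ := locG (n := n) hn (A := A) (B := B) (M := M)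
    (Ch := Ch) hp hq hpq α β d
  set ab : ℝ := na p q (K (θ0 : E n)) (L (θ0 : E n)) * nb p q (K (θ0 : E n)) (L (θ0 : E n))
    with hab
  have hab0 : 0 < ab := mul_pos (na_pos _ _ _ _) (nb_pos _ _ _ _)
  set H : ℝ → ℝ := fun t => HamW n p q d (scl (-A) t K) (scl (-B) t L) (scl α t u) (scl β t v)
    with hH
  set e : ℝ → ℝ := fun t => EnG n p q (scl (-A) t K) (scl (-B) t L) (scl α t u) (scl β t v)
    with he
  have he0 : ∀ t, 0 < e t := fun t =>
    EnG_pos hn hp hq (hs.wK.scl t).sph_cont (hs.wL.scl t).sph_cont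
      (fun θ => (hs.wK.scl t).pos (Wt.sph_ne θ)) (fun θ => (hs.wL.scl t).pos (Wt.sph_ne θ))
      (continuous_const.mul (hs.sol.continuous_u.comp (continuous_const_smul _)))
      (continuous_const.mul (hs.sol.continuous_v.comp (continuous_const_smul _)))
      (fun x => mul_pos (exp_pos _) (hs.sol.pos_u _))
      (fun x => mul_pos (exp_pos _) (hs.sol.pos_v _))
  have hec : Continuous e := continuous_EnG hp hq hs.wK.cont hs.wL.cont
    hs.sol.continuous_u hs.sol.continuous_v
  have hCtot : 0 < C' * (1 + ab) + |H 0| :=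
    add_pos_of_pos_of_nonneg (by positivity) (abs_nonneg _)
  refine iter (H := H) (e := e) (fun t => (he0 t).le) hec hc0 hCtot hk hT0 hgrow hlim ?_
  intro t T hT hTle
  have hEi : 0 ≤ ∫ s in (t - 2 * T)..(t + 2 * T), e s :=
    intervalIntegral.integral_nonneg (by linarith only [hT]) fun s _ => (he0 s).le
  have hsum : 0 ≤ e t + ∫ s in (t - 2 * T)..(t + 2 * T), e s := add_nonneg (he0 t).le hEi
  have hTk : 1 ≤ T ^ (-k) := by
    rw [rpow_neg hT.le]
    apply (one_le_inv₀ (rpow_pos_of_pos hT _)).2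
    exact rpow_le_one hT.le (by linarith only [hTle, hT01]) hk.le
  have hH0 := abs_nonneg (H 0)
  rcases le_total 0 t with ht | ht
  · have h3 := hloc _ _ _ _ (hs.scl h1 h2 t) θ0 T hT hTle
    have h4 : (∫ s in (-(2 * T))..(2 * T),
        EnG n p q (scl (-A) s (scl (-A) t K)) (scl (-B) s (scl (-B) t L))
          (scl α s (scl α t u)) (scl β s (scl β t v))) =
        ∫ s in (t - 2 * T)..(t + 2 * T), e s := by
      have h5 : (fun s => EnG n p q (scl (-A) s (scl (-A) t K)) (scl (-B) s (scl (-B) t L))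
          (scl α s (scl α t u)) (scl β s (scl β t v))) = fun s => e (s + t) := by
        funext s
        rw [scl_scl, scl_scl, scl_scl, scl_scl]
      rw [h5, intervalIntegral.integral_comp_add_right e t]
      congr 1 <;> ring
    rw [h4] at h3
    have hmK := hs.wK.scl_mono θ0 ht
    have hmL := hs.wL.scl_mono θ0 ht
    rw [scl_zero] at hmK hmL
    have h6 := nab_mono (p := p) (q := q) hp hq hpq (hs.wK.pos (Wt.sph_ne θ0))
      (hs.wL.pos (Wt.sph_ne θ0)) hmK hmL
    have hX : H t ≤ C' * T * (e t + ∫ s in (t - 2 * T)..(t + 2 * T), e s) +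
        C' * ab * T ^ (-k) := by
      refine h3.trans (add_le_add le_rfl ?_)
      exact mul_le_mul_of_nonneg_right (mul_le_mul_of_nonneg_left h6 hC.le)
        (by linarith only [hTk])
    refine hX.trans ?_
    generalize (e t + ∫ s in (t - 2 * T)..(t + 2 * T), e s) = Z at *
    generalize T ^ (-k) = W at *
    have t1 : 0 ≤ (C' * ab + |H 0|) * T * Z := by positivity
    have t2 : 0 ≤ (C' + |H 0|) * W := by
      have : 0 ≤ W := by linarith only [hTk]
      positivity
    linarith only [t1, t2]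
  · have hm : H t ≤ H 0 := by
      have h3 := hgrow t 0 ht
      have h4 : 0 ≤ ∫ s in t..0, e s :=
        intervalIntegral.integral_nonneg ht fun s _ => (he0 s).le
      have h5 := mul_nonneg hc0.le h4
      linarith only [h3, h5]
    have h3 : H 0 ≤ |H 0| := le_abs_self _
    generalize (e t + ∫ s in (t - 2 * T)..(t + 2 * T), e s) = Z at *
    generalize T ^ (-k) = W at *
    have t1 : 0 ≤ (C' * (1 + ab) + |H 0|) * T * Z := by positivity
    have t2 : |H 0| * 1 ≤ |H 0| * W := mul_le_mul_of_nonneg_left hTk hH0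
    have t3 : 0 ≤ C' * (1 + ab) * W := by
      have : 0 ≤ W := by linarith only [hTk]
      positivity
    linarith only [hm, h3, t1, t2, t3]

end

end Vale.Agent.P100.H20
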