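import Mathlib
import Vale.Agent.P100.H20.G6
import Vale.Agent.P100.H20.Cyl

set_option linter.all false

/-!
Elementary cases (`n = 2`, `p q ≤ 1`) for general weights, and the nonexistence theorem for general
weights.
-/

open Set Filter Topology

namespace Vale.Agent.P100

variable {K : Type*} [TopologicalSpace K]

/-- Positive entire supersolutions in cylinder form (`N = n - 2`), lower bounds of the weights only
for `t ≥ -1`. -/
structure SolJ (K : Type*) [TopologicalSpace K] (N p q A B k : ℝ) where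
  u : Cyl K
  v : Cyl K
  hk : 0 < k
  hu : ∀ t θ, 0 < u.f t θ
  hv : ∀ t θ, 0 < v.f t θ
  su : ∀ t θ, u.f2 t θ + N * u.f1 t θ + u.S t θ < 0
  sv : ∀ t θ, v.f2 t θ + N * v.f1 t θ + v.S t θ < 0
  eu : ∀ t θ, -1 ≤ t → u.f2 t θ + N * u.f1 t θ + u.S t θ ≤
    -(k * (Real.exp ((2 + A) * t) * v.f t θ ^ p))
  ev : ∀ t θ, -1 ≤ t → v.f2 t θ + N * v.f1 t θ + v.S t θ ≤
    -(k * (Real.exp ((2 + B) * t) * u.f t θ ^ q))

namespace SolJ

variable {N p q A B k : ℝ}

/-- Exchange the roles of `u` and `v`. -/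
def swap (s : SolJ K N p q A B k) : SolJ K N q p B A k where
  u := s.v
  v := s.u
  hk := s.hk
  hu := s.hv
  hv := s.hu
  su := s.sv
  sv := s.su
  eu := s.ev
  ev := s.eu

lemma sup_u (s : SolJ K N p q A B k) (t : ℝ) (θ : K) :
    s.u.f2 t θ + N * s.u.f1 t θ + s.u.S t θ < 0 := s.su t θ

/-- `m_u(τ) ≥ C e^{(2+A)τ} m_v(τ)^p`. -/
lemma star [CompactSpace K] (s : SolJ K N p q A B k) (hN : 0 < N) (hp : 0 < p) {τ c : ℝ}
    (hτ : 0 ≤ τ) (hc : 0 < c) (h : ∀ θ, c ≤ s.v.f τ θ) : ∀ θ,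
    k * Real.exp (-|2 + A| - N * p) / (4 * (1 + N)) * (Real.exp ((2 + A) * τ) * c ^ p) ≤
      s.u.f τ θ := by
  have hk := s.hk
  have hl := s.v.lower_left hN s.swap.sup_u s.hv hc.le h
  have hr := s.v.lower_right hN s.swap.sup_u s.hv hc.le h
  have hv : ∀ t ∈ Ioo (τ - 1) (τ + 1), ∀ θ, c * Real.exp (-N) ≤ s.v.f t θ := by
    intro t ht θ
    rcases le_total t τ with h1 | h1
    · refine le_trans ?_ (hl t h1 θ)
      have : Real.exp (-N) ≤ 1 := Real.exp_le_one_iff.mpr (by linarith only [hN])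
      nlinarith only [hc, this]
    · refine le_trans ?_ (hr t h1 θ)
      apply mul_le_mul_of_nonneg_left _ hc.le
      rw [Real.exp_le_exp]
      nlinarith only [hN, ht.2]
  intro θ
  have := s.u.local_lower hN.le (τ := τ)
    (M := k * (Real.exp (-|2 + A| - N * p) * (Real.exp ((2 + A) * τ) * c ^ p))) (by positivity) ?_
      s.hu θ
  · calc _ = k * (Real.exp (-|2 + A| - N * p) * (Real.exp ((2 + A) * τ) * c ^ p)) /
          (4 * (1 + N)) := by
          ring
      _ ≤ _ := this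
  · intro t ht θ
    refine (s.eu t θ (by linarith only [ht.1, hτ])).trans ?_
    rw [neg_le_neg_iff]
    apply mul_le_mul_of_nonneg_left _ hk.le
    have h1 : (c * Real.exp (-N)) ^ p ≤ s.v.f t θ ^ p :=
      Real.rpow_le_rpow (by positivity) (hv t ht θ) hp.le
    have h2 : (c * Real.exp (-N)) ^ p = c ^ p * Real.exp (-N * p) := by
      rw [Real.mul_rpow hc.le (Real.exp_pos _).le, ← Real.exp_mul]
    have h3 : Real.exp ((2 + A) * τ - |2 + A|) ≤ Real.exp ((2 + A) * t) := by
      rw [Real.exp_le_exp]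
      have h4 : (2 + A) * (τ - t) ≤ |2 + A| * |τ - t| := by
        rw [← abs_mul]; exact le_abs_self _
      have h5 : |τ - t| ≤ 1 := by
        rw [abs_le]; constructor <;> linarith [ht.1, ht.2]
      nlinarith only [h4, h5, abs_nonneg (2 + A)]
    calc Real.exp (-|2 + A| - N * p) * (Real.exp ((2 + A) * τ) * c ^ p)
        = Real.exp ((2 + A) * τ - |2 + A|) * (c ^ p * Real.exp (-N * p)) := by
          rw [show Real.exp (-|2 + A| - N * p) * (Real.exp ((2 + A) * τ) * c ^ p)
            = (Real.exp (-|2 + A| - N * p) * Real.exp ((2 + A) * τ)) * c ^ p by ring,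
            show Real.exp ((2 + A) * τ - |2 + A|) * (c ^ p * Real.exp (-N * p))
            = (Real.exp ((2 + A) * τ - |2 + A|) * Real.exp (-N * p)) * c ^ p by ring,
            ← Real.exp_add, ← Real.exp_add]
          congr 2
          ring
      _ ≤ Real.exp ((2 + A) * t) * s.v.f t θ ^ p := by
          rw [← h2]
          exact mul_le_mul h3 h1 (by positivity) (Real.exp_pos _).le

/-- Existence of the minimum on a slice, in exponential form. -/
lemma exists_min [CompactSpace K] [Nonempty K] (s : SolJ K N p q A B k) (τ : ℝ) :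
    ∃ x : ℝ, (∀ θ, Real.exp x ≤ s.u.f τ θ) ∧ ∃ θ, s.u.f τ θ = Real.exp x := by
  have cs : Continuous (fun θ : K => s.u.f τ θ) :=
    s.u.cf.comp (Continuous.prodMk continuous_const continuous_id)
  obtain ⟨θ0, -, hθ0⟩ := isCompact_univ.exists_isMinOn (univ_nonempty (α := K)) cs.continuousOn
  refine ⟨Real.log (s.u.f τ θ0), ?_, θ0, ?_⟩
  · intro θ
    rw [Real.exp_log (s.hu τ θ0)]
    exact hθ0 (mem_univ θ)
  · rw [Real.exp_log (s.hu τ θ0)]

/-- The scaling inequality for the logarithm of the minimum. -/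
lemma scaling [CompactSpace K] [Nonempty K] (s : SolJ K N p q A B k) (hN : 0 < N) (hp : 0 < p)
    (hq : 0 < q) : ∃ C : ℝ, ∀ τ : ℝ, 0 ≤ τ → ∃ x : ℝ, (∀ θ, Real.exp x ≤ s.u.f τ θ) ∧
      (∃ θ, s.u.f τ θ = Real.exp x) ∧ C + (2 + A + p * (2 + B)) * τ ≤ (1 - p * q) * x := by
  have hk := s.hk
  set L1 := Real.log (k * Real.exp (-|2 + A| - N * p) / (4 * (1 + N))) with hL1
  set L2 := Real.log (k * Real.exp (-|2 + B| - N * q) / (4 * (1 + N))) with hL2
  have e1 : Real.exp L1 = k * Real.exp (-|2 + A| - N * p) / (4 * (1 + N)) :=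
    Real.exp_log (by positivity)
  have e2 : Real.exp L2 = k * Real.exp (-|2 + B| - N * q) / (4 * (1 + N)) :=
    Real.exp_log (by positivity)
  refine ⟨L1 + p * L2, ?_⟩
  intro τ hτ
  obtain ⟨x, hx1, θx, hx2⟩ := s.exists_min τ
  obtain ⟨y, hy1, θy, hy2⟩ := s.swap.exists_min τ
  refine ⟨x, hx1, ⟨θx, hx2⟩, ?_⟩
  have h1 := s.star hN hp hτ (Real.exp_pos y) hy1 θx
  have h2 := s.swap.star hN hq hτ (Real.exp_pos x) hx1 θy
  rw [hx2, ← e1, ← Real.exp_mul, ← Real.exp_add, ← Real.exp_add, Real.exp_le_exp] at h1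
  have hy2' : s.swap.u.f τ θy = Real.exp y := hy2
  rw [hy2', ← e2, ← Real.exp_mul, ← Real.exp_add, ← Real.exp_add, Real.exp_le_exp] at h2
  have h3 : p * (L2 + ((2 + B) * τ + x * q)) ≤ p * y := mul_le_mul_of_nonneg_left h2 hp.le
  nlinarith only [h1, h3]

/-- No solution if `p q ≤ 1` (and the weights are not too singular). -/
theorem false_of_sublinear [CompactSpace K] [Nonempty K] (s : SolJ K N p q A B k) (hN : 0 < N)
    (hp : 0 < p) (hq : 0 < q) (hpq : p * q ≤ 1) (hA : 0 < 2 + A + p * (2 + B)) : False := by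
  obtain ⟨C, hC⟩ := s.scaling hN hp hq
  obtain ⟨θ0⟩ := ‹Nonempty K›
  set X := Real.log (s.u.f 0 θ0) with hX
  have key : ∀ τ, 0 ≤ τ → C + (2 + A + p * (2 + B)) * τ ≤ (1 - p * q) * X := by
    intro τ hτ
    obtain ⟨x, hx1, -, hx3⟩ := hC τ hτ
    have h1 := s.u.lower_left hN s.sup_u s.hu (Real.exp_pos x).le hx1 0 hτ θ0
    have h2 : x ≤ X := by
      rw [hX, Real.le_log_iff_exp_le (s.hu 0 θ0)]
      exact h1
    refine hx3.trans (mul_le_mul_of_nonneg_left h2 (by linarith only [hpq]))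
  have h0 := key ((|(1 - p * q) * X - C| + 1) / (2 + A + p * (2 + B))) (by (clear * - hA; positivity))
  rw [mul_div_cancel₀ _ hA.ne'] at h0
  linarith only [h0, le_abs_self ((1 - p * q) * X - C)]

/-- No solution in dimension two (`N = 0`). -/
theorem false_of_N_zero [CompactSpace K] [Nonempty K] (s : SolJ K 0 p q A B k) : False := by
  obtain ⟨x, hx1, θ0, hx2⟩ := s.exists_min 0
  set m := Real.exp x with hm
  have hm0 : 0 < m := Real.exp_pos x
  have hL : ∀ t θ, s.u.f2 t θ + s.u.S t θ < 0 := by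
    intro t θ
    have := s.sup_u t θ
    linarith only [this]
  have right : ∀ t, 0 ≤ t → ∀ θ, m ≤ s.u.f t θ := by
    intro t ht θ
    have main : ∀ T > t, m - m / T * t ≤ s.u.f t θ := by
      intro T hT
      have hT0 : 0 < T := by linarith
      refine comparison (w := s.u.f) (w1 := s.u.f1) (w2 := s.u.f2)
        (h := fun r => m - m / T * r) (h1 := fun _ => -(m / T * 1)) (h2 := fun _ => 0)
        (a := 0) (b := T) ?_ ?_ ?_ ?_ ?_ ?_ ?_ ?_ t ⟨ht, hT.le⟩ θ
      · exact (s.u.cf.sub (by fun_prop)).continuousOn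
      · intro t _ θ; exact s.u.hf t θ
      · intro t _ θ; exact s.u.hf1 t θ
      · intro t _
        exact ((hasDerivAt_id t).const_mul (m / T)).const_sub m
      · intro t _; exact hasDerivAt_const t _
      · intro θ; simpa only [mul_zero, sub_zero] using hx1 θ
      · intro θ
        have : m - m / T * T = 0 := by field_simp; ring
        rw [this]; exact (s.hu T θ).le
      · intro t _ θ _ h1 h2 hφ
        have h3 := s.u.hS1 t θ hφ
        have h4 := hL t θ
        linarith only [h2, h3, h4]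
    have hlim : Tendsto (fun T : ℝ => m - m / T * t) atTop (𝓝 (m - 0 * t)) := by
      refine tendsto_const_nhds.sub (Tendsto.mul_const t ?_)
      exact tendsto_const_nhds.div_atTop tendsto_id
    rw [zero_mul, sub_zero] at hlim
    refine le_of_tendsto hlim ?_
    filter_upwards [eventually_gt_atTop t] with T hT
    exact main T hT
  have left : ∀ t, t ≤ 0 → ∀ θ, m ≤ s.u.f t θ := by
    intro t ht θ
    have main : ∀ T > -t, m - m / T * (-t) ≤ s.u.f t θ := by
      intro T hT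
      have hT0 : 0 < T := by linarith only [ht, hT]
      refine comparison (w := s.u.f) (w1 := s.u.f1) (w2 := s.u.f2)
        (h := fun r => m - m / T * (-r)) (h1 := fun _ => -(m / T * (-1))) (h2 := fun _ => 0)
        (a := -T) (b := 0) ?_ ?_ ?_ ?_ ?_ ?_ ?_ ?_ t ⟨by linarith, ht⟩ θ
      · exact (s.u.cf.sub (by fun_prop)).continuousOn
      · intro t _ θ; exact s.u.hf t θ
      · intro t _ θ; exact s.u.hf1 t θ
      · intro t _
        exact ((hasDerivAt_id t).neg.const_mul (m / T)).const_sub m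
      · intro t _; exact hasDerivAt_const t _
      · intro θ
        have : m - m / T * (- -T) = 0 := by rw [neg_neg]; field_simp; ring
        rw [this]; exact (s.hu (-T) θ).le
      · intro θ; simpa only [neg_zero, mul_zero, sub_zero] using hx1 θ
      · intro t _ θ _ h1 h2 hφ
        have h3 := s.u.hS1 t θ hφ
        have h4 := hL t θ
        linarith only [h2, h3, h4]
    have hlim : Tendsto (fun T : ℝ => m - m / T * (-t)) atTop (𝓝 (m - 0 * (-t))) := by
      refine tendsto_const_nhds.sub (Tendsto.mul_const (-t) ?_)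
      exact tendsto_const_nhds.div_atTop tendsto_id
    rw [zero_mul, sub_zero] at hlim
    refine le_of_tendsto hlim ?_
    filter_upwards [eventually_gt_atTop (-t)] with T hT
    exact main T hT
  have hmin : IsLocalMin (fun r => s.u.f r θ0) 0 := by
    apply Filter.Eventually.of_forall
    intro r
    show s.u.f 0 θ0 ≤ s.u.f r θ0
    rw [hx2]
    rcases le_total 0 r with h | h
    · exact right r h θ0
    · exact left r h θ0
  have h2 := (second_deriv_nonneg (f := fun r => s.u.f r θ0) (f1 := fun r => s.u.f1 r θ0)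
    (Filter.Eventually.of_forall (fun r => s.u.hf r θ0)) (s.u.hf1 0 θ0) hmin).2
  have h3 := s.u.hS1 0 θ0 (by intro φ; rw [hx2]; exact hx1 φ)
  have h4 := hL 0 θ0
  linarith only [h2, h3, h4]

end SolJ


open H20 in
/-- A positive entire solution on `ℝ^n` gives a supersolution on the cylinder. -/
theorem toSolJ {n : ℕ} {p q A B M Ch : ℝ} {K L u v : EuclideanSpace ℝ (Fin n) → ℝ}
    (h : SG n p q A B M Ch K L u v) (θ0 : Metric.sphere (0 : EuclideanSpace ℝ (Fin n)) 1) :
    ∃ k : ℝ, Nonempty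
      (SolJ (Metric.sphere (0 : EuclideanSpace ℝ (Fin n)) 1) ((n : ℝ) - 2) p q A B k) := by
  have low : ∀ {A : ℝ} {K : EuclideanSpace ℝ (Fin n) → ℝ}, Wg n A M Ch K → ∃ c : ℝ, 0 < c ∧
      ∀ t : ℝ, -1 ≤ t → ∀ θ : Metric.sphere (0 : EuclideanSpace ℝ (Fin n)) 1,
      c * Real.exp (t * A) ≤ K (Real.exp t • (θ : EuclideanSpace ℝ (Fin n))) := by
    intro A K w
    have hk0 : 0 < Ch⁻¹ * K (θ0 : EuclideanSpace ℝ (Fin n)) := (w.wl θ0).c0
    refine ⟨Real.exp (-(2 * |A| + |M|)) * (Ch⁻¹ * K (θ0 : EuclideanSpace ℝ (Fin n))),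
      mul_pos (Real.exp_pos _) hk0, fun t ht θ => ?_⟩
    have hlo := (w.wl θ0).lo θ
    generalize Ch⁻¹ * K (θ0 : EuclideanSpace ℝ (Fin n)) = k0 at *
    have hA := abs_nonneg A
    have hM := abs_nonneg M
    rcases le_total 0 t with h0 | h0
    · have h1 := w.ray θ h0
      rw [Real.exp_zero, one_smul, sub_zero] at h1
      refine le_trans ?_ h1
      have h2 : Real.exp (-(2 * |A| + |M|)) ≤ 1 :=
        Real.exp_le_one_iff.2 (by linarith only [hA, hM])
      have h3 := (Real.exp_pos (A * t)).le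
      rw [mul_comm t A]
      calc Real.exp (-(2 * |A| + |M|)) * k0 * Real.exp (A * t)
          ≤ 1 * k0 * Real.exp (A * t) :=
            mul_le_mul_of_nonneg_right (mul_le_mul_of_nonneg_right h2 hk0.le) h3
        _ = Real.exp (A * t) * k0 := by ring
        _ ≤ _ := mul_le_mul_of_nonneg_left hlo h3
    · have h1 := w.low θ t
      refine le_trans ?_ h1
      have h2 : Real.exp (-(2 * |A| + |M|)) * Real.exp (t * A) ≤
          Real.exp (-((|A| + |M|) * |t|)) := by
        rw [← Real.exp_add]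
        apply Real.exp_le_exp.2
        have e1 : |t| ≤ 1 := by rw [abs_of_nonpos h0]; linarith only [ht]
        have e2 : t * A ≤ |t| * |A| := by rw [← abs_mul]; exact le_abs_self _
        have e3 := mul_le_mul_of_nonneg_left e1 hA
        have e4 := mul_le_mul_of_nonneg_left e1 hM
        linarith only [e2, e3, e4]
      calc Real.exp (-(2 * |A| + |M|)) * k0 * Real.exp (t * A)
          = (Real.exp (-(2 * |A| + |M|)) * Real.exp (t * A)) * k0 := by ring
        _ ≤ Real.exp (-((|A| + |M|) * |t|)) * k0 := mul_le_mul_of_nonneg_right h2 hk0.le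
        _ ≤ _ := mul_le_mul_of_nonneg_left hlo (Real.exp_pos _).le
  obtain ⟨c1, hc1, h1⟩ := low h.wK
  obtain ⟨c2, hc2, h2⟩ := low h.wL
  have aux : ∀ {A c c' p : ℝ} {K u v : EuclideanSpace ℝ (Fin n) → ℝ}, c' ≤ c →
      ∀ (hu : ContDiffOn ℝ 2 u {0}ᶜ), (∀ x, 0 < v x) →
      (∀ t : ℝ, -1 ≤ t → ∀ θ : Metric.sphere (0 : EuclideanSpace ℝ (Fin n)) 1,
        c * Real.exp (t * A) ≤ K (Real.exp t • (θ : EuclideanSpace ℝ (Fin n)))) →
      (∀ x, x ≠ 0 → -(Laplacian.laplacian u x) = K x * v x ^ p) →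
      ∀ (t : ℝ) (θ : Metric.sphere (0 : EuclideanSpace ℝ (Fin n)) 1), -1 ≤ t →
      (toCyl u hu).f2 t θ + ((n : ℝ) - 2) * (toCyl u hu).f1 t θ + (toCyl u hu).S t θ ≤
      -(c' * (Real.exp ((2 + A) * t) *
        v (Real.exp t • (θ : EuclideanSpace ℝ (Fin n))) ^ p)) := by
    intro A c c' p K u v hc' hu hv hK he t θ ht
    have h1 := toCyl_eq u hu t θ
    rw [finrank_euclideanSpace_fin] at h1
    rw [h1]
    have hx := expsmul_ne_zero t θ
    have h2 := he (Real.exp t • (θ : EuclideanSpace ℝ (Fin n))) hx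
    have h3 := hK t ht θ
    have h4 : 0 < v (Real.exp t • (θ : EuclideanSpace ℝ (Fin n))) ^ p :=
      Real.rpow_pos_of_pos (hv _) p
    have h5 : c' * Real.exp (t * A) ≤ K (Real.exp t • (θ : EuclideanSpace ℝ (Fin n))) :=
      (mul_le_mul_of_nonneg_right hc' (Real.exp_pos _).le).trans h3
    have h6 := mul_le_mul_of_nonneg_right h5 h4.le
    have h7 : Real.exp ((2 + A) * t) = Real.exp (2 * t) * Real.exp (t * A) := by
      rw [← Real.exp_add]; congr 1; ring
    have h8 := mul_le_mul_of_nonneg_left h6 (Real.exp_pos (2 * t)).le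
    rw [h7]
    show Real.exp (2 * t) * _ ≤ _
    linarith only [h8, h2, congrArg (fun z => Real.exp (2 * t) * z) h2]
  have sup : ∀ {p : ℝ} {K u v : EuclideanSpace ℝ (Fin n) → ℝ},
      ∀ (hu : ContDiffOn ℝ 2 u {0}ᶜ), (∀ x, 0 < v x) → (∀ x, x ≠ 0 → 0 < K x) →
      (∀ x, x ≠ 0 → -(Laplacian.laplacian u x) = K x * v x ^ p) →
      ∀ (t : ℝ) (θ : Metric.sphere (0 : EuclideanSpace ℝ (Fin n)) 1),
      (toCyl u hu).f2 t θ + ((n : ℝ) - 2) * (toCyl u hu).f1 t θ + (toCyl u hu).S t θ < 0 := by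
    intro p K u v hu hv hK he t θ
    have h1 := toCyl_eq u hu t θ
    rw [finrank_euclideanSpace_fin] at h1
    rw [h1]
    have hx := expsmul_ne_zero t θ
    have h2 := he (Real.exp t • (θ : EuclideanSpace ℝ (Fin n))) hx
    have h3 : 0 < K (Real.exp t • (θ : EuclideanSpace ℝ (Fin n))) *
        v (Real.exp t • (θ : EuclideanSpace ℝ (Fin n))) ^ p :=
      mul_pos (hK _ hx) (Real.rpow_pos_of_pos (hv _) p)
    rw [← h2] at h3
    have h4 := mul_pos (Real.exp_pos (2 * t)) h3
    show Real.exp (2 * t) * _ < _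
    linarith only [h4]
  refine ⟨min c1 c2, ⟨{
    u := toCyl u h.sol.contDiffOn_u
    v := toCyl v h.sol.contDiffOn_v
    hk := lt_min hc1 hc2
    hu := fun t θ => h.sol.pos_u _
    hv := fun t θ => h.sol.pos_v _
    su := sup h.sol.contDiffOn_u h.sol.pos_v (fun x hx => h.wK.pos hx) h.sol.eq_u
    sv := sup h.sol.contDiffOn_v h.sol.pos_u (fun x hx => h.wL.pos hx) h.sol.eq_v
    eu := aux (min_le_left _ _) h.sol.contDiffOn_u h.sol.pos_v h1 h.sol.eq_u
    ev := aux (min_le_right _ _) h.sol.contDiffOn_v h.sol.pos_u h2 h.sol.eq_v }⟩⟩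

open H20 in
/-- Nonexistence for general weights. -/
theorem no_solutionG {n : ℕ} (hn : 2 ≤ n) {p q A B M Ch : ℝ} (hp : 0 < p) (hq : 0 < q)
    (hA : -2 < A) (hB : -2 < B)
    (hw : (n : ℝ) - 2 < ((n : ℝ) + A) / (p + 1) + ((n : ℝ) + B) / (q + 1))
    {K L u v : EuclideanSpace ℝ (Fin n) → ℝ} (hs : SG n p q A B M Ch K L u v) : False := by
  obtain ⟨θ0⟩ := sph_nonempty (n := n) (by omega)
  have : Nonempty (Metric.sphere (0 : EuclideanSpace ℝ (Fin n)) 1) := ⟨θ0⟩
  obtain ⟨k, ⟨s⟩⟩ := toSolJ hs θ0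
  have hn2 : (2 : ℝ) ≤ n := by exact_mod_cast hn
  rcases eq_or_lt_of_le hn2 with h2 | h2
  · rw [← h2, sub_self] at s
    exact s.false_of_N_zero
  rcases le_or_gt (p * q) 1 with hpq | hpq
  · have : 0 < p * (2 + B) := mul_pos hp (by linarith only [hB])
    exact s.false_of_sublinear (by linarith only [h2]) hp hq hpq (by linarith only [hA, this])
  · have h3 : (2 : ℕ) < n := by exact_mod_cast h2
    exact no_solution_rmG (by omega) hp hq hpq hA hB hw hs

end Vale.Agent.P100
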