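import Mathlib

/-!
Weights on `ℝ^n` minus the origin which grow along every ray at least like `|x|^A`.
-/

namespace Vale.Agent.P100

/-- A weight of radial degree at least `A`: positive and continuous off the origin,
`t^A K(x) ≤ K(t x) ≤ t^M K(x)` for all `t ≥ 1` (some `M`), and with bounded ratios on every sphere
centred at the origin (a common bound for all spheres). -/
structure IsGrowingWeight (n : ℕ) (A : ℝ) (K : EuclideanSpace ℝ (Fin n) → ℝ) : Prop where
  continuousOn : ContinuousOn K {0}ᶜ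
  pos : ∀ x, x ≠ 0 → 0 < K x
  radial_lower : ∀ x, x ≠ 0 → ∀ t : ℝ, 1 ≤ t → t ^ A * K x ≤ K (t • x)
  radial_upper : ∃ M : ℝ, ∀ x, x ≠ 0 → ∀ t : ℝ, 1 ≤ t → K (t • x) ≤ t ^ M * K x
  angular : ∃ C : ℝ, ∀ x y, x ≠ 0 → ‖x‖ = ‖y‖ → K x ≤ C * K y

end Vale.Agent.P100
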