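import Mathlib
import Vale.Agent.P100.H20.G7
import Vale.Agent.P100.H20.Growing

set_option linter.all false

/-!
The nonexistence theorem for growing weights.
-/

namespace Vale.Agent.P100.H20

open Vale.Agent.P100.RM

variable {n : ℕ}

/-- Common explicit constants. -/
lemma exists_wg {A B : ℝ} {K L : E n → ℝ} (hK : IsGrowingWeight n A K)
    (hL : IsGrowingWeight n B L) : ∃ M C : ℝ, Wg n A M C K ∧ Wg n B M C L := by
  obtain ⟨M1, h1⟩ := hK.radial_upper
  obtain ⟨C1, a1⟩ := hK.angular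
  obtain ⟨M2, h2⟩ := hL.radial_upper
  obtain ⟨C2, a2⟩ := hL.angular
  refine ⟨max M1 M2, max C1 C2, ⟨hK.continuousOn, fun {x} hx => hK.pos x hx, hK.radial_lower,
    fun x hx t ht => ?_, fun x y hx hxy => ?_⟩, ⟨hL.continuousOn, fun {x} hx => hL.pos x hx,
    hL.radial_lower, fun x hx t ht => ?_, fun x y hx hxy => ?_⟩⟩
  · exact (h1 x hx t ht).trans (mul_le_mul_of_nonneg_right
      (Real.rpow_le_rpow_of_exponent_le ht (le_max_left _ _)) (hK.pos x hx).le)
  · have hy : y ≠ 0 := by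
      rintro rfl
      rw [norm_zero] at hxy
      exact hx (norm_eq_zero.1 hxy)
    exact (a1 x y hx hxy).trans (mul_le_mul_of_nonneg_right (le_max_left _ _) (hK.pos y hy).le)
  · exact (h2 x hx t ht).trans (mul_le_mul_of_nonneg_right
      (Real.rpow_le_rpow_of_exponent_le ht (le_max_right _ _)) (hL.pos x hx).le)
  · have hy : y ≠ 0 := by
      rintro rfl
      rw [norm_zero] at hxy
      exact hx (norm_eq_zero.1 hxy)
    exact (a2 x y hx hxy).trans (mul_le_mul_of_nonneg_right (le_max_right _ _) (hL.pos y hy).le)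

/-- **Nonexistence for growing weights.** -/
theorem no_solution_growing (hn : 2 ≤ n) {p q A B : ℝ} (hp : 0 < p) (hq : 0 < q)
    (hA : -2 < A) (hB : -2 < B)
    (hw : (n : ℝ) - 2 < ((n : ℝ) + A) / (p + 1) + ((n : ℝ) + B) / (q + 1))
    {K L : EuclideanSpace ℝ (Fin n) → ℝ} (hK : IsGrowingWeight n A K)
    (hL : IsGrowingWeight n B L) :
    ¬ ∃ u v : EuclideanSpace ℝ (Fin n) → ℝ, IsPositiveEntireSolutionW n p q K L u v := by
  rintro ⟨u, v, hs⟩
  obtain ⟨M, C, wK, wL⟩ := exists_wg hK hL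
  exact no_solutionG hn hp hq hA hB hw (⟨wK, wL, hs⟩ : SG n p q A B M C K L u v)

end Vale.Agent.P100.H20
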