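import Mathlib

/-!
Homogeneous weights.
-/

namespace Vale.Agent.P100

/-- A positive continuous function on `ℝ^n` minus the origin, homogeneous of degree `A`. -/
structure IsHomogeneousWeight (n : ℕ) (A : ℝ) (K : EuclideanSpace ℝ (Fin n) → ℝ) : Prop where
  continuousOn : ContinuousOn K {0}ᶜ
  pos : ∀ x, x ≠ 0 → 0 < K x
  homogeneous : ∀ x, x ≠ 0 → ∀ t : ℝ, 0 < t → K (t • x) = t ^ A * K x

end Vale.Agent.P100
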