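import Mathlib
import Vale.Agent.P100.H20.G7

set_option linter.all false

/-!
The strong minimum principle for superharmonic functions on the punctured space, every dimension
`n ≥ 2` (by adding one dummy variable).
-/

open MeasureTheory Metric Set Filter Topology InnerProductSpace

namespace Vale.Agent.P100.H20

open Vale.Agent.P100.RM

variable {n : ℕ}

/-- Projection that drops the last coordinate. -/
noncomputable def prj (n : ℕ) : E (n + 1) →L[ℝ] E n :=
  ((EuclideanSpace.equiv (Fin n) ℝ).symm : (Fin n → ℝ) →L[ℝ] E n) ∘L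
    (ContinuousLinearMap.pi fun i : Fin n =>
      (ContinuousLinearMap.proj (R := ℝ) (φ := fun _ : Fin (n + 1) => ℝ) i.castSucc)) ∘L
    ((EuclideanSpace.equiv (Fin (n + 1)) ℝ) : E (n + 1) →L[ℝ] (Fin (n + 1) → ℝ))

/-- The section of the projection. -/
noncomputable def sct (n : ℕ) : E n →L[ℝ] E (n + 1) :=
  ((EuclideanSpace.equiv (Fin (n + 1)) ℝ).symm : (Fin (n + 1) → ℝ) →L[ℝ] E (n + 1)) ∘L
    (ContinuousLinearMap.pi fun j : Fin (n + 1) =>
      (Fin.lastCases (motive := fun _ => (Fin n → ℝ) →L[ℝ] ℝ) 0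
        (fun i => ContinuousLinearMap.proj (R := ℝ) (φ := fun _ : Fin n => ℝ) i) j)) ∘L
    ((EuclideanSpace.equiv (Fin n) ℝ) : E n →L[ℝ] (Fin n → ℝ))

lemma prj_apply (y : E (n + 1)) (i : Fin n) : prj n y i = y i.castSucc := rfl

lemma sct_castSucc (x : E n) (i : Fin n) : sct n x i.castSucc = x i := by
  show (Fin.lastCases (motive := fun _ => (Fin n → ℝ) →L[ℝ] ℝ) 0
        (fun i => ContinuousLinearMap.proj (R := ℝ) (φ := fun _ : Fin n => ℝ) i) i.castSucc)
        ((EuclideanSpace.equiv (Fin n) ℝ) x) = x i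
  rw [Fin.lastCases_castSucc]
  rfl

lemma prj_sct (x : E n) : prj n (sct n x) = x := by
  ext i
  rw [prj_apply, sct_castSucc]

lemma prj_basis_castSucc (i : Fin n) :
    prj n (EuclideanSpace.basisFun (Fin (n + 1)) ℝ i.castSucc) =
      EuclideanSpace.basisFun (Fin n) ℝ i := by
  ext j
  rw [prj_apply]
  simp only [EuclideanSpace.basisFun_apply, PiLp.single_apply]
  simp only [Fin.castSucc_inj]

lemma prj_basis_last :
    prj n (EuclideanSpace.basisFun (Fin (n + 1)) ℝ (Fin.last n)) = 0 := by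
  ext j
  rw [prj_apply]
  simp only [EuclideanSpace.basisFun_apply, PiLp.single_apply]
  have : j.castSucc ≠ Fin.last n := (Fin.castSucc_lt_last j).ne
  simp [this]

/-- Laplacian of the lifted function. -/
lemma lap_prj {w : E n → ℝ} {y : E (n + 1)} (hw : ContDiffAt ℝ 2 w (prj n y)) :
    Laplacian.laplacian (fun z => w (prj n z)) y = Laplacian.laplacian w (prj n y) := by
  rw [laplacian_eq_iteratedFDeriv_orthonormalBasis _ (EuclideanSpace.basisFun (Fin (n + 1)) ℝ),
    laplacian_eq_iteratedFDeriv_orthonormalBasis w (EuclideanSpace.basisFun (Fin n) ℝ)]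
  have key : ∀ a : E (n + 1), iteratedFDeriv ℝ 2 (fun z => w (prj n z)) y ![a, a] =
      iteratedFDeriv ℝ 2 w (prj n y) ![prj n a, prj n a] := by
    intro a
    have hev : ∀ᶠ z in 𝓝 y, DifferentiableAt ℝ w (prj n z) := by
      have h1 : ∀ᶠ z in 𝓝 (prj n y), DifferentiableAt ℝ w z := by
        have h2 : ∀ᶠ z in 𝓝 (prj n y), ContDiffAt ℝ 2 w z := hw.eventually (by simp)
        filter_upwards [h2] with z hz
        exact hz.differentiableAt (by norm_num)
      exact (prj n).continuous.continuousAt.eventually h1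
    have hf1 : (fderiv ℝ fun z => w (prj n z)) =ᶠ[𝓝 y]
        fun z => (fderiv ℝ w (prj n z)).comp (prj n) := by
      filter_upwards [hev] with z hz
      have h1 := (hz.hasFDerivAt.comp z (prj n).hasFDerivAt).fderiv
      exact h1
    have hd2 : DifferentiableAt ℝ (fderiv ℝ w) (prj n y) :=
      (hw.fderiv_right (m := 1) (by norm_num)).differentiableAt (by norm_num)
    have h2 : HasFDerivAt (fun z => (fderiv ℝ w (prj n z)).comp (prj n))
        (((ContinuousLinearMap.compL ℝ (E (n + 1)) (E n) ℝ).flip (prj n)).comp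
          ((fderiv ℝ (fderiv ℝ w) (prj n y)).comp (prj n))) y := by
      have h3 : HasFDerivAt (fun z => fderiv ℝ w (prj n z))
          ((fderiv ℝ (fderiv ℝ w) (prj n y)).comp (prj n)) y :=
        hd2.hasFDerivAt.comp y (prj n).hasFDerivAt
      exact ((ContinuousLinearMap.compL ℝ (E (n + 1)) (E n) ℝ).flip (prj n)).hasFDerivAt.comp y h3
    rw [iteratedFDeriv_two_apply, iteratedFDeriv_two_apply, hf1.fderiv_eq, h2.fderiv]
    simp
  simp only [key]
  rw [Fin.sum_univ_castSucc]
  simp only [prj_basis_castSucc, prj_basis_last]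
  have h0 : iteratedFDeriv ℝ 2 w (prj n y) ![0, 0] = 0 := by
    rw [iteratedFDeriv_two_apply]
    simp
  rw [h0, add_zero]

/-- Local strong minimum principle. -/
lemma smp_local (hn : 2 ≤ n) {w : E n → ℝ} (hw : ContDiffOn ℝ 2 w {0}ᶜ) (h0 : ∀ x, 0 ≤ w x)
    (hl : ∀ x, x ≠ 0 → Laplacian.laplacian w x ≤ 0) {x : E n} (hx : x ≠ 0) (hwx : w x = 0) :
    ∀ᶠ z in 𝓝 x, w z = 0 := by
  obtain ⟨C, hC, hb⟩ := RM.mv_est (n + 1) (by omega)
  set U : Set (E (n + 1)) := (prj n) ⁻¹' {0}ᶜ with hU
  have hUo : IsOpen U := isOpen_compl_singleton.preimage (prj n).continuous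
  set y := sct n x with hy
  have hyx : prj n y = x := prj_sct x
  have hyU : y ∈ U := by
    show prj n y ∈ ({0}ᶜ : Set (E n))
    rw [hyx]
    exact hx
  obtain ⟨r, hr, hrU⟩ := Metric.isOpen_iff.1 hUo y hyU
  set W : E (n + 1) → ℝ := fun z => w (prj n z) with hW
  have hWc : ContDiffOn ℝ 2 W U := hw.comp (prj n).contDiff.contDiffOn fun z hz => hz
  have hsub : closedBall y (2 * (r / 4)) ⊆ U :=
    (closedBall_subset_ball (by linarith)).trans hrU
  have key := hb W U y (r / 4) (by positivity) hUo hsub hWc (by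
    intro z hz
    have hzU : prj n z ≠ 0 := hsub hz
    refine ⟨h0 _, ?_⟩
    rw [lap_prj (hw.contDiffAt (isOpen_compl_singleton.mem_nhds hzU))]
    exact hl _ hzU)
  have hWy : W y = 0 := by rw [hW]; simp only; rw [hyx]; exact hwx
  rw [hWy, mul_zero] at key
  have hsub2 : closedBall y (r / 4) ⊆ U :=
    (closedBall_subset_ball (by linarith)).trans hrU
  have hcont : ContinuousOn W (closedBall y (r / 4)) := hWc.continuousOn.mono hsub2
  have hint : IntegrableOn W (closedBall y (r / 4)) :=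
    hcont.integrableOn_compact (isCompact_closedBall _ _)
  have hzero : ∫ z in closedBall y (r / 4), W z = 0 :=
    le_antisymm key (integral_nonneg fun z => h0 _)
  have hae : W =ᵐ[volume.restrict (closedBall y (r / 4))] 0 :=
    (integral_eq_zero_iff_of_nonneg (fun z => h0 _) hint).1 hzero
  have hae2 : W =ᵐ[volume.restrict (ball y (r / 4))] 0 :=
    ae_restrict_of_ae_restrict_of_subset ball_subset_closedBall hae
  have heq : EqOn W 0 (ball y (r / 4)) :=
    Measure.eqOn_open_of_ae_eq hae2 isOpen_ball (hcont.mono ball_subset_closedBall)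
      continuousOn_const
  have hev : ∀ᶠ z in 𝓝 x, sct n z ∈ ball y (r / 4) :=
    (sct n).continuous.continuousAt.eventually (isOpen_ball.mem_nhds (by
      rw [hy]
      exact mem_ball_self (by positivity)))
  filter_upwards [hev] with z hz
  have := heq hz
  simp only [hW, Pi.zero_apply] at this
  rwa [prj_sct] at this

/-- Strong minimum principle on the punctured space. -/
theorem smp (hn : 2 ≤ n) {w : E n → ℝ} (hw : ContDiffOn ℝ 2 w {0}ᶜ) (h0 : ∀ x, 0 ≤ w x)
    (hl : ∀ x, x ≠ 0 → Laplacian.laplacian w x ≤ 0) :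
    (∀ x, x ≠ 0 → 0 < w x) ∨ ∀ x, x ≠ 0 → w x = 0 := by
  by_cases hpos : ∀ x, x ≠ 0 → 0 < w x
  · exact Or.inl hpos
  right
  push Not at hpos
  obtain ⟨x0, hx0, hx0w⟩ := hpos
  have hwx0 : w x0 = 0 := le_antisymm hx0w (h0 x0)
  have hconn : IsConnected ({0}ᶜ : Set (E n)) := by
    apply isConnected_compl_singleton_of_one_lt_rank
    rw [← Module.finrank_eq_rank]
    have : Module.finrank ℝ (E n) = n := finrank_euclideanSpace_fin
    rw [this]
    exact_mod_cast hn
  have hpre := hconn.isPreconnected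
  set Z : Set (E n) := {x | x ≠ 0 ∧ w x = 0} with hZ
  have hZo : IsOpen Z := by
    rw [isOpen_iff_mem_nhds]
    rintro x ⟨hx, hwx⟩
    filter_upwards [smp_local hn hw h0 hl hx hwx, isOpen_compl_singleton.mem_nhds hx] with z hz hz2
    exact ⟨hz2, hz⟩
  set P : Set (E n) := {x | x ≠ 0 ∧ 0 < w x} with hP
  have hPo : IsOpen P := by
    rw [isOpen_iff_mem_nhds]
    rintro x ⟨hx, hwx⟩
    have hc : ContinuousAt w x := (hw.continuousOn.continuousAt (isOpen_compl_singleton.mem_nhds hx))
    filter_upwards [hc.eventually (lt_mem_nhds hwx), isOpen_compl_singleton.mem_nhds hx] with z hz hz2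
    exact ⟨hz2, hz⟩
  intro x hx
  by_contra hne
  have hxP : x ∈ P := ⟨hx, lt_of_le_of_ne (h0 x) (Ne.symm hne)⟩
  obtain ⟨z, hz1, hz2, hz3⟩ := hpre Z P hZo hPo (fun z hz => by
    rcases eq_or_lt_of_le (h0 z) with h | h
    · exact Or.inl ⟨hz, h.symm⟩
    · exact Or.inr ⟨hz, h⟩) ⟨x0, hx0, hx0, hwx0⟩ ⟨x, hx, hxP⟩
  exact hz3.2.ne' hz2.2

end Vale.Agent.P100.H20
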