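import Mathlib

/-!
Nonnegative entire solutions of the weighted system `-Δ u = K v^p`, `-Δ v = L u^q` on `ℝ^n` minus
the origin.
-/

namespace Vale.Agent.P100

/-- `(u, v)` is a nonnegative entire solution of the system `-Δ u = K(x) v^p`, `-Δ v = L(x) u^q` on
`ℝ^n` minus the origin: `u, v ≥ 0` are continuous on `ℝ^n` and `C^2` off the origin, and both
equations hold at every `x ≠ 0`. -/
structure IsNonnegEntireSolutionW (n : ℕ) (p q : ℝ) (K L u v : EuclideanSpace ℝ (Fin n) → ℝ) :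
    Prop where
  contDiffOn_u : ContDiffOn ℝ 2 u {0}ᶜ
  contDiffOn_v : ContDiffOn ℝ 2 v {0}ᶜ
  continuous_u : Continuous u
  continuous_v : Continuous v
  nonneg_u : ∀ x, 0 ≤ u x
  nonneg_v : ∀ x, 0 ≤ v x
  eq_u : ∀ x, x ≠ 0 → -(Laplacian.laplacian u x) = K x * v x ^ p
  eq_v : ∀ x, x ≠ 0 → -(Laplacian.laplacian v x) = L x * u x ^ q

end Vale.Agent.P100
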