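import Mathlib
import Vale.Agent.P100.H20.Smp
import Vale.Agent.P100.H20.SysN
import Vale.Agent.P100.H20.Final
import Vale.Agent.P100.H20.Final2
import Vale.Agent.P100.H20.Hom

set_option linter.all false

/-!
Liouville theorems for nonnegative solutions with weights.
-/

open MeasureTheory Set Filter Topology

namespace Vale.Agent.P100

open H20 in
/-- A solution which is positive off the origin gives a supersolution on the cylinder. -/
theorem toSolJ' {n : ℕ} {p q A B M Ch : ℝ} {K L u v : EuclideanSpace ℝ (Fin n) → ℝ}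
    (hwK : Wg n A M Ch K) (hwL : Wg n B M Ch L) (h : IsNonnegEntireSolutionW n p q K L u v)
    (pu : ∀ x, x ≠ 0 → 0 < u x) (pv : ∀ x, x ≠ 0 → 0 < v x)
    (θ0 : Metric.sphere (0 : EuclideanSpace ℝ (Fin n)) 1) :
    ∃ k : ℝ, Nonempty
      (SolJ (Metric.sphere (0 : EuclideanSpace ℝ (Fin n)) 1) ((n : ℝ) - 2) p q A B k) := by
  have low : ∀ {A : ℝ} {K : EuclideanSpace ℝ (Fin n) → ℝ}, Wg n A M Ch K → ∃ c : ℝ, 0 < c ∧
      ∀ t : ℝ, -1 ≤ t → ∀ θ : Metric.sphere (0 : EuclideanSpace ℝ (Fin n)) 1,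
      c * Real.exp (t * A) ≤ K (Real.exp t • (θ : EuclideanSpace ℝ (Fin n))) := by
    intro A K w
    have hk0 : 0 < Ch⁻¹ * K (θ0 : EuclideanSpace ℝ (Fin n)) := (w.wl θ0).c0
    refine ⟨Real.exp (-(2 * |A| + |M|)) * (Ch⁻¹ * K (θ0 : EuclideanSpace ℝ (Fin n))),
      mul_pos (Real.exp_pos _) hk0, fun t ht θ => ?_⟩
    have hlo := (w.wl θ0).lo θ
    generalize Ch⁻¹ * K (θ0 : EuclideanSpace ℝ (Fin n)) = k0 at *
    have hA := abs_nonneg A
    have hM := abs_nonneg M
    rcases le_total 0 t with h0 | h0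
    · have h1 := w.ray θ h0
      rw [Real.exp_zero, one_smul, sub_zero] at h1
      refine le_trans ?_ h1
      have h2 : Real.exp (-(2 * |A| + |M|)) ≤ 1 :=
        Real.exp_le_one_iff.2 (by linarith only [hA, hM])
      have h3 := (Real.exp_pos (A * t)).le
      rw [mul_comm t A]
      calc Real.exp (-(2 * |A| + |M|)) * k0 * Real.exp (A * t)
          ≤ 1 * k0 * Real.exp (A * t) :=
            mul_le_mul_of_nonneg_right (mul_le_mul_of_nonneg_right h2 hk0.le) h3
        _ = Real.exp (A * t) * k0 := by ring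
        _ ≤ _ := mul_le_mul_of_nonneg_left hlo h3
    · have h1 := w.low θ t
      refine le_trans ?_ h1
      have h2 : Real.exp (-(2 * |A| + |M|)) * Real.exp (t * A) ≤
          Real.exp (-((|A| + |M|) * |t|)) := by
        rw [← Real.exp_add]
        apply Real.exp_le_exp.2
        have e1 : |t| ≤ 1 := by rw [abs_of_nonpos h0]; linarith only [ht]
        have e2 : t * A ≤ |t| * |A| := by rw [← abs_mul]; exact le_abs_self _
        have e3 := mul_le_mul_of_nonneg_left e1 hA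
        have e4 := mul_le_mul_of_nonneg_left e1 hM
        linarith only [e2, e3, e4]
      calc Real.exp (-(2 * |A| + |M|)) * k0 * Real.exp (t * A)
          = (Real.exp (-(2 * |A| + |M|)) * Real.exp (t * A)) * k0 := by ring
        _ ≤ Real.exp (-((|A| + |M|) * |t|)) * k0 := mul_le_mul_of_nonneg_right h2 hk0.le
        _ ≤ _ := mul_le_mul_of_nonneg_left hlo (Real.exp_pos _).le
  obtain ⟨c1, hc1, h1⟩ := low hwK
  obtain ⟨c2, hc2, h2⟩ := low hwL
  have aux : ∀ {A c c' p : ℝ} {K u v : EuclideanSpace ℝ (Fin n) → ℝ}, c' ≤ c →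
      ∀ (hu : ContDiffOn ℝ 2 u {0}ᶜ), (∀ x, x ≠ 0 → 0 < v x) →
      (∀ t : ℝ, -1 ≤ t → ∀ θ : Metric.sphere (0 : EuclideanSpace ℝ (Fin n)) 1,
        c * Real.exp (t * A) ≤ K (Real.exp t • (θ : EuclideanSpace ℝ (Fin n)))) →
      (∀ x, x ≠ 0 → -(Laplacian.laplacian u x) = K x * v x ^ p) →
      ∀ (t : ℝ) (θ : Metric.sphere (0 : EuclideanSpace ℝ (Fin n)) 1), -1 ≤ t →
      (toCyl u hu).f2 t θ + ((n : ℝ) - 2) * (toCyl u hu).f1 t θ + (toCyl u hu).S t θ ≤
      -(c' * (Real.exp ((2 + A) * t) *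
        v (Real.exp t • (θ : EuclideanSpace ℝ (Fin n))) ^ p)) := by
    intro A c c' p K u v hc' hu hv hK he t θ ht
    have h1 := toCyl_eq u hu t θ
    rw [finrank_euclideanSpace_fin] at h1
    rw [h1]
    have hx := expsmul_ne_zero t θ
    have h2 := he (Real.exp t • (θ : EuclideanSpace ℝ (Fin n))) hx
    have h3 := hK t ht θ
    have h4 : 0 < v (Real.exp t • (θ : EuclideanSpace ℝ (Fin n))) ^ p :=
      Real.rpow_pos_of_pos (hv _ hx) p
    have h5 : c' * Real.exp (t * A) ≤ K (Real.exp t • (θ : EuclideanSpace ℝ (Fin n))) :=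
      (mul_le_mul_of_nonneg_right hc' (Real.exp_pos _).le).trans h3
    have h6 := mul_le_mul_of_nonneg_right h5 h4.le
    have h7 : Real.exp ((2 + A) * t) = Real.exp (2 * t) * Real.exp (t * A) := by
      rw [← Real.exp_add]; congr 1; ring
    have h8 := mul_le_mul_of_nonneg_left h6 (Real.exp_pos (2 * t)).le
    rw [h7]
    show Real.exp (2 * t) * _ ≤ _
    linarith only [h8, h2, congrArg (fun z => Real.exp (2 * t) * z) h2]
  have sup : ∀ {p : ℝ} {K u v : EuclideanSpace ℝ (Fin n) → ℝ},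
      ∀ (hu : ContDiffOn ℝ 2 u {0}ᶜ), (∀ x, x ≠ 0 → 0 < v x) → (∀ x, x ≠ 0 → 0 < K x) →
      (∀ x, x ≠ 0 → -(Laplacian.laplacian u x) = K x * v x ^ p) →
      ∀ (t : ℝ) (θ : Metric.sphere (0 : EuclideanSpace ℝ (Fin n)) 1),
      (toCyl u hu).f2 t θ + ((n : ℝ) - 2) * (toCyl u hu).f1 t θ + (toCyl u hu).S t θ < 0 := by
    intro p K u v hu hv hK he t θ
    have h1 := toCyl_eq u hu t θ
    rw [finrank_euclideanSpace_fin] at h1
    rw [h1]
    have hx := expsmul_ne_zero t θ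
    have h2 := he (Real.exp t • (θ : EuclideanSpace ℝ (Fin n))) hx
    have h3 : 0 < K (Real.exp t • (θ : EuclideanSpace ℝ (Fin n))) *
        v (Real.exp t • (θ : EuclideanSpace ℝ (Fin n))) ^ p :=
      mul_pos (hK _ hx) (Real.rpow_pos_of_pos (hv _ hx) p)
    rw [← h2] at h3
    have h4 := mul_pos (Real.exp_pos (2 * t)) h3
    show Real.exp (2 * t) * _ < _
    linarith only [h4]
  refine ⟨min c1 c2, ⟨{
    u := toCyl u h.contDiffOn_u
    v := toCyl v h.contDiffOn_v
    hk := lt_min hc1 hc2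
    hu := fun t θ => pu _ (expsmul_ne_zero t θ)
    hv := fun t θ => pv _ (expsmul_ne_zero t θ)
    su := sup h.contDiffOn_u pv (fun x hx => hwK.pos hx) h.eq_u
    sv := sup h.contDiffOn_v pu (fun x hx => hwL.pos hx) h.eq_v
    eu := aux (min_le_left _ _) h.contDiffOn_u pv h1 h.eq_u
    ev := aux (min_le_right _ _) h.contDiffOn_v pu h2 h.eq_v }⟩⟩

namespace H20

open RM

variable {n : ℕ}

/-- Dichotomy: a nonnegative solution vanishes identically or is positive off the origin. -/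
theorem nonneg_dichotomy (hn : 2 ≤ n) {p q : ℝ} (hp : 0 < p) (hq : 0 < q)
    {K L u v : EuclideanSpace ℝ (Fin n) → ℝ} (hK : ∀ x, x ≠ 0 → 0 < K x)
    (hL : ∀ x, x ≠ 0 → 0 < L x) (h : IsNonnegEntireSolutionW n p q K L u v) :
    (∀ x, u x = 0 ∧ v x = 0) ∨ ((∀ x, x ≠ 0 → 0 < u x) ∧ ∀ x, x ≠ 0 → 0 < v x) := by
  have key : ∀ {p : ℝ} {K u v : EuclideanSpace ℝ (Fin n) → ℝ}, 0 < p → (∀ x, x ≠ 0 → 0 < K x) →
      ContDiffOn ℝ 2 u {0}ᶜ → (∀ x, 0 ≤ u x) → (∀ x, 0 ≤ v x) →
      (∀ x, x ≠ 0 → -(Laplacian.laplacian u x) = K x * v x ^ p) →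
      (∀ x, x ≠ 0 → 0 < u x) ∨ ((∀ x, x ≠ 0 → u x = 0) ∧ ∀ x, x ≠ 0 → v x = 0) := by
    intro p K u v hp hK hu hu0 hv0 he
    rcases smp hn hu hu0 (fun x hx => by
      have h1 := he x hx
      have h2 : 0 ≤ K x * v x ^ p := mul_nonneg (hK x hx).le (Real.rpow_nonneg (hv0 x) _)
      linarith only [h1, h2]) with h1 | h1
    · exact Or.inl h1
    · refine Or.inr ⟨h1, fun x hx => ?_⟩
      have h2 : u =ᶠ[𝓝 x] fun _ => (0 : ℝ) := by
        filter_upwards [isOpen_compl_singleton.mem_nhds hx] with z hz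
        exact h1 z hz
      have h3 : Laplacian.laplacian u x = 0 := by
        rw [(InnerProductSpace.laplacian_congr_nhds h2).self_of_nhds]
        rw [InnerProductSpace.laplacian_eq_iteratedFDeriv_stdOrthonormalBasis]
        simp [iteratedFDeriv_const_of_ne two_ne_zero]
      have h4 := he x hx
      rw [h3, neg_zero] at h4
      have h5 : v x ^ p = 0 := by
        rcases mul_eq_zero.1 h4.symm with h6 | h6
        · exact absurd h6 (hK x hx).ne'
        · exact h6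
      exact ((Real.rpow_eq_zero (hv0 x) hp.ne').1 h5)
  have hnt : Nontrivial (EuclideanSpace ℝ (Fin n)) := by
    have : Nonempty (Fin n) := ⟨⟨0, by omega⟩⟩
    infer_instance
  have ext0 : ∀ {w : EuclideanSpace ℝ (Fin n) → ℝ}, Continuous w → (∀ x, x ≠ 0 → w x = 0) →
      ∀ x, w x = 0 := by
    intro w hw h0 x
    have hd : Dense ({0}ᶜ : Set (EuclideanSpace ℝ (Fin n))) := dense_compl_singleton 0
    have := Continuous.ext_on hd hw continuous_const (fun z hz => h0 z hz)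
    exact congrFun this x
  rcases key hp hK h.contDiffOn_u h.nonneg_u h.nonneg_v h.eq_u with h1 | ⟨h1, h2⟩
  · rcases key hq hL h.contDiffOn_v h.nonneg_v h.nonneg_u h.eq_v with h3 | ⟨h3, h4⟩
    · exact Or.inr ⟨h1, h3⟩
    · exact Or.inl fun x => ⟨ext0 h.continuous_u h4 x, ext0 h.continuous_v h3 x⟩
  · exact Or.inl fun x => ⟨ext0 h.continuous_u h1 x, ext0 h.continuous_v h2 x⟩

/-- Positivity at the origin, `n ≥ 3`. -/
lemma pos_zero (hn : 3 ≤ n) {p : ℝ} {K u v : EuclideanSpace ℝ (Fin n) → ℝ}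
    (hK : ∀ x, x ≠ 0 → 0 < K x) (hu : ContDiffOn ℝ 2 u {0}ᶜ) (cu : Continuous u)
    (pu : ∀ x, x ≠ 0 → 0 < u x) (pv : ∀ x, x ≠ 0 → 0 < v x)
    (he : ∀ x, x ≠ 0 → -(Laplacian.laplacian u x) = K x * v x ^ p) : 0 < u 0 := by
  obtain ⟨θ0⟩ := sph_nonempty (n := n) (by omega)
  have : Nonempty (Metric.sphere (0 : EuclideanSpace ℝ (Fin n)) 1) := ⟨θ0⟩
  have cs : Continuous fun θ : Metric.sphere (0 : EuclideanSpace ℝ (Fin n)) 1 =>
      u (θ : EuclideanSpace ℝ (Fin n)) := cu.comp continuous_subtype_val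
  obtain ⟨θ1, -, hθ1⟩ := isCompact_univ.exists_isMinOn
    (univ_nonempty (α := Metric.sphere (0 : EuclideanSpace ℝ (Fin n)) 1)) cs.continuousOn
  have hc : 0 < u (θ1 : EuclideanSpace ℝ (Fin n)) := pu _ (Wt.sph_ne θ1)
  have hn' : (3 : ℝ) ≤ n := by exact_mod_cast hn
  have hlow := (toCyl u hu).lower_left (N := (n : ℝ) - 2) (by linarith only [hn']) (by
      intro t θ
      have h1 := toCyl_eq u hu t θ
      rw [finrank_euclideanSpace_fin] at h1
      rw [h1]
      have hx := expsmul_ne_zero t θ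
      have h2 := he (Real.exp t • (θ : EuclideanSpace ℝ (Fin n))) hx
      have h3 : 0 < K (Real.exp t • (θ : EuclideanSpace ℝ (Fin n))) *
          v (Real.exp t • (θ : EuclideanSpace ℝ (Fin n))) ^ p :=
        mul_pos (hK _ hx) (Real.rpow_pos_of_pos (pv _ hx) p)
      rw [← h2] at h3
      have h4 := mul_pos (Real.exp_pos (2 * t)) h3
      show Real.exp (2 * t) * _ < _
      linarith only [h4])
    (fun t θ => pu _ (expsmul_ne_zero t θ)) (t0 := 0) hc.le (by
      intro θ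
      show _ ≤ u (Real.exp 0 • (θ : EuclideanSpace ℝ (Fin n)))
      rw [Real.exp_zero, one_smul]
      exact hθ1 (mem_univ θ))
  have hlim : Tendsto (fun t : ℝ => u (Real.exp t • (θ0 : EuclideanSpace ℝ (Fin n)))) atBot
      (𝓝 (u 0)) := by
    have h1 : Tendsto (fun t : ℝ => Real.exp t • (θ0 : EuclideanSpace ℝ (Fin n))) atBot
        (𝓝 ((0 : ℝ) • (θ0 : EuclideanSpace ℝ (Fin n)))) :=
      Real.tendsto_exp_atBot.smul_const _
    rw [zero_smul] at h1
    exact (cu.tendsto 0).comp h1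
  refine lt_of_lt_of_le hc (ge_of_tendsto hlim ?_)
  filter_upwards [eventually_le_atBot (0 : ℝ)] with t ht
  exact hlow t ht θ0

/-- Liouville theorem: reduction to positive solutions. -/
theorem liouville_of (hn : 2 ≤ n) {p q A B : ℝ} (hp : 0 < p) (hq : 0 < q)
    {K L u v : EuclideanSpace ℝ (Fin n) → ℝ} (hK : IsGrowingWeight n A K)
    (hL : IsGrowingWeight n B L)
    (hno : ¬ ∃ u v : EuclideanSpace ℝ (Fin n) → ℝ, IsPositiveEntireSolutionW n p q K L u v)
    (h : IsNonnegEntireSolutionW n p q K L u v) : ∀ x, u x = 0 ∧ v x = 0 := by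
  rcases nonneg_dichotomy hn hp hq hK.pos hL.pos h with h0 | ⟨pu, pv⟩
  · exact h0
  exfalso
  obtain ⟨M, C, wK, wL⟩ := exists_wg hK hL
  obtain ⟨θ0⟩ := sph_nonempty (n := n) (by omega)
  have : Nonempty (Metric.sphere (0 : EuclideanSpace ℝ (Fin n)) 1) := ⟨θ0⟩
  rcases Nat.lt_or_ge n 3 with hn3 | hn3
  · obtain ⟨k, ⟨s⟩⟩ := toSolJ' wK wL h pu pv θ0
    have h2 : n = 2 := by omega
    have h2' : (n : ℝ) - 2 = 0 := by rw [h2]; norm_num
    rw [h2'] at s
    exact s.false_of_N_zero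
  · apply hno
    have u0 := pos_zero hn3 hK.pos h.contDiffOn_u h.continuous_u pu pv h.eq_u
    have v0 := pos_zero hn3 hL.pos h.contDiffOn_v h.continuous_v pv pu h.eq_v
    refine ⟨u, v, h.contDiffOn_u, h.contDiffOn_v, h.continuous_u, h.continuous_v, fun x => ?_,
      fun x => ?_, h.eq_u, h.eq_v⟩
    · by_cases hx : x = 0
      · rw [hx]; exact u0
      · exact pu x hx
    · by_cases hx : x = 0
      · rw [hx]; exact v0
      · exact pv x hx

/-- Homogeneous weights are growing weights. -/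
theorem growing_of_homogeneous {A : ℝ} {K : EuclideanSpace ℝ (Fin n) → ℝ}
    (h : IsHomogeneousWeight n A K) : IsGrowingWeight n A K := by
  obtain ⟨c, C, hc, hb⟩ := (isWeight_of_homogeneous h.continuousOn h.pos h.homogeneous).comparable
  refine ⟨h.continuousOn, h.pos, fun x hx t ht => ?_, ⟨A, fun x hx t ht => ?_⟩,
    ⟨|C| / c, fun x y hx hxy => ?_⟩⟩
  · exact (h.homogeneous x hx t (lt_of_lt_of_le one_pos ht)).ge
  · exact (h.homogeneous x hx t (lt_of_lt_of_le one_pos ht)).le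
  · have hy : y ≠ 0 := by
      rintro rfl
      rw [norm_zero] at hxy
      exact hx (norm_eq_zero.1 hxy)
    have h1 := (hb x hx).2
    have h2 := (hb y hy).1
    rw [hxy] at h1
    have h3 : 0 < ‖y‖ ^ A := Real.rpow_pos_of_pos (norm_pos_iff.2 hy) _
    calc K x ≤ C * ‖y‖ ^ A := h1
      _ ≤ |C| * ‖y‖ ^ A := mul_le_mul_of_nonneg_right (le_abs_self _) h3.le
      _ = |C| / c * (c * ‖y‖ ^ A) := by field_simp
      _ ≤ |C| / c * K y := mul_le_mul_of_nonneg_left h2 (div_nonneg (abs_nonneg _) hc.le)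

/-- Liouville theorem, homogeneous weights. -/
theorem liouville_homogeneous (hn : 2 ≤ n) {p q A B : ℝ} (hp : 0 < p) (hq : 0 < q)
    (h : (n : ℝ) - 2 < ((n : ℝ) + A) / (p + 1) + ((n : ℝ) + B) / (q + 1) ∨ A ≤ -2 ∨ B ≤ -2)
    {K L u v : EuclideanSpace ℝ (Fin n) → ℝ} (hK : IsHomogeneousWeight n A K)
    (hL : IsHomogeneousWeight n B L) (hs : IsNonnegEntireSolutionW n p q K L u v) :
    ∀ x, u x = 0 ∧ v x = 0 :=
  liouville_of hn hp hq (growing_of_homogeneous hK) (growing_of_homogeneous hL)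
    (no_solutionW_all hn hp hq h
      (isWeight_of_homogeneous hK.continuousOn hK.pos hK.homogeneous)
      (isWeight_of_homogeneous hL.continuousOn hL.pos hL.homogeneous)) hs

/-- Liouville theorem, growing weights. -/
theorem liouville_growing (hn : 2 ≤ n) {p q A B : ℝ} (hp : 0 < p) (hq : 0 < q)
    (hA : -2 < A) (hB : -2 < B)
    (h : (n : ℝ) - 2 < ((n : ℝ) + A) / (p + 1) + ((n : ℝ) + B) / (q + 1))
    {K L u v : EuclideanSpace ℝ (Fin n) → ℝ} (hK : IsGrowingWeight n A K)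
    (hL : IsGrowingWeight n B L) (hs : IsNonnegEntireSolutionW n p q K L u v) :
    ∀ x, u x = 0 ∧ v x = 0 :=
  liouville_of hn hp hq hK hL (no_solution_growing hn hp hq hA hB h hK hL) hs

end H20

end Vale.Agent.P100
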